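import Vale.Agent.P352Z.R.BB.SpecM
import Vale.Agent.P352X.R.BAS

/-!
# P352Z, row BB.cross: the cross terms with logarithms
-/

set_option linter.all false

open MeasureTheory Filter Topology Set
open scoped SchwartzMap ComplexConjugate ENNReal ContDiff

namespace Vale.Agent.P352X.ZZ.BX

open Vale.Agent.P352 Vale.Agent.P352.GF Vale.Agent.P352.BW Vale.Agent.P352.H246
open Vale.Agent.P352.H496 Vale.Agent.P352.H755 Vale.Agent.P352.H15 Vale.Agent.P352X.Ap
open UniformSpace (Completion)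

noncomputable section

namespace Cr

variable {D : Type*} [NormedAddCommGroup D] [InnerProductSpace ℂ D] {c : Ctx D}
  {ρ φ : ℝ → ℝ} {S : Set ℝ} {L N K : ℝ} {v : ℝ → Completion D}

/-- the scalings that commute with `P_b` preserve its form -/
theorem qb_usc (hL : 0 < L) (w : Completion D) : c.qb (Usc c.Q L 1 w) = c.qb w := by
  have h : (c.nu (Usc c.Q L 1 w)).map (Br.dsc L 1) = c.nu w := by
    rw [Br.Usc_apply _ hL one_pos]
    exact Kin.nu_U c.bR c.ct (Br.sc_pos hL one_pos) (Br.scL_lor hL one_pos) 0 w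
  rw [Ctx.qb, Ctx.qb, ← h, lintegral_map (by fun_prop) (Br.dsc_meas L 1)]
  simp only [Br.al_dsc hL one_pos, one_mul]

theorem Qb_usc (G : GRP c) (hL : 0 < L) {w : Completion D} (h : Qb c w N) :
    Qb c (Usc c.Q L 1 w) N := ⟨(usc_norm G _ _ w).trans_le h.1, (qb_usc hL w).trans_le h.2⟩

theorem inner_usc (G : GRP c) (hL : 0 < L) (w z : Completion D) :
    inner ℂ (Usc c.Q L 1 w) z = inner ℂ w (Usc c.Q L⁻¹ 1 z) := by
  have := G.star_sc hL one_pos
  rw [inv_one] at this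
  rw [← this, ContinuousLinearMap.star_eq_adjoint, ContinuousLinearMap.adjoint_inner_right]

theorem av_int (hρ : Tst ρ) (hS : IsCompact S) (hs : tsupport ρ ⊆ S) (hv : ContinuousOn v S) :
    Integrable fun u => (ρ u : ℂ) • v u := by
  refine (integrableOn_iff_integrable_of_support_subset (s := S)
    fun u hu => hs (subset_tsupport _ fun h => hu (by simp [h]))).1 ?_
  exact ((Complex.continuous_ofReal.comp hρ.1.continuous).continuousOn.smul
    hv).integrableOn_compact hS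

theorem av_eq (hi : Integrable fun u => (ρ u : ℂ) • v u) (w : Completion D) :
    ∫ u, (ρ u : ℂ) * inner ℂ w (v u) = inner ℂ w (∫ u, (ρ u : ℂ) • v u) := by
  simp only [← integral_inner hi, inner_smul_right]

theorem pt_le (hs : tsupport ρ ⊆ S) {F : ℝ → ℂ} (h : ∀ u ∈ S, ‖F u‖ ≤ K) (u : ℝ) :
    ‖(ρ u : ℂ) * F u‖ ≤ |ρ u| * K := by
  rw [norm_mul, Complex.norm_real, Real.norm_eq_abs]
  by_cases h0 : ρ u = 0
  · simp [h0]
  · exact mul_le_mul_of_nonneg_left (h u (hs (subset_tsupport _ h0))) (abs_nonneg _)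

theorem av_le (hρ : Tst ρ) (hs : tsupport ρ ⊆ S) {F : ℝ → ℂ} (h : ∀ u ∈ S, ‖F u‖ ≤ K) :
    ‖∫ u, (ρ u : ℂ) * F u‖ ≤ (∫ u, |ρ u|) * K := by
  rw [← integral_mul_const]
  exact norm_integral_le_of_norm_le ((cs_int hρ).abs.mul_const K)
    (Eventually.of_forall (pt_le hs h))

theorem av_lim (hρ : Tst ρ) (hs : tsupport ρ ⊆ S) (hi : Integrable fun u => (ρ u : ℂ) • v u)
    {w : ℕ → Completion D} (h : ∀ n, ∀ u ∈ S, ‖inner ℂ (w n) (v u)‖ ≤ K)
    (h0 : ∀ u ∈ S, Tendsto (fun n => inner ℂ (w n) (v u)) atTop (𝓝 0)) :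
    Tendsto (fun n => inner ℂ (w n) (∫ u, (ρ u : ℂ) • v u)) atTop (𝓝 0) := by
  have := tendsto_integral_of_dominated_convergence (f := fun _ => (0 : ℂ))
    (F := fun n u => (ρ u : ℂ) * inner ℂ (w n) (v u)) (fun u => |ρ u| * K)
    (fun n => by simpa only [inner_smul_right] using (hi.const_inner (𝕜 := ℂ) (w n)).1)
    ((cs_int hρ).abs.mul_const K) (fun n => Eventually.of_forall (pt_le hs (h n)))
    (Eventually.of_forall fun u => by
      by_cases h1 : ρ u = 0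
      · simp [h1]
      · simpa using (h0 u (hs (subset_tsupport _ h1))).const_mul (ρ u : ℂ))
  simpa only [av_eq hi, integral_zero] using this

theorem ss_ep (n : ℕ) : Real.sqrt (Real.sqrt (ep n)) ≤ (1 / 2) ^ n := by
  have h := half_mem n
  rw [Real.sqrt_le_left h.1.le, Real.sqrt_le_left (by positivity), ← pow_mul, ep]
  exact pow_le_pow_of_le_one h.1.le h.2 (by norm_num)

theorem tr_sum [Fact c.can] (F : FLUXL c) (l : ℝ) {g : Fin 2 → P3 → ℝ} (hg : ∀ i, Tst (g i))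
    (hφ : Tst φ) : ∃ C : ℝ, ∀ n w N, Qb c w N →
      ‖inner ℂ (∑ i, Tx (c.toS l) (ex i) (g i) (dil (ep n) φ)) w‖ ≤ C * N * (1 / 2) ^ n := by
  choose C hC using fun i => F.tr l i (g i) φ (hg i) hφ
  refine ⟨∑ i, |C i|, fun n w N h => ?_⟩
  rw [sum_inner, Finset.sum_mul, Finset.sum_mul]
  refine norm_sum_le_of_le _ fun i _ => (hC i _ (ep_mem n) w N h).trans ?_
  rw [mul_right_comm _ N]
  exact mul_le_mul_of_nonneg_right (mul_le_mul (le_abs_self _) (ss_ep n) (Real.sqrt_nonneg _)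
    (abs_nonneg _)) h.nonneg

theorem sg_le [Fact c.can] (F : FLUXL c) (l : ℝ) {g : P3 → ℝ} (hg : Tst g) (hφ : Tst φ)
    (w : Completion D) : ∃ C : ℝ, ∀ n,
      ‖inner ℂ (PP (dl c l (ll (ep n))) g (dil (ep n) φ)) w‖ ≤ C * (1 / 2) ^ n := by
  obtain ⟨C, hC⟩ := F.sg l g φ hg hφ
  refine ⟨|C| * ‖w‖, fun n => (norm_inner_le_norm _ _).trans ?_⟩
  rw [mul_right_comm]
  exact mul_le_mul_of_nonneg_right ((hC _ (ep_mem n)).trans (mul_le_mul (le_abs_self _) (ss_ep n)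
    (Real.sqrt_nonneg _) (abs_nonneg _))) (norm_nonneg _)

theorem lim_half (C : ℝ) : Tendsto (fun n : ℕ => C * (1 / 2 : ℝ) ^ n) atTop (𝓝 0) := by
  simpa using (tendsto_half.mono_right nhdsWithin_le_nhds).const_mul C

end Cr

open Cr

variable {D : Type*} [NormedAddCommGroup D] [InnerProductSpace ℂ D]

/-- **row BB.cross** -/
theorem cross_row (c : Ctx D) [Fact c.can] (t : T3 c) (F : FLUXL c) (E : DECL c) : CROSSL c := by
  intro d R u1 N χ ρ v hd hR hχ hρ hs hv hq η hη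
  obtain ⟨Γ, g1, φ0, γ, h1, h0, hγ, hp, hΓ, hL⟩ := E d R χ hd hR hχ
  have hi := av_int hρ isCompact_Icc hs hv
  have hε : ∀ᶠ n in atTop, ep n ≤ R :=
    (tendsto_ep.mono_right nhdsWithin_le_nhds).eventually_le_const (hd.trans_le hR)
  have h3 : 0 < η / 5 := by positivity
  have h4 : ‖(0 : ℂ)‖ < η / 5 := by rwa [norm_zero]
  obtain ⟨C, hC⟩ := tr_sum F 0 h1 h0
  obtain ⟨m, m1, m2⟩ := (hε.and
    ((lim_half (2 * ((∫ u, |ρ u|) * (C * N)))).eventually_le_const h3)).exists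
  filter_upwards [eventually_ge_atTop R, (Far.wn t.grp t.bas (hp _ (ep_pos m))
    (∫ u, (ρ u : ℂ) • v u)).norm.eventually_le_const h4] with L l1 l2
  obtain ⟨g2, g4, g3, h2, h5, h3', e⟩ := hL L l1
  have l0 : 0 < L := hd.trans_le (hR.trans l1)
  obtain ⟨C2, hC2⟩ := F.bd g2 γ h2 hγ
  obtain ⟨C3, hC3⟩ := tr_sum F (ll L) h3' hγ
  obtain ⟨C4, hC4⟩ := sg_le F (ll L) h5 hγ (∫ u, (ρ u : ℂ) • v u)
  have a2 := av_lim hρ hs hi (fun n u hu => hC2 _ (ep_mem n) _ _ (hq u hu))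
    fun u hu => (F.lim g2 γ _ _ h2 hγ (hq u hu)).comp tendsto_ep
  filter_upwards [hε, eventually_ge_atTop m, a2.norm.eventually_le_const h4,
    (lim_half ((∫ u, |ρ u|) * (C3 * N))).eventually_le_const h3,
    (lim_half C4).eventually_le_const h3] with n n1 n2 n3 n4 n5
  have a1 := dyadic (f := fun j => inner ℂ (Usc c.Q L 1 (Γ (ep j))) (∫ u, (ρ u : ℂ) • v u))
    (C := (∫ u, |ρ u|) * (C * N)) (fun j hj => by
      rw [← inner_sub_left, ← map_sub, hΓ j ((ep_anti hj).trans m1), ← av_eq hi, mul_assoc]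
      refine av_le hρ hs fun u hu => ?_
      rw [inner_usc t.grp l0]
      exact hC j _ _ (Qb_usc t.grp (inv_pos.2 l0) (hq u hu))) n2
  have a3 := av_le hρ hs fun u hu => hC3 n _ _ (hq u hu)
  rw [av_eq hi, ← mul_assoc] at a3
  rw [av_eq hi, e _ (ep_pos n) n1, inner_add_left, inner_add_left, inner_add_left]
  refine (norm_add_le_of_le norm_add₃_le (hC4 n)).trans ?_
  have a4 := norm_le_norm_add_norm_sub'
    (inner ℂ (Usc c.Q L 1 (Γ (ep n))) (∫ u, (ρ u : ℂ) • v u))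
    (inner ℂ (Usc c.Q L 1 (Γ (ep m))) (∫ u, (ρ u : ℂ) • v u))
  linarith

end

end Vale.Agent.P352X.ZZ.BX
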