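import Vale.Agent.P352Z.R.BB.Gen

/-!
# P352Z, row BB: identities between the members of the families
-/

set_option linter.all false

open MeasureTheory Filter Topology Set
open scoped SchwartzMap ComplexConjugate ENNReal ContDiff

namespace Vale.Agent.P352X.ZZ.BX

open Vale.Agent.P352 Vale.Agent.P352.GF Vale.Agent.P352.BW Vale.Agent.P352.H246
open Vale.Agent.P352.H496 Vale.Agent.P352.H755 Vale.Agent.P352.H15 Vale.Agent.P352X.Ap
open UniformSpace (Completion)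
open Complex (I)

noncomputable section

variable {D : Type*} [NormedAddCommGroup D] [InnerProductSpace ℂ D] {c : Ctx D} [Fact c.can]
  {g : P3 → ℝ} {φ : ℝ → ℝ} {r s l l' L R : ℝ} {f : Fn}

/-! ## scalings -/

theorem log_sq (h : 0 < r) : Real.log (Real.sqrt r) = Real.log r / 2 := Real.log_sqrt h.le

theorem ll_add (L : ℝ) : 0 = ll L + Real.log L / 2 := by rw [ll]; ring

theorem ug_S (G : GRP c) {Λ : Ix → V} (hs : 0 < s) (hL : IsLor Λ) (l : ℝ) (a h k : V)
    (hf : IsTest f) :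
    Ug c.Q s Λ a ((c.toS (l + Real.log s)).Tv (hk h k fun z => f (sim s Λ a z))) =
      (c.toS l).Tv (hk (sim 1 Λ 0 h) (sim 1 Λ 0 k) f) := by
  have := Grp.ten' (c.hC.fam.p2l l) (c.hC.fam.p2l (l + Real.log s)) a h k c.Q.vac hs hL hf
    fun m n => c.hC.fam.cov2 l m n s Λ a f _ hs hL hf
  rw [c.Q.U_vac _ _ _ hs hL] at this
  exact (G.coe _ _ _ _ hs hL).trans (congrArg _ this)

theorem usc_S (G : GRP c) (hr : 0 < r) (hs : 0 < s) (e : l' = l + Real.log (r * s) / 2) (h k : V)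
    (hf : IsTest f) :
    ((r * s : ℝ) : ℂ) • Usc c.Q r s ((c.toS l').Tv (hk h k fun z => f (scp r s z))) =
      (c.toS l).Tv (hk (scp r s h) (scp r s k) f) := by
  obtain ⟨hΛ, e1⟩ := G.lsc r s hr hs
  have hq : 0 < Real.sqrt (r * s) := Real.sqrt_pos.2 (by positivity)
  have := ug_S G hq hΛ l 0 h k hf
  simp only [e1] at this
  rw [log_sq (mul_pos hr hs), ← e] at this
  rw [← e1 h, ← e1 k, sim_smul h, sim_smul k, Tv_smul_l hf, Tv_smul_r hf, smul_smul, ← this,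
    ← Complex.ofReal_mul, Real.mul_self_sqrt (by positivity)]
  rfl

theorem Vv_smul (t l : ℝ) (h : V) (f : Fn) : c.Vv l (t • h) f = (t : ℂ) • c.Vv l h f := by
  simp only [Ctx.Vv, ← Completion.coe_smul, Finset.smul_sum, smul_smul, Pi.smul_apply, smul_eq_mul,
    ← Complex.ofReal_mul, mul_left_comm t]

theorem usc_V (G : GRP c) (hr : 0 < r) (hs : 0 < s) (e : l' = l + Real.log (r * s) / 2) (h : V)
    (hf : IsTest f) : ((r * s : ℝ) : ℂ) • Usc c.Q r s (c.Vv l' h fun z => f (scp r s z)) =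
      c.Vv l (scp r s h) f := by
  obtain ⟨hΛ, e1⟩ := G.lsc r s hr hs
  have hq : 0 < Real.sqrt (r * s) := Real.sqrt_pos.2 (by positivity)
  have := Sg.vv_cov (c := c) l 0 h hq hΛ hf
  simp only [e1] at this
  rw [log_sq (mul_pos hr hs), ← e] at this
  rw [← e1 h, sim_smul h, Vv_smul, this, smul_smul, ← Complex.ofReal_mul,
    Real.mul_self_sqrt (by positivity)]
  rfl

theorem usc_sg (G : GRP c) (hr : 0 < r) (hs : 0 < s) (e : l' = l + Real.log (r * s) / 2)
    {F f : Sch} (hf : ∀ z, f z = F (scp r s z)) :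
    sL c l F = ((r * s : ℝ) : ℂ) • Usc c.Q r s (sL c l' f) := by
  obtain ⟨hΛ, e1⟩ := G.lsc r s hr hs
  have hq : 0 < Real.sqrt (r * s) := Real.sqrt_pos.2 (by positivity)
  have := c.hC.pot.cov l _ _ 0 (ev F) hq hΛ (test_ev F)
  simp only [e1] at this
  rw [log_sq (mul_pos hr hs), ← e, Real.sq_sqrt (by positivity),
    show (fun x => ev F (scp r s x)) = ev f from (funext hf).symm] at this
  rw [sL_apply, sL_apply, show Usc c.Q r s (c.sl l' (ev f)) = _ from this, Complex.coe_smul,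
    smul_inv_smul₀ (mul_pos hr hs).ne']

/-- the scaling law of `σ_l - σ_(ll s)` -/
theorem usc_dl (G : GRP c) (hs : 0 < s) (l : ℝ) {F f : Sch} (hf : ∀ z, f z = F (scp 1 s z)) :
    dl c l (ll s) F =
      (s : ℂ) • Usc c.Q 1 s (ex0 c.k (l + Real.log s / 2) fun j => s1 c j f) := by
  have h1 := usc_sg (c := c) G one_pos hs (l := l) rfl hf
  have h2 := usc_sg (c := c) G one_pos hs (l := ll s) (l' := 0) (by rw [one_mul, ← ll_add]) hf
  have h3 := dl_eq (c := c) (l + Real.log s / 2) 0 f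
  rw [Two.ex0_zero, show s1 c 0 f = 0 from rfl, sub_zero] at h3
  rw [one_mul] at h1 h2
  rw [← h3, dl, dl, ContinuousLinearMap.sub_apply, ContinuousLinearMap.sub_apply, h1, h2, map_sub,
    smul_sub]

/-- the scaling law of `S_l (h, k)` -/
theorem usc_TL (G : GRP c) (hs : 0 < s) (l : ℝ) {h k : V} {a b : ℝ} (ha : scp 1 s h = a • h)
    (hb : scp 1 s k = b • k) (hab : a * b ≠ 0) {F f : Sch} (hf : ∀ z, f z = F (scp 1 s z)) :
    TL (c.toS l) h k F = ((s / (a * b) : ℝ) : ℂ) •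
      Usc c.Q 1 s (ex0 c.k (l + Real.log s / 2) fun j => TL (c.toC j) h k f) := by
  have h1 := usc_S (c := c) G one_pos hs (l := l) rfl h k (test_ev F)
  rw [show (fun x => ev F (scp 1 s x)) = ev f from (funext hf).symm, one_mul, ha, hb,
    Tv_smul_l (test_ev F), Tv_smul_r (test_ev F), smul_smul, ← TL_apply, ← TL_apply, TL_toS,
    ← Complex.ofReal_mul] at h1
  rw [div_eq_inv_mul, Complex.ofReal_mul, mul_smul, h1, smul_smul, ← Complex.ofReal_mul,
    inv_mul_cancel₀ hab, Complex.ofReal_one, one_smul]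

theorem pr_kL' (hL : 0 < L) (g : P3 → ℝ) (φ : ℝ → ℝ) :
    (fun z => pr (kL g L) φ (scp L 1 z)) = pr g φ := by
  funext z
  rw [pr_kL hL, scp_scp _ (inv_pos.2 hL).le zero_le_one, inv_mul_cancel₀ hL.ne', mul_one, scp_one]

theorem usc_TP_S (G : GRP c) (hL : 0 < L) (hg : Tst g) (hφ : Tst φ) (h k : V) :
    (L : ℂ) • Usc c.Q L 1 (TP (c.toS 0) h k g φ) =
      TP (c.toS (ll L)) (scp L 1 h) (scp L 1 k) (kL g L) φ := by
  have := usc_S (c := c) G hL one_pos (l := ll L) (l' := 0) (by rw [mul_one, ← ll_add]) h k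
    (test_pr (tst_kL hg hL) hφ)
  rwa [mul_one, pr_kL' hL] at this

theorem usc_TP_aa (G : GRP c) (hL : 0 < L) (hg : Tst g) (hφ : Tst φ) :
    Usc c.Q L 1 (TP (c.toS 0) va va g φ) = (L : ℂ) • TP (c.toS (ll L)) va va (kL g L) φ := by
  have := usc_TP_S G hL hg hφ va va
  have t := test_pr (tst_kL hg hL) hφ
  rw [scp_va, TP, TP, Tv_smul_l t, Tv_smul_r t] at this
  exact smul_right_injective _ (Complex.ofReal_ne_zero.2 hL.ne') this

theorem usc_V_a (G : GRP c) (hL : 0 < L) (hg : Tst g) (hφ : Tst φ) :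
    Usc c.Q L 1 (c.Vv 0 va (pr g φ)) = c.Vv (ll L) va (pr (kL g L) φ) := by
  have := usc_V (c := c) G hL one_pos (l := ll L) (l' := 0) (by rw [mul_one, ← ll_add]) va
    (test_pr (tst_kL hg hL) hφ)
  rw [mul_one, pr_kL' hL, scp_va, Vv_smul] at this
  exact smul_right_injective _ (Complex.ofReal_ne_zero.2 hL.ne') this

theorem usc_Tx_S (G : GRP c) (hL : 0 < L) (hg : Tst g) (hφ : Tst φ) (h : V) :
    (L : ℂ) • Usc c.Q L 1 (Tx (c.toS 0) h g φ) = Tx (c.toS (ll L)) (scp L 1 h) (kL g L) φ := by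
  have e : ap 1 (kL g L) = fun y => L * kL (ap 1 g) L y := by
    funext y
    simp only [ap, kL, pow_one]
    field_simp
  rw [Tx, Tx, map_sub, smul_sub, usc_TP_S G hL (tst_ap 1 hg) hφ, usc_TP_S G hL hg (tst_tm hφ),
    scp_va, scp_vb, one_smul, e, TP_mul_g L (tst_kL (tst_ap 1 hg) hL) hφ, TP,
    Tv_smul_r (test_pr (tst_kL (tst_ap 1 hg) hL) hφ)]
  rfl

theorem usc_Sx_a (G : GRP c) (hL : 0 < L) (hg : Tst g) (hφ : Tst φ) :
    Usc c.Q L 1 (Tx (c.toS 0) va g φ) = Tx (c.toS (ll L)) va (kL g L) φ := by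
  have := usc_Tx_S G hL hg hφ va
  rw [scp_va, Tx_smul_l L (tst_kL hg hL) hφ] at this
  exact smul_right_injective _ (Complex.ofReal_ne_zero.2 hL.ne') this

theorem usc_Sx_b (G : GRP c) (hL : 0 < L) (hg : Tst g) (hφ : Tst φ) :
    Usc c.Q L 1 (Tx (c.toS 0) vb g φ) = Tx (c.toS (ll L)) vb (fun y => L⁻¹ * kL g L y) φ := by
  have := usc_Tx_S G hL hg hφ vb
  rw [scp_vb, one_smul] at this
  rw [Tx_mul_g _ (tst_kL hg hL) hφ, ← this, smul_smul, ← Complex.ofReal_mul,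
    inv_mul_cancel₀ hL.ne', Complex.ofReal_one, one_smul]

theorem usc_face_S (G : GRP c) (hR : 0 < R) (hL : 0 < L) (hφ : Tst φ) :
    Tx (c.toS (ll L)) vb (face R L) φ = Usc c.Q L 1 (Tx (c.toS 0) vb (k3 (deriv kk) (kp R)) φ) :=
  (usc_Sx_b G hL (tst_face0 hR) hφ).symm

/-! ## the improvement terms -/

/-- the relation between the two tensors -/
theorem rel (l : ℝ) (h k : V) (hf : IsTest f) : c.Tv (hk h k f) = (c.toS l).Tv (hk h k f) -
    (1 / 3 : ℝ) • c.Vv l h (dv k f) + (mdot h k / 3) • (c.Vv l va (dv vb f) + c.Vv l vb (dv va f) -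
      c.Vv l (ex 0) (dv (ex 0) f) - c.Vv l (ex 1) (dv (ex 1) f)) := by
  have e : ∀ y m, c.Vl l m (dv y f) c.Q.vac = ∑ k, (y k : ℂ) • c.Vl l m (pd k f) c.Q.vac :=
    fun y m => Grp.fld_sum ((c.hC.fam.p1l l).fld m) _ _ (fun k => Grp.test_pd k hf) _
  rw [Far.Tv_hk c h k hf, Far.Tv_hk _ h k hf]
  simp only [c.hC.rel l _ _ f _ hf, improveJ, Ctx.Vv, e, Ev.coe_sum,
    Completion.coe_add, Completion.coe_sub, Completion.coe_smul, ← Complex.coe_smul]
  simp [Fin.sum_univ_four, va, vb, ex, tv, pt, P352X.e2, eta, o, bas, GF.mdot]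
  module

theorem rel_aa (l : ℝ) (hf : IsTest f) :
    c.Tv (hk va va f) = (c.toS l).Tv (hk va va f) - (1 / 3 : ℂ) • c.Vv l va (dv va f) := by
  rw [rel l va va hf, null_va.1, zero_div, zero_smul, add_zero, ← Complex.coe_smul]
  norm_num

theorem Vv_dl (l l' : ℝ) (h : V) (hf : IsTest f) :
    c.Vv l h f = c.Vv l' h f - dl c l l' (sch (dv h f)) := by
  have h1 := Sg.jv_fam (c := c) l h hf
  rw [Sg.jv_fam (c := c) l' h hf] at h1
  rw [dl, ContinuousLinearMap.sub_apply, sL_apply, sL_apply, ev_sch (test_dv h hf)]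
  linear_combination (norm := module) -h1

theorem S_dl (l l' : ℝ) (h k : V) (hf : IsTest f) :
    (c.toS l).Tv (hk h k f) = (c.toS l').Tv (hk h k f) -
      (1 / 3 : ℝ) • dl c l l' (sch (dv h (dv k f))) + (mdot h k / 3) •
        (dl c l l' (sch (dv va (dv vb f))) + dl c l l' (sch (dv vb (dv va f))) -
          dl c l l' (sch (dv (ex 0) (dv (ex 0) f))) - dl c l l' (sch (dv (ex 1) (dv (ex 1) f)))) := by
  have h1 := rel (c := c) l h k hf
  rw [rel l' h k hf] at h1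
  simp only [Vv_dl l l' _ (test_dv _ hf)] at h1
  linear_combination (norm := module) -h1

/-- **the key identity** -/
theorem key_Tx (l l' : ℝ) (hg : Tst g) (hφ : Tst φ) :
    Tx (c.toS l) vb g φ = Tx (c.toS l') vb g φ + (1 / 3 : ℂ) •
      (PP (dl c l l') (da (ap 1 g)) (deriv φ) + PP (dl c l l') g (deriv (deriv (tm φ))) -
        PP (dl c l l') (di 0 (di 0 (ap 1 g))) φ - PP (dl c l l') (di 1 (di 1 (ap 1 g))) φ) := by
  have g1 := tst_ap 1 hg
  have p1 := tst_tm hφ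
  have a : ∀ {g φ}, Tst g → Tst φ → dv va (pr g φ) = pr (da g) φ := fun hg hφ =>
    dv_pr_a (tst_diff hg) (tst_diff hφ)
  have b : ∀ {g φ}, Tst g → Tst φ → dv vb (pr g φ) = pr g (deriv φ) := fun hg hφ =>
    dv_pr_b (tst_diff hg) (tst_diff hφ)
  have e : ∀ i {g φ}, Tst g → Tst φ → dv (ex i) (pr g φ) = pr (di i g) φ := fun i _ _ hg hφ =>
    dv_pr_ex (tst_diff hg) (tst_diff hφ) i
  rw [Tx, Tx, TP, TP, TP, TP, S_dl l l' vb va (test_pr g1 hφ), S_dl l l' vb vb (test_pr hg p1),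
    null_vb.1, zero_div, zero_smul, add_zero, md_vb, al_va, a g1 hφ, b g1 hφ, b (tst_da g1) hφ,
    a g1 (cs_deriv hφ), e 0 g1 hφ, e 1 g1 hφ, e 0 (tst_di 0 g1) hφ, e 1 (tst_di 1 g1) hφ, b hg p1,
    b hg (cs_deriv p1)]
  simp only [PP, ← Complex.coe_smul]
  push_cast
  module

end

end Vale.Agent.P352X.ZZ.BX
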