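import Vale.Agent.P352X.R.BB.Dec
import Vale.Agent.P352Z.R.BB.Key

/-!
# P352Z, row BB.dec: the total surface, by conservation
-/

set_option linter.all false

open MeasureTheory Filter Topology Set
open scoped SchwartzMap ComplexConjugate ENNReal ContDiff

namespace Vale.Agent.P352X.ZZ.BX

export Vale.Agent.P352X.BX.Dec (gm ph fc tst_gm tst_ph da_cut0 slab_sum ng_dlt dlt_step edge_step)

open Vale.Agent.P352 Vale.Agent.P352.GF Vale.Agent.P352.BW Vale.Agent.P352.H246
open Vale.Agent.P352.H496 Vale.Agent.P352.H755 Vale.Agent.P352.H15 Vale.Agent.P352X.Ap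
open UniformSpace (Completion)
open Complex (I)

noncomputable section

namespace Dec

variable {d R L ε : ℝ} {χ : ℝ → ℝ}

theorem g2_eq (h : Stp d χ) (hd : 0 < d) (hR : 0 < R) (hL : d ≤ L) :
    (fun y => da (fl (slab (opp χ) R L)) y + fl (face R L) y) = gp χ R L := by
  have l := hd.trans_le hL
  have e : fl (slab (opp χ) R L) = k3 (fun t => (1 - χ t) * kk (-t / L))
      fun x => kp R ((Real.sqrt L)⁻¹ • x) := by
    rw [slab_eq]
    funext y
    simp only [fl, k3, opp, neg_neg]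
  have h1 : ∀ t, HasDerivAt (fun t => (1 - χ t) * kk (-t / L))
      (-deriv χ t * kk (-t / L) + (1 - χ t) * (deriv kk (-t / L) * (-1 / L))) t := fun t => by
    have := (diff_kk (-t / L)).hasDerivAt.comp t ((hasDerivAt_neg' t).div_const L)
    exact ((h.diff t).hasDerivAt.const_sub 1).fun_mul this
  rw [e, da_k3 (fun t => (h1 t).differentiableAt) (tst_diff (tst_kpL hR l))]
  funext y
  have h2 : deriv χ y.1 * kk (-y.1 / L) = deriv χ y.1 := by
    rcases le_total y.1 (-d / 2) with a | a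
    · rw [h.d_le a, zero_mul]
    · rw [kk_one (by rw [div_le_one l]; linarith), mul_one]
  have h3 : χ y.1 * deriv kk (-y.1 / L) = 0 := by
    rcases le_total y.1 (-d / 2) with a | a
    · rw [h.2.1 _ a, zero_mul]
    · rw [dkk_le (by rw [div_le_one l]; linarith), mul_zero]
  simp only [k3, (h1 _).deriv, fl, face, kL, gp]
  linear_combination kp R ((Real.sqrt L)⁻¹ • y.2) * (-h2 + L⁻¹ * h3)

theorem d_gm (ε : ℝ) :
    deriv (dil ε gm) = fun t => ng (dlt ε (deriv ps)) t - dlt ε (deriv ps) t := by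
  rw [ng_dlt]
  funext t
  ring

theorem dd_gm (hε : 0 < ε) :
    deriv (deriv (tm (dil ε gm))) = fun t => ng (dlt ε p2) t - dlt ε p2 t := by
  have h1 : deriv (tm (dil ε gm)) =
      fun t => 1 - deriv (tm ps) (t / ε) - deriv (tm ps) (-t / ε) := by
    funext t
    have := ((hasDerivAt_id' t).fun_mul (tst_diff (tst_dil tst_gm hε.ne') t).hasDerivAt).deriv
    rw [show tm (dil ε gm) = fun t => t * dil ε gm t from rfl, this, d_gm, d_tp, d_tp]
    simp only [dil, gm, ng, dlt, neg_div]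
    ring
  have d := smooth_dtp.differentiable (by simp)
  rw [h1]
  funext t
  have := ((((d (t / ε)).hasDerivAt.comp t ((hasDerivAt_id' t).div_const ε)).const_sub 1).fun_sub
    ((d (-t / ε)).hasDerivAt.comp t ((hasDerivAt_neg' t).div_const ε))).deriv
  refine this.trans ?_
  simp only [ng, dlt, p2]
  ring

variable {D : Type*} [NormedAddCommGroup D] [InnerProductSpace ℂ D] (c : Ctx D)

/-- the total surface at scale one -/
def Gm (R ε : ℝ) : Completion D := -Tx c va (cut0 R) (dlt ε (deriv ps)) - Tx c vb (fc R) (edge R ε) -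
  Tx c vb (fl (fc R)) fun t => ng (edge R ε) t + dil ε gm t

variable {c} {g : P3 → ℝ} {φ : ℝ → ℝ}

theorem J_a (j : JC c) (hg : Tst g) (hφ : Tst φ) : c.J (Tx c va g φ) = -Tx c va (fl g) (ng φ) := by
  rw [J_Tx j hg hφ, jr_va, Tx_neg_l (tst_fl hg) (tst_ng hφ)]

theorem J_b (j : JC c) (hg : Tst g) (hφ : Tst φ) : c.J (Tx c vb g φ) = -Tx c vb (fl g) (ng φ) := by
  rw [J_Tx j hg hφ, jr_vb, Tx_neg_l (tst_fl hg) (tst_ng hφ)]

variable [Fact c.can]

/-- the flux through the gap, with the two corrections -/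
theorem flux_eq (S : SIG c) (l l' : ℝ) (h : Stp d χ) (hR : 0 < R) (hL : 0 < L) (hε : 0 < ε) :
    Tx (c.toS l) vb (gp χ R L) (dil ε gm) + (1 / 3 : ℂ) • Eg (dl c l l') (gp χ R L) ε -
      (1 / 3 : ℂ) • c.J (Eg (dl c l l') (gp (opp χ) R L) ε) =
    Tx (c.toS l') vb (gp χ R L) (dil ε gm) + PP (dl c l l') (fun y => -(1 / 3) *
      (di 0 (di 0 (ap 1 (gp χ R L))) y + di 1 (di 1 (ap 1 (gp χ R L))) y)) (dil ε gm) := by
  have g1 := tst_gp h hR hL
  have g2 := tst_gp h.opp hR hL
  have p1 := tst_dlt tst_dps hε.ne'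
  have q1 := tst_dlt tst_p2 hε.ne'
  have t := tst_dil tst_gm hε.ne'
  have e := fun i => tst_di i (tst_di i (tst_ap 1 g1))
  rw [key_Tx l l' g1 t, d_gm, dd_gm hε, PP_sub_p (tst_da (tst_ap 1 g1)) (tst_ng p1) p1,
    PP_sub_p g1 (tst_ng q1) q1, Eg, Eg, map_add, J_PP S (tst_da (tst_ap 1 g2)) p1, J_PP S g2 q1,
    fl_da_ap (tst_diff g2), fl_gp h, PP_mul_g _ (cs_add (e 0) (e 1)) t, PP_add_g (e 0) (e 1) t]
  push_cast
  module

end Dec

open Dec

variable {D : Type*} [NormedAddCommGroup D] [InnerProductSpace ℂ D]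

/-- **row BB.dec** -/
theorem dec_row (c : Ctx D) [Fact c.can] (T : T3 c) (S : SIG c) : DECL c := by
  intro d R χ hd hR h
  have G := T.grp
  have G0 := (T.tS 0).grp
  have r := hd.trans_le hR
  have t0 := tst_cut0 r
  have tf : Tst (fc R) := tst_face0 r
  have tf' := tst_fl tf
  have tp : ∀ {ε : ℝ}, 0 < ε → Tst (dlt ε (deriv ps)) := fun e => tst_dlt tst_dps e.ne'
  have tg : ∀ {ε : ℝ}, 0 < ε → Tst (dil ε gm) := fun e => tst_dil tst_gm e.ne'
  have tn : ∀ {ε : ℝ}, 0 < ε → Tst fun t => ng (edge R ε) t + dil ε gm t := fun e =>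
    cs_add (tst_ng (tst_edge r e)) (tg e)
  refine ⟨Gm (c.toS 0) R, fun i y => -di i (cut0 R) y, ph, gm, fun i => cs_neg (tst_di i t0), tst_ph,
    tst_gm, fun ε e => ?_, fun n hn => ?_, fun L hL => ?_⟩
  · rw [Gm, inner_sub_right, inner_sub_right, inner_neg_right, perp_Tx G0 t0 (tp e),
      perp_Tx G0 tf (tst_edge r e), perp_Tx G0 tf' (tn e)]
    simp
  · have e : 0 < ep n := ep_pos n
    have e1 : ep (n + 1) = ep n * (1 / 2) ^ 22 := by unfold ep; ring
    have th := tst_dil tst_ph e.ne'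
    have e2 : (fun t => ng (edge R (ep n * (1 / 2) ^ 22)) t + dil (ep n * (1 / 2) ^ 22) gm t) =
        fun t => (ng (edge R (ep n)) t + dil (ep n) gm t) - dil (ep n) ph t := funext fun t => by
      simp only [ng, edge_step e hn, dil, gm, ph, div_div, neg_div]
      ring
    have k := cons G0 t0 th
    rw [da_cut0 r, Tx_sub_g tf tf' th] at k
    simp only [Tx_neg_g (tst_di _ t0) th, Finset.sum_neg_distrib, ← k]
    rw [e1, Gm, Gm, e2, funext (edge_step e hn), dlt_step, Tx_add_p t0 (tp e) (cs_deriv th),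
      Tx_add_p tf (tst_edge r e) th, Tx_sub_p tf' (tn e) th]
    abel
  · have l := r.trans_le hL
    have s1 := tst_slab h r l
    have s2 := tst_slab h.opp r l
    have s3 := tst_fl s2
    have f1 : Tst (face R L) := tst_face r l
    have f2 := tst_fl f1
    have g1 := tst_gp h r l
    have j := (T.tS (ll L)).jc
    refine ⟨gp χ R L, _, fun i y => -di i (fl (slab (opp χ) R L)) y, g1, cs_cmul (-(1 / 3))
      (cs_add (tst_di 0 (tst_di 0 (tst_ap 1 g1))) (tst_di 1 (tst_di 1 (tst_ap 1 g1)))),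
      fun i => cs_neg (tst_di i s3), fun ε e _ => ?_⟩
    have e1 : kL (cut0 R) L = fun y => slab χ R L y + fl (slab (opp χ) R L) y :=
      funext fun y => (slab_sum h hd (hR.trans hL) y).symm
    have e2 : (fun y => L⁻¹ * kL (fc R) L y) = face R L := rfl
    have e3 : (fun y => L⁻¹ * kL (fl (fc R)) L y) = fl (face R L) :=
      funext fun y => by simp [fl, face, kL, fc, neg_div]
    have k := cons (T.tS (ll L)).grp s3 (tg e)
    have k2 := flux_eq S (ll L) (ll ε) h r l e
    have k3 := Tx_add_g (c := c.toS (ll L)) (tst_da s3) f2 (tg e) vb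
    rw [g2_eq h hd r (hR.trans hL)] at k3
    have a := J_a j s2 (tp e)
    have b := J_b j f1 (tst_edge r e)
    simp only [Tx_neg_g (tst_di _ s3) (tg e), Finset.sum_neg_distrib, ← k]
    rw [GC, GC, GG, GG, Gm, map_add, J_smul, map_sub, map_sub, map_sub, map_neg, map_neg, a, b,
      usc_Sx_a G l t0 (tp e), usc_Sx_b G l tf (tst_edge r e), usc_Sx_b G l tf' (tn e), e1, e2, e3,
      ng_dlt, Tx_add_p s3 (tp e) (cs_deriv (tg e)), Tx_add_g s1 s3 (tp e),
      Tx_add_p f2 (tst_ng (tst_edge r e)) (tg e), map_div₀, map_one, map_ofNat]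
    linear_combination (norm := module) k2 - k3

end

end Vale.Agent.P352X.ZZ.BX
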