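import Vale.Agent.P352X.R.BB.Spec
import Vale.Agent.P352Z.R.Ev

/-!
# P352Z, row BB: vocabulary and sub-rows 
-/

set_option linter.all false

open MeasureTheory Filter Topology
open scoped SchwartzMap ComplexConjugate ENNReal ContDiff

namespace Vale.Agent.P352X.ZZ.BX

export Vale.Agent.P352X.BX (kk ps tm ng fl da di xi x2 Stp opp kp slab face edge cut0 ep Box)

open Vale.Agent.P352 Vale.Agent.P352.GF Vale.Agent.P352.BW Vale.Agent.P352.H246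
open Vale.Agent.P352.H496 Vale.Agent.P352.H755 Vale.Agent.P352.H15
open Vale.Agent.P132 (ModData jconj)
open UniformSpace (Completion)
open Complex (I)

noncomputable section

/-! ## functions -/

variable {D : Type*} [NormedAddCommGroup D] [InnerProductSpace ℂ D] (c : Ctx D)

/-! ## vectors -/

/-- `T(h, k)(g φ) Ω` -/
def TP (h k : V) (g : P3 → ℝ) (φ : ℝ → ℝ) : Completion D := c.Tv (hk h k (pr g φ))
/-- `T(h, ξ)(g φ) Ω` for the boost field `ξ = al a - be b` -/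
def Tx (h : V) (g : P3 → ℝ) (φ : ℝ → ℝ) : Completion D :=
  TP c h va (ap 1 g) φ - TP c h vb g (tm φ)
/-- the charge of the boost on the surface below the plane -/
def GG (χ : ℝ → ℝ) (R L ε : ℝ) : Completion D :=
  -Tx c va (slab χ R L) (dlt ε (deriv ps)) - Tx c vb (face R L) (edge R ε)
/-- averages along `b` -/
def Rb (ρ : ℝ → ℝ) (v : Completion D) : Completion D := ∫ u, (ρ u : ℂ) • Pb c.Q u v
/-- `v` is in the form domain of `P_b`, with the bound `N` -/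
def Qb (v : Completion D) (N : ℝ) : Prop := ‖v‖ ≤ N ∧ c.qb v ≤ ENNReal.ofReal (N ^ 2)
/-- smooth in norm under the boosts and the translations along `b` -/
def Sm (X : Completion D →L[ℂ] Completion D) : Prop :=
  ContDiff ℝ ∞ fun q : ℝ × ℝ => Bo c.Q q.1 * Pb c.Q q.2 * X * Pb c.Q (-q.2) * Bo c.Q (-q.1)
/-- the domain conditions for `i [B, K] = K` -/
def Reg (φ : Completion D) : Prop := Dm (Bo c.Q) φ ∧ Dm c.SK φ ∧ Dm c.SK (gen (Bo c.Q) φ) ∧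
  Gn (Bo c.Q) (gen c.SK φ) (gen c.SK (gen (Bo c.Q) φ) - I • gen c.SK φ)
/-- the data of the row -/
structure Dat (u0 d0 : ℝ) (y1 : V) (r1 : ℝ) (y2 : V) (r2 : ℝ)
    (X X' : Completion D →L[ℂ] Completion D) : Prop where
  hd : 0 < d0
  h1 : 0 < r1
  h2 : 0 < r2
  s1 : dc y1 r1 ⊆ {z | be z < -u0 ∧ d0 < al z}
  s2 : dc y2 r2 ⊆ {z | be z < -u0 ∧ d0 < al z}
  m1 : X ∈ c.N (dc y1 r1)
  m2 : X' ∈ c.N (dc y2 r2)

/-! ## the sub-rows that keep their form -/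

/-- BB.l1: averages along `b` of thin slabs -/
structure L1 : Prop where
  l1 : ∀ h k ρ g, Tst ρ → Tst g → ∃ C : ℝ, ∀ φ, Tst φ → ‖Rb c ρ (TP c h k g φ)‖ ≤ C * ∫ t, |φ t|
  del : ∀ h k ρ g φ, Tst ρ → Tst g → Tst φ →
    Tendsto (fun s => Rb c ρ (TP c h k g (dlt s φ))) (𝓝[>] 0)
      (𝓝 (((∫ t, φ t : ℝ) : ℂ) • TP c h k g ρ))

/-- BB.mi: the master identity -/
def MI : Prop := ∀ (d1 r : ℝ) (X X' : Completion D →L[ℂ] Completion D) (G G' : Completion D),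
  0 ≤ d1 → 0 < r → X ∈ c.N (Rc r (d1 • va)) → X' ∈ c.N (Rc r (d1 • va)) → Dm c.SK G →
  Dm c.SK G' →
  Reg c (X c.Om) → Dm (Bo c.Q) (star X' c.Om) → Dm c.SK (star X' c.Om) →
  Pr (c.N (Wdg va vb (-(d1 • va)))) c.Om (gen (Bo c.Q) (X c.Om) + X G) (star X G) →
  Pr (c.N (Wdg va vb (-(d1 • va)))) c.Om (gen (Bo c.Q) (star X' c.Om) + star X' G') (X' G') →
  inner ℂ (c.J (star X' c.Om)) (gen c.SK (X c.Om)) =
    I * inner ℂ (gen c.SK G) (jconj c.J X' (X c.Om)) +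
    I * inner ℂ (gen c.SK G') (c.J (star X (c.J (star X' c.Om)))) -
    I * inner ℂ (G - c.J G') (jconj c.J X' (gen c.SK (X c.Om))) +
    I * inner ℂ (star X (c.J (gen c.SK (star X' c.Om)))) (G - c.J G')

/-- BB.dom: domains, uniformly under small translations along `b` -/
def DOM : Prop := ∀ (u0 u1 d0 d1 : ℝ) y r X, u1 < u0 → 0 ≤ d1 → d1 < d0 → 0 < r →
  dc y r ⊆ {z | be z < -u0 ∧ d0 < al z} → X ∈ c.N (dc y r) → Sm c X →
  ∃ r' N : ℝ, 0 < r' ∧ (∀ u ∈ Set.Icc (-u1) u1,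
    Pb c.Q (-u) * X * Pb c.Q u ∈ c.N (Rc r' (d1 • va)) ∧ Reg c (Pb c.Q (-u) (X c.Om)) ∧
    Qb c (gen c.SK (Pb c.Q (-u) (X c.Om))) N) ∧
    ContinuousOn (fun u => gen c.SK (Pb c.Q (-u) (X c.Om))) (Set.Icc (-u1) u1)

/-- BB.lip: stability of the form domain of `P_b` -/
structure LIP : Prop where
  op : ∀ X, Sm c X → ∃ C : ℝ, ∀ u v N, Qb c v N → Qb c ((Pb c.Q (-u) * X * Pb c.Q u) v) (C * N)
  j : ∃ C : ℝ, ∀ v N, Qb c v N → Qb c (c.J v) (C * N)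

/-- BB.gap: the gap commutes with `X` and `Y` -/
def GAP : Prop := ∀ u0 d0 y1 r1 y2 r2 X X' g ρ, Dat c u0 d0 y1 r1 y2 r2 X X' → Tst g →
  tsupport g ⊆ {y | |y.1| < d0} → Tst ρ → tsupport ρ ⊆ Set.Ioo (-u0) u0 →
  inner ℂ (TP c va va g ρ) (jconj c.J X' (X c.Om)) =
    inner ℂ (star X (star (jconj c.J X') c.Om)) (TP c va va g ρ)

/-- BB.far: the limit does not depend on the cutoff -/
def FAR : Prop := ∀ u0 d0 y1 r1 y2 r2 X X' χ κ κ0 ρ (y : R2), Dat c u0 d0 y1 r1 y2 r2 X X' →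
  Stp d0 χ → Cut κ → Cut κ0 → Tst ρ → tsupport ρ ⊆ Set.Ioo (-u0) u0 →
  Tendsto (fun L => c.om2 (jconj c.J X' (X c.Om)) (star X (star (jconj c.J X') c.Om)) χ
    (hk va va (pr (fun q => d2 q.2 q.2 * (kL κ L (q.1, q.2 + y) - kL κ0 L q)) ρ))) atTop (𝓝 0)

/-- BB.core: the row for `y = 0` and one cutoff -/
def CORE : Prop := ∀ u0 d0 y1 r1 y2 r2 X X' χ ρ, Dat c u0 d0 y1 r1 y2 r2 X X' → Sm c X →
  Sm c X' → Stp d0 χ → Tst ρ → tsupport ρ ⊆ Set.Ioo (-u0) u0 → ∃ κ0, Cut κ0 ∧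
  Tendsto (fun L => c.om2 (jconj c.J X' (X c.Om)) (star X (star (jconj c.J X') c.Om)) χ
      (hk va va (pr (fun q => d2 q.2 q.2 * kL κ0 L q) ρ))) atTop
    (𝓝 (∫ u, (ρ u : ℂ) * inner ℂ (star (jconj c.J X') c.Om) (gen (c.Ky (u • vb)) (X c.Om))))

end

end Vale.Agent.P352X.ZZ.BX
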