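import Vale.Agent.P352X.R.BB.Fin
import Vale.Agent.P352Z.R.BB.Key
import Vale.Agent.P352Z.R.BB.Far

/-!
# P352Z, rows BB.end and BB.gaps
-/

set_option linter.all false

open MeasureTheory Filter Topology Set
open scoped SchwartzMap ComplexConjugate ENNReal ContDiff

namespace Vale.Agent.P352X.ZZ.BX

namespace En
export Vale.Agent.P352X.BX.En (A G F tst_A tst_G tst_F supp_G split split')
end En

open Vale.Agent.P352 Vale.Agent.P352.GF Vale.Agent.P352.BW Vale.Agent.P352.H246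
open Vale.Agent.P352.H496 Vale.Agent.P352.H755 Vale.Agent.P352.H15 Vale.Agent.P352X.Ap
open Vale.Agent.P132 (ModData jconj)
open UniformSpace (Completion)
open Complex (I)

noncomputable section

namespace En

variable {χ ρ : ℝ → ℝ} {d R L l : ℝ} {g : P3 → ℝ}

/-- the far part of the derivative -/
def F1 (R : ℝ) : P3 → ℝ := x2 (k3 (deriv kk) (kp R))

lemma tst_F1 (hR : 0 < R) : Tst (F1 R) := tst_x2 (tst_face0 hR)

lemma da_A (hχ : Stp d χ) (hR : 0 < R) (hL : 0 < L) (h : d ≤ L) :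
    da (A χ R L) = fun y => L * (L⁻¹ * kL (F1 R) L y) - x2 (gp χ R L) y := by
  have e : A χ R L = x2 (k3 (fun t => χ t * kk (t / L)) fun x => kp R ((Real.sqrt L)⁻¹ • x)) := by
    funext y
    have h2 : χ y.1 * kk (-(y.1 / L)) = χ y.1 := by
      rcases le_total y.1 (-d / 2) with a | a
      · rw [hχ.2.1 _ a, zero_mul]
      · rw [kk_one (by rw [← neg_div, div_le_one hL]; linarith), mul_one]
    simp only [A, x2, k3, kL, cut0]
    linear_combination d2 y.2 y.2 * kk (y.1 / L) * kp R ((Real.sqrt L)⁻¹ • y.2) * h2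
  rw [e, da_x2 (tst_diff (tst_k3 (tst_chk hχ hL) (tst_kpL hR hL))),
    da_k3 (tst_diff (tst_chk hχ hL)) (tst_diff (tst_kpL hR hL))]
  funext y
  have h1 : deriv (fun t => χ t * kk (t / L)) y.1 =
      deriv χ y.1 * kk (y.1 / L) + χ y.1 * (deriv kk (y.1 / L) * (1 / L)) := by
    have := ((hχ.diff y.1).hasDerivAt.fun_mul
      ((diff_kk (y.1 / L)).hasDerivAt.comp y.1 ((hasDerivAt_id y.1).div_const L))).deriv
    simp only [id, Function.comp] at this
    exact this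
  have h3 : deriv χ y.1 * kk (y.1 / L) = deriv χ y.1 := by
    rcases le_total (d / 2) y.1 with a | a
    · rw [hχ.d_ge a, zero_mul]
    · rw [kk_one (by rw [div_le_one hL]; linarith), mul_one]
  have h4 : χ y.1 * deriv kk (y.1 / L) = deriv kk (y.1 / L) := by
    rcases le_total (d / 2) y.1 with a | a
    · rw [hχ.2.2 _ a, one_mul]
    · rw [dkk_le (by rw [div_le_one hL]; linarith), mul_zero]
  have h5 : L * d2 ((Real.sqrt L)⁻¹ • y.2) ((Real.sqrt L)⁻¹ • y.2) = d2 y.2 y.2 := by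
    rw [d2_smul, d2_smul_l, ← mul_assoc, ← mul_assoc, mul_assoc L, ← mul_inv,
      Real.mul_self_sqrt hL.le, mul_inv_cancel₀ hL.ne', one_mul]
  simp only [x2, k3, h1, F1, gp, kL]
  linear_combination kp R ((Real.sqrt L)⁻¹ • y.2) * (d2 y.2 y.2 * h3 +
    d2 y.2 y.2 * (1 / L) * h4 - L⁻¹ * deriv kk (y.1 / L) * h5)

lemma da_A1 (hχ : Stp d χ) (hR : 0 < R) (hL : 0 < L) (h : d ≤ L) :
    da (A χ R L) = fun y => kL (F1 R) L y - x2 (gp χ R L) y := by
  simp only [da_A hχ hR hL h, mul_inv_cancel_left₀ hL.ne']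

lemma da_A' (hχ : Stp d χ) (hR : 0 < R) (hL : 0 < L) (h : d ≤ L) :
    da (A (fun t => 1 - χ t) R L) = fun y => x2 (gp χ R L) y - kL (fl (F1 R)) L y := by
  have e : A (fun t => 1 - χ t) R L = fl (A (opp χ) R L) := by
    funext y
    simp only [A, fl, opp, kL, cut0, k3, neg_neg, neg_div]
    ring
  have k := fl_da (tst_diff (tst_A hχ.opp.1 hR hL))
  rw [← e, da_A1 hχ.opp hR hL h] at k
  rw [← fl_kL, ← fl_gp hχ]
  funext y
  have := congrFun k y
  simp only [fl, x2] at this ⊢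
  linarith

lemma fl_Hg (hg : Tst g) : fl (Hg g) = fun y => -Hg (fl g) y := by
  have h1 := fl_da (tst_diff (tst_da (tst_ap 1 hg)))
  have h2 := fl_da (tst_diff hg)
  rw [fl_da_ap (tst_diff hg)] at h1
  funext y
  have k1 := congrFun h1 y
  have k2 := congrFun h2 y
  simp only [fl, Hg, x2] at k1 k2 ⊢
  rw [k1, k2]
  ring

lemma supp_gp (hχ : Stp d χ) (hd : 0 < d) : tsupport (gp χ R L) ⊆ {y | |y.1| < d} :=
  (tsupport_gp hχ).trans fun y (hy : |y.1| ≤ d / 2) => hy.trans_lt (half_lt_self hd)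

lemma supp_Hg (g : P3 → ℝ) : tsupport (Hg g) ⊆ tsupport g :=
  tsupport_mul_subset_right.trans ((tsupport_add _ _).trans (union_subset
    ((tsupport_x2 _).trans ((tsupport_da _).trans ((tsupport_da _).trans
      tsupport_mul_subset_right))) ((tsupport_x2 _).trans (tsupport_da _))))

variable {D : Type*} [NormedAddCommGroup D] [InnerProductSpace ℂ D] {c : Ctx D} [Fact c.can]

variable (c) in
/-- `f ↦ V_l(a f) Ω` -/
def VL (l : ℝ) : Sch →L[ℂ] Completion D := ∑ m, ((eta m * va m : ℝ) : ℂ) •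
  (Completion.toComplL ∘L Grp.fC ((c.hC.fam.p1l l).fld m) c.Q.vac)

lemma VL_sch {f : Fn} (hf : IsTest f) : VL c l (sch f) = c.Vv l va f := by
  conv_rhs => rw [← ev_sch hf]
  simp only [VL, ContinuousLinearMap.sum_apply, ContinuousLinearMap.smul_apply, Ctx.Vv,
    Ev.coe_sum, Completion.coe_smul]
  rfl

lemma VL_pr (hg : Tst g) (hρ : Tst ρ) : PP (VL c l) g ρ = c.Vv l va (pr g ρ) :=
  VL_sch (test_pr hg hρ)

lemma perp_VL (hg : Tst g) (hρ : Tst ρ) : inner ℂ c.Om (PP (VL c l) g ρ) = 0 := by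
  simp only [VL_pr hg hρ, Ctx.Vv, Ctx.Om, om, Completion.inner_coe, inner_sum, inner_smul_right,
    (c.hC.fam.p1l l).perp _ _ (test_pr hg hρ), mul_zero, Finset.sum_const_zero]

lemma pr_VL {O : Set V} (h : In O (pr g ρ)) (hg : Tst g) (hρ : Tst ρ) :
    Pr (c.N O) c.Om (PP (VL c l) g ρ) (PP (VL c l) g ρ) := by
  have := Pr.sum Finset.univ fun m _ => ((c.hC.fam.p1l l).pr m h).csmul (eta m * va m)
  simpa only [bar_pr, VL_pr hg hρ, Ctx.Vv, Ev.coe_sum, Completion.coe_smul] using this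

lemma usc_VL (G : GRP c) (hL : 0 < L) (hg : Tst g) (hρ : Tst ρ) :
    PP (VL c (ll L)) (kL g L) ρ = Usc c.Q L 1 (PP (VL c 0) g ρ) := by
  rw [VL_pr hg hρ, VL_pr (tst_kL hg hL) hρ, usc_V_a G hL hg hρ]

lemma rel_TP (l : ℝ) (hg : Tst g) (hρ : Tst ρ) :
    TP c va va g ρ = TP (c.toS l) va va g ρ - (1 / 3 : ℂ) • PP (VL c l) (da g) ρ := by
  rw [VL_pr (tst_da hg) hρ, TP, rel_aa l (test_pr hg hρ), dv_pr_a (tst_diff hg) (tst_diff hρ)]
  rfl

lemma wn' (G : GRP c) (B : BAS c) {η : Completion D} (h : inner ℂ c.Om η = 0)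
    (w : Completion D) : Tendsto (fun L : ℝ => inner ℂ w (Usc c.Q L 1 η)) atTop (𝓝 0) := by
  simpa only [Function.comp_def, inner_conj_symm, map_zero] using
    (Complex.continuous_conj.tendsto 0).comp (Far.wn G B h w)

end En

open En

variable {D : Type*} [NormedAddCommGroup D] [InnerProductSpace ℂ D]

theorem end_row (c : Ctx D) [Fact c.can] (t : T3 c) : ENDL c := by
  intro u0 d0 y1 r1 y2 r2 X X' χ ρ R dat hχ hR hρ hs
  have g := t.grp
  have b := t.bas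
  generalize ew : jconj c.J X' (X c.Om) = w
  generalize ew' : star X (star (jconj c.J X') c.Om) = w'
  have h1 := ((Far.wn g b (perp_TP (t.tS 0).grp (tst_F hR) hρ va va) w).add
    (wn' g b (perp_TP (t.tS 0).grp (tst_fl (tst_F hR)) hρ va va) w')).add
    (((Far.wn g b (perp_VL (l := 0) (tst_F1 hR) hρ) w).sub
      (wn' g b (perp_VL (l := 0) (tst_fl (tst_F1 hR)) hρ) w')).const_mul (1 / 3))
  rw [add_zero, sub_zero, mul_zero, add_zero] at h1
  refine h1.congr' ?_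
  filter_upwards [eventually_ge_atTop d0] with L hd
  have hL := dat.hd.trans_le hd
  have a1 := tst_A hχ.1 hR hL
  have a2 := tst_A (χ := fun t => 1 - χ t) (contDiff_const.sub hχ.1) hR hL
  have a3 := tst_G hχ hR hL
  have a4 := tst_kL (tst_F hR) hL
  have a5 := tst_kL (tst_fl (tst_F hR)) hL
  have a6 := tst_x2 (tst_gp hχ hR hL)
  have i : ∀ {g}, Tst g → tsupport g ⊆ {y | |y.1| < d0} →
      In {z | |al z| < d0 ∧ be z ∈ Ioo (-u0) u0} (pr g ρ) := fun hg sg =>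
    in_pr hg hρ fun z h1 h2 => ⟨sg h1, hs h2⟩
  have p1 := gap_v t.jc dat ((t.tS (ll L)).grp.pr_Tv (in_hk va va (i a3 (supp_G hχ dat.hd))))
  have p2 := gap_v t.jc dat (pr_VL (l := ll L)
    (i a6 ((tsupport_x2 _).trans (supp_gp hχ dat.hd))) a6 hρ)
  simp only [bar_hk, bar_pr, ew, ew'] at p1 p2
  replace p1 : inner ℂ (TP (c.toS (ll L)) va va (G χ R L) ρ) w =
    inner ℂ w' (TP (c.toS (ll L)) va va (G χ R L) ρ) := p1
  have e : c.om2 w w' χ (hk va va (pr (fun q => d2 q.2 q.2 * kL (cut0 R) L q) ρ)) =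
      inner ℂ (TP c va va (A χ R L) ρ) w + inner ℂ w' (TP c va va (A (fun t => 1 - χ t) R L) ρ) :=
    om2_eq _ _ _ _ _
  rw [e, rel_TP (ll L) a1 hρ, rel_TP (ll L) a2 hρ, da_A1 hχ hR hL hd, da_A' hχ hR hL hd, c.E.inner_J_right,
    show c.E.J _ = _ from J_TP_aa (c := c.toS (ll L)) (t.tS (ll L)).jc
      (tst_x2 (tst_da (tst_ap 1 (tst_slab hχ.opp hR hL)))) (tst_ng hρ), ng_ng, split hχ hR hL hd,
    split' hχ hR hL hd, TP_add_g (cs_add a1 a3) (cs_cmul L a4) hρ, TP_add_g a1 a3 hρ,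
    TP_add_g (cs_sub a2 a3) (cs_cmul L a5) hρ, TP_sub_g a2 a3 hρ, TP_mul_g L a4 hρ,
    TP_mul_g L a5 hρ, usc_TP_aa g hL (tst_F hR) hρ, usc_TP_aa g hL (tst_fl (tst_F hR)) hρ,
    PP_sub_g (tst_kL (tst_F1 hR) hL) a6 hρ, PP_sub_g a6 (tst_kL (tst_fl (tst_F1 hR)) hL) hρ,
    usc_VL g hL (tst_F1 hR) hρ, usc_VL g hL (tst_fl (tst_F1 hR)) hρ]
  simp only [inner_add_left, inner_add_right, inner_sub_left, inner_sub_right, smul_sub,
    inner_smul_left (𝕜 := ℂ) _ _ (1 / 3 : ℂ), inner_smul_right _ _ (1 / 3 : ℂ), map_div₀, map_one,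
    map_ofNat, p1, p2]
  ring

theorem gaps_row (c : Ctx D) [Fact c.can] (t : T3 c) (S : SIG c) : GAPS c := by
  intro u0 d0 y1 r1 y2 r2 X X' χ ρ R L l l' dat hχ hR hL hρ hs
  have a := tst_gp hχ hR hL
  have a' := tst_gp hχ.opp hR hL
  rw [c.E.inner_J_right, show c.E.J _ = _ from J_PP S (tst_Hg a') (tst_ng hρ), ng_ng, fl_Hg a',
    fl_gp hχ, PP_neg_g (tst_Hg a) hρ, inner_neg_right, gap_v t.jc dat (loc_PP S
      (fun s _ z hz => by simpa using hz) (tst_Hg a) hρ fun z h1 h2 =>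
        ⟨supp_gp hχ dat.hd (supp_Hg _ h1), hs h2⟩), add_neg_cancel]

end

end Vale.Agent.P352X.ZZ.BX
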