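import Vale.Agent.P352X.R.BB.Flux
import Vale.Agent.P352Z.R.BB.Base

/-!
# P352Z, row BB.flux: thin fluxes against the form domain of `P_b`
-/

set_option linter.all false

open MeasureTheory Filter Topology
open scoped SchwartzMap ComplexConjugate ENNReal ContDiff Real

namespace Vale.Agent.P352X.ZZ.BX

open Vale.Agent.P352 Vale.Agent.P352.GF Vale.Agent.P352.BW Vale.Agent.P352.H246
open Vale.Agent.P352.H496 Vale.Agent.P352.H755 Vale.Agent.P352.H15
open UniformSpace (Completion)
open Complex (I)

noncomputable section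

namespace Flux

export Vale.Agent.P352X.BX.Flux (pair int3 int1 tst_tm ft1_tm ms ms_meas ms_pos ms_le ms_le' poly)

variable {D : Type*} [NormedAddCommGroup D] [InnerProductSpace ℂ D] {c : Ctx D}

lemma qb_int (h : BAS c) {v : Completion D} {N : ℝ} (hv : Qb c v N) :
    ∫⁻ p, ENNReal.ofReal (1 + |al p|) ∂c.nu v ≤ ENNReal.ofReal ((2 * N) ^ 2) := by
  have N0 := (norm_nonneg _).trans hv.1
  calc _ = ∫⁻ p, 1 + ENNReal.ofReal (al p) ∂c.nu v := by
        refine lintegral_congr_ae ((h.cone v).mono fun p hp => ?_)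
        have := ((cone_iff p).1 hp).1
        simp only
        rw [abs_of_nonneg this, ENNReal.ofReal_add zero_le_one this, ENNReal.ofReal_one]
    _ = ENNReal.ofReal (‖v‖ ^ 2) + c.qb v := by
        rw [lintegral_add_left measurable_const, lintegral_one, ← c.bt.nu_univ, ofReal_measureReal]
        rfl
    _ ≤ ENNReal.ofReal (N ^ 2) + ENNReal.ofReal (N ^ 2) :=
        add_le_add (ENNReal.ofReal_le_ofReal (pow_le_pow_left₀ (norm_nonneg _) hv.1 2)) hv.2
    _ ≤ _ := by
        rw [← ENNReal.ofReal_add (by positivity) (by positivity)]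
        exact ENNReal.ofReal_le_ofReal (by nlinarith)

end Flux

end

end Vale.Agent.P352X.ZZ.BX
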