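import Vale.Agent.P352X.R.BB.Kt
import Vale.Agent.P352Z.R.BB.Flux
import Vale.Agent.P352Z.R.KD
import Vale.Agent.P352Z.SG.Rows

/-!
# P352Z, row BB: vocabulary and sub-rows with logarithms
-/

set_option linter.all false

open MeasureTheory Filter Topology Set
open scoped SchwartzMap ComplexConjugate ENNReal ContDiff

namespace Vale.Agent.P352X.ZZ.BX

export Vale.Agent.P352X.BX.Ktp (xS xS_apply qS qS_apply MS ev_MS sn_nn sn_mo)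

open Vale.Agent.P352 Vale.Agent.P352.GF Vale.Agent.P352.BW Vale.Agent.P352.H246
open Vale.Agent.P352.H496 Vale.Agent.P352.H755 Vale.Agent.P352.H15 Vale.Agent.P352X.Ap
open UniformSpace (Completion)
open Complex (I)

noncomputable section

variable {D : Type*} [NormedAddCommGroup D] [InnerProductSpace ℂ D] (c : Ctx D)

/-- the scale of a length -/
def ll (L : ℝ) : ℝ := -Real.log L / 2

/-- `Φ(g φ)` -/
def PP (Φ : Sch →L[ℂ] Completion D) (g : P3 → ℝ) (φ : ℝ → ℝ) : Completion D := Φ (sch (pr g φ))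

/-- `K ψ - 2 M_i χ_i + P w` -/
def K3 (ψ : Completion D) (χ : Fin 2 → Completion D) (w : Completion D) : Completion D :=
  gen c.SK ψ - (2 : ℂ) • ∑ i, gen (Mi c.Q i) (χ i) + gen (Pa c.Q) w

/-- `K Θ(f) - 2 M_i Θ(x_i f) + P Θ(|x|^2 f)` -/
def KS (Θ : Sch →L[ℂ] Completion D) (f : Sch) : Completion D :=
  K3 c (Θ f) (fun i => Θ (xS i f)) (Θ (qS f))

/-- small light cone momenta -/
def Lw (Θ : Sch →L[ℂ] Completion D) : Prop := ∃ (m : ℕ) (C : ℝ), 0 ≤ C ∧ ∀ (f : Sch) (t : ℝ),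
  0 < t → t ≤ 1 → ‖c.bt.P {p | al p < t ^ 4} (Θ f)‖ ≤ C * t * sn m f ∧
    ‖c.bt.P {p | be p < t ^ 4} (Θ f)‖ ≤ C * t * sn m f

/-- in the domain of `K ^ 2` on the slabs below the plane -/
def Sb (Θ : Sch →L[ℂ] Completion D) : Prop := ∀ b1 b2 : ℝ, b2 < 0 → ∃ (m : ℕ) (C : ℝ), 0 ≤ C ∧
  ∀ f : Sch, tsupport f ⊆ {z | b1 ≤ be z ∧ be z ≤ b2} → ∃ ξ ζ, Gn c.SK (Θ f) ξ ∧ Gn c.SK ξ ζ ∧
    ‖ξ‖ ≤ C * sn m f ∧ ‖ζ‖ ≤ C * sn m f

/-- members of multiplets -/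
structure Mt (Θ : Sch →L[ℂ] Completion D) : Prop where
  tr : Two.Tr c Θ
  lw : Lw c Θ
  mi : ∀ i, ∃ Θ' Θ'' : Sch →L[ℂ] Completion D, Lw c Θ' ∧
    ∀ f, Gn (Mi c.Q i) (Θ f) (Θ' f) ∧ Gn (Mi c.Q i) (Θ' f) (Θ'' f)
  slab : Sb c Θ

/-- BB.low: two point functions with logarithms -/
def LOWL : Prop := ∀ (Θ : Sch →L[ℂ] Completion D) (ρ : V → ℝ), Lgm.Lg ρ → Measurable ρ →
  (∀ f, c.nu (Θ f) ≤ Two.wd fun p => ρ p * ‖ft (ev f) p‖ ^ 2) → Lw c Θ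

/-- BB.kt: the covariant part of `K` on thin slabs -/
def KTL : Prop := ∀ (n : ℕ) (Θ : ℕ → Sch →L[ℂ] Completion D) ρ g φ, (∀ j, Mt c (Θ j)) → Tst ρ →
  Tst g → Tst φ → tsupport φ ⊆ Iio 0 → ∃ C : ℝ, 0 ≤ C ∧ ∀ t ∈ Ioc (0 : ℝ) 1,
    ∀ (ψ : Sch →L[ℂ] Completion D) (a : ℂ) (l : ℝ),
    (∀ F f : Sch, (∀ z, f z = F (scp 1 (t ^ 22) z)) →
      ψ F = a • Usc c.Q 1 (t ^ 22) (ex0 n l fun j => Θ j f)) →
    ‖Rb c ρ (KS c ψ (sch (pr g (dil (t ^ 22) φ))))‖ ≤ C * Real.sqrt t * ‖a‖ * (1 + |l|) ^ n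

variable [Fact c.can]

/-- the potentials `σ_j`, `1 ≤ j` -/
def s1 (j : ℕ) : Sch →L[ℂ] Completion D := if j = 0 then 0 else c.hC.pot.lv j default

/-- `σ_l` -/
def sL (l : ℝ) : Sch →L[ℂ] Completion D := ex0 c.k l fun j => c.hC.pot.lv j default

/-- `σ_l - σ_l'` -/
def dl (l l' : ℝ) : Sch →L[ℂ] Completion D := sL c l - sL c l'

/-- BB.sig: the potentials `σ_j`, `1 ≤ j`, have local gradients -/
structure SIG : Prop where
  loc : ∀ j (O : Set V) (y : V) f, (IsNull y ∨ ∃ a, IsNull a ∧ mdot a y = 0 ∧ mdot y y ≠ 0) →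
    (∀ t : ℝ, 0 ≤ t → ∀ z ∈ O, z + t • y ∈ O) → In O f →
    Pr (c.N O) c.Om (s1 c j (sch f)) (s1 c j (sch (bar f)))
  J : ∀ j f, c.J (s1 c j f) = s1 c j (KDa.mir f)
  mi : ∀ j i f, Gn (Mi c.Q i) (s1 c j f) (I • s1 c j (MS i f))
  slab : ∀ j, Sb c (s1 c j)

/-- BB.mt: the components of the families are members of multiplets -/
structure MTL : Prop where
  s : ∀ j h k, Mt c (TL (c.toC j) h k)
  g : ∀ j, Mt c (s1 c j)

/-- BB.flux: thin fluxes against the form domain of `P_b` -/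
structure FLUXL : Prop where
  tr : ∀ l i g φ, Tst g → Tst φ → ∃ C : ℝ, ∀ s ∈ Ioc (0 : ℝ) 1, ∀ v N, Qb c v N →
    ‖inner ℂ (Tx (c.toS l) (ex i) g (dil s φ)) v‖ ≤ C * Real.sqrt (Real.sqrt s) * N
  bd : ∀ g φ, Tst g → Tst φ → ∃ C : ℝ, ∀ s ∈ Ioc (0 : ℝ) 1, ∀ v N, Qb c v N →
    ‖inner ℂ (Tx (c.toS (ll s)) vb g (dil s φ)) v‖ ≤ C * N
  lim : ∀ g φ v N, Tst g → Tst φ → Qb c v N →
    Tendsto (fun s => inner ℂ (Tx (c.toS (ll s)) vb g (dil s φ)) v) (𝓝[>] 0) (𝓝 0)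
  sg : ∀ l g φ, Tst g → Tst φ → ∃ C : ℝ, ∀ s ∈ Ioc (0 : ℝ) 1,
    ‖PP (dl c l (ll s)) g (dil s φ)‖ ≤ C * Real.sqrt (Real.sqrt s)

variable {c}

theorem ex0_apply (n : ℕ) (l : ℝ) (Θ : ℕ → Sch →L[ℂ] Completion D) (f : Sch) :
    ex0 n l Θ f = ex0 n l fun j => Θ j f := by
  simp only [ex0, ContinuousLinearMap.sum_apply, ContinuousLinearMap.smul_apply]

theorem sL_apply (l : ℝ) (f : Sch) : sL c l f = c.sl l (ev f) := ex0_apply _ _ _ _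

theorem dl_eq (l l' : ℝ) (f : Sch) :
    dl c l l' f = ex0 c.k l (fun j => s1 c j f) - ex0 c.k l' fun j => s1 c j f := by
  simp only [dl, sL, ContinuousLinearMap.sub_apply, ex0_apply, ex0, Finset.sum_range_succ', s1,
    Nat.add_one_ne_zero, if_false, if_true, pow_zero, ContinuousLinearMap.zero_apply, smul_zero,
    ContinuousLinearMap.add_apply, ContinuousLinearMap.sum_apply, ContinuousLinearMap.smul_apply]
  abel

theorem Tv_toS (l : ℝ) (F : Ix → Ix → Fn) : (c.toS l).Tv F = c.Sv l F := rfl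

theorem TL_toS (l : ℝ) (h k : V) (f : Sch) :
    TL (c.toS l) h k f = ex0 c.k l fun j => TL (c.toC j) h k f := by
  simp only [TL_apply, Tv_toS, Ctx.Sv_eq]
  rfl

end

end Vale.Agent.P352X.ZZ.BX
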