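import Vale.Agent.P352Z.R.BB.Log
import Vale.Agent.P352Z.R.BB.SpecL

/-!
# P352Z, row BB.flux: thin fluxes against the form domain of `P_b`, with logarithms
-/

set_option linter.all false

open MeasureTheory Filter Topology Set
open scoped SchwartzMap ComplexConjugate ENNReal ContDiff Real

namespace Vale.Agent.P352X.ZZ.BX

open Vale.Agent.P352 Vale.Agent.P352.GF Vale.Agent.P352.BW Vale.Agent.P352.H496
open Vale.Agent.P352.H755
open UniformSpace (Completion)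

noncomputable section

variable {D : Type*} [NormedAddCommGroup D] [InnerProductSpace ℂ D] {c : Ctx D}

namespace Flux

lemma log_le (N : ℕ) (l : ℝ) {s : ℝ} (hs : 0 < s) {p : V} (hp : p ∈ Fc) :
    (1 + |Real.log (mu p) - 2 * l|) ^ (2 * N) ≤
      ((1 + |Real.log s + 2 * l|) ^ N) ^ 2 * (1 + |Real.log (s * mu p)|) ^ (2 * N) := by
  have := one_add_le (-(Real.log s + 2 * l)) (Real.log (s * mu p))
  rw [abs_neg, show -(Real.log s + 2 * l) + Real.log (s * mu p) = Real.log (mu p) - 2 * l by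
    rw [Real.log_mul hs.ne' ((mem_Fc p).1 hp).2.ne']; ring] at this
  rw [← pow_mul, mul_comm N, ← mul_pow]
  gcongr

/-- weighted norms of thin slabs -/
theorem thin (N : ℕ) {g : P3 → ℂ} {φ : ℝ → ℂ} (hg : Dc g) (hφ : Dc φ) : ∃ K : ℝ, 0 ≤ K ∧
    ∀ (ν : Measure V) (n : V → ℝ) (ψ : ℝ → ℂ) (l s a M : ℝ) (m : V → ℝ), 0 < s → Measurable n →
      Dc ψ → ν ≤ (Two.wd fun p =>
        n p * (1 + |Real.log (mu p) - 2 * l|) ^ (2 * N) * ‖ft (pf g ψ) p‖ ^ 2) →
      (∀ t, ‖ft1 ψ t‖ = a * s * ‖ft1 φ (s * t)‖) → (∀ p, 0 ≤ m p) →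
      (∀ p ∈ Fc, m p * n p * (a ^ 2 * s) ≤
        M ^ 2 * ((1 + be p ^ 2) ^ 2 * (1 + (s * al p) ^ 2) ^ 2)) →
      ∫⁻ p, ENNReal.ofReal (m p) ∂ν ≤
        ENNReal.ofReal ((K * (1 + |Real.log s + 2 * l|) ^ N * M) ^ 2) := by
  obtain ⟨K, K0, hK⟩ := Lw.thin_log (2 * N) hg hφ
  refine ⟨K, K0, fun ν n ψ l s a M m hs hn hψ hν e m0 hb => ?_⟩
  have cf := (cont_ft (Ap.test_pf hg hψ)).measurable
  refine (lintegral_mono' hν le_rfl).trans
    ((lintegral_withDensity_le_lintegral_mul _ (by fun_prop) _).trans ?_)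
  set Λ := (1 + |Real.log s + 2 * l|) ^ N
  rw [show (K * Λ * M) ^ 2 = (Λ * M) ^ 2 * K ^ 2 by ring, ENNReal.ofReal_mul (sq_nonneg _)]
  refine le_trans ?_ (mul_le_mul_right (hK s hs) _)
  rw [← lintegral_const_mul' _ _ ENNReal.ofReal_ne_top]
  refine setLIntegral_mono' meas_Fc fun p hp => ?_
  rw [Pi.mul_apply, mul_comm, ← ENNReal.ofReal_mul (m0 p), ← ENNReal.ofReal_mul (sq_nonneg _)]
  refine ENNReal.ofReal_le_ofReal ?_
  beta_reduce
  rw [ft_pf, norm_mul, e]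
  calc _ = m p * n p * (a ^ 2 * s) * ((1 + |Real.log (mu p) - 2 * l|) ^ (2 * N) *
        (s * ‖ft3 g (pm p)‖ ^ 2 * ‖ft1 φ (s * al p)‖ ^ 2)) := by ring
    _ ≤ M ^ 2 * ((1 + be p ^ 2) ^ 2 * (1 + (s * al p) ^ 2) ^ 2) *
        (Λ ^ 2 * (1 + |Real.log (s * mu p)|) ^ (2 * N) *
          (s * ‖ft3 g (pm p)‖ ^ 2 * ‖ft1 φ (s * al p)‖ ^ 2)) :=
      (mul_le_mul_of_nonneg_right (hb p hp) (by positivity)).trans (by
        gcongr
        exact log_le N l hs hp)
    _ = _ := by ring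

variable [Fact c.can]

/-- weighted bounds for the boost field -/
theorem tx_bd (w : TWOL c) {g : P3 → ℝ} {φ : ℝ → ℝ} (hg : Tst g) (hφ : Tst φ) : ∃ K : ℝ, 0 ≤ K ∧
    ∀ (l : ℝ) (h : V) (s M B : ℝ) (m : V → ℝ) (v : Completion D), 0 < s → 0 ≤ M → 0 ≤ B →
      Measurable m → (∀ p, 0 < m p) →
      (∀ p ∈ Fc, m p * nn p h * s * (2 * be p ^ 2 + 2 * (s * al p) ^ 2) ≤
        M ^ 2 * ((1 + be p ^ 2) ^ 2 * (1 + (s * al p) ^ 2) ^ 2) ∧ 0 ≤ nn p h) →
      ∫⁻ p, ENNReal.ofReal (m p)⁻¹ ∂c.nu v ≤ ENNReal.ofReal (B ^ 2) →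
      ‖inner ℂ (Tx (c.toS l) h g (dil s φ)) v‖ ≤
        K * (1 + |Real.log s + 2 * l|) ^ c.k * M * B := by
  obtain ⟨C, C0, hC⟩ := w.s
  obtain ⟨K1, a1, b1⟩ := thin c.k (Ap.dc_cx (Ap.tst_ap 1 hg)) (Ap.dc_cx hφ)
  obtain ⟨K2, a2, b2⟩ := thin c.k (Ap.dc_cx hg) (Ap.dc_cx (tst_tm hφ))
  refine ⟨(K1 + K2) * √C, by positivity, fun l h s M B m v hs M0 B0 hm m0 hb hv => ?_⟩
  have td := Ap.tst_dil hφ hs.ne'
  have cn : ∀ h k : V, Measurable fun p => C * nn p h * nn p k := fun h k => by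
    have a : ∀ h : V, Continuous fun p => nn p h := fun h =>
      (continuous_const.mul ((mdL h).continuous.pow 2)).sub (cont_mu.mul continuous_const)
    exact ((continuous_const.mul (a h)).mul (a k)).measurable
  have up : ∀ {x y : ℝ}, x ≤ M ^ 2 * y → C * x ≤ (√C * M) ^ 2 * y := fun h => by
    rw [mul_pow, Real.sq_sqrt C0, mul_assoc]
    exact mul_le_mul_of_nonneg_left h C0
  have k1 := pair c.bt.toCalc hm m0 (by positivity) B0 (b1 _ _ (cx (dil s φ)) l s 1 (√C * M) m hs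
    (cn h va) (Ap.dc_cx td) (hC l h va _ (Ap.test_pf (Ap.dc_cx (Ap.tst_ap 1 hg)) (Ap.dc_cx td)))
    (fun t => by
      rw [ft1_dil hs, norm_mul, Complex.norm_real, Real.norm_of_nonneg hs.le, one_mul]; rfl)
    (fun p => (m0 p).le) fun p hp => le_trans (le_of_eq (by ring)) (up (x := m p *
      (nn p h * nn p va) * (1 ^ 2 * s)) (le_trans (by
      have := mul_nonneg (mul_nonneg (mul_nonneg (m0 p).le (hb p hp).2) hs.le) (sq_nonneg (s * al p))
      rw [nn_va]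
      nlinarith) (hb p hp).1))) hv
  have k2 := pair c.bt.toCalc hm m0 (by positivity) B0 (b2 _ _ (cx (tm (dil s φ))) l s s (√C * M) m
    hs (cn h vb) (Ap.dc_cx (tst_tm td))
    (hC l h vb _ (Ap.test_pf (Ap.dc_cx hg) (Ap.dc_cx (tst_tm td)))) (ft1_tm hs φ)
    (fun p => (m0 p).le) fun p hp => le_trans (le_of_eq (by ring)) (up (x := m p *
      (nn p h * nn p vb) * (s ^ 2 * s)) (le_trans (by
      have := mul_nonneg (mul_nonneg (mul_nonneg (m0 p).le (hb p hp).2) hs.le) (sq_nonneg (be p))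
      rw [nn_vb]
      nlinarith) (hb p hp).1))) hv
  rw [Tx, TP, TP, inner_sub_left, pr_eq, pr_eq]
  exact (norm_sub_le _ _).trans ((add_le_add k1 k2).trans_eq (by ring))

theorem face_bd (w : TWOL c) {g : P3 → ℝ} {φ : ℝ → ℝ} (hg : Tst g) (hφ : Tst φ) : ∃ K : ℝ, 0 ≤ K ∧
    ∀ (s B : ℝ) (v : Completion D), 0 < s → 0 ≤ B →
      ∫⁻ p, ENNReal.ofReal (ms s p)⁻¹ ∂c.nu v ≤ ENNReal.ofReal (B ^ 2) →
      ‖inner ℂ (Tx (c.toS (ll s)) vb g (dil s φ)) v‖ ≤ K * B := by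
  obtain ⟨K, a, b⟩ := tx_bd w hg hφ
  refine ⟨K * 4, by positivity, fun s B v hs B0 hv => (b (ll s) vb s 4 B _ v hs (by norm_num) B0
    (ms_meas s) (ms_pos hs) (fun p hp => ⟨?_, by rw [nn_vb]; positivity⟩) hv).trans_eq (by
      rw [ll, show Real.log s + 2 * (-Real.log s / 2) = 0 by ring]
      simp)⟩
  have t0 := ((mem_Fc' p).1 hp).1
  refine le_trans (mul_le_mul_of_nonneg_right ?_ (by positivity)) (poly _ _ (mul_pos hs t0).le)
  have h1 : (1 + al p)⁻¹ * al p ≤ 1 := by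
    rw [inv_mul_le_iff₀ (by positivity)]
    linarith
  have h2 : 0 ≤ (1 + al p)⁻¹ * al p := by positivity
  have h3 := mul_le_mul_of_nonneg_left h1 (mul_pos hs t0).le
  have : ms s p * nn p vb * s =
      2 * (s * al p * ((1 + al p)⁻¹ * al p) + ((1 + al p)⁻¹ * al p) ^ 2) := by
    rw [ms, nn_vb, abs_of_pos t0]
    field_simp
  nlinarith

/-- the potentials on thin slabs -/
theorem sl_bd (w : TWOL c) {g : P3 → ℝ} {φ : ℝ → ℝ} (hg : Tst g) (hφ : Tst φ) : ∃ K : ℝ, 0 ≤ K ∧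
    ∀ l s : ℝ, 0 < s →
      ‖PP (sL c l) g (dil s φ)‖ ≤ K * ((1 + |Real.log s + 2 * l|) ^ c.k * √s) := by
  obtain ⟨C, C0, hC⟩ := w.g
  obtain ⟨K, a, b⟩ := thin c.k (Ap.dc_cx hg) (Ap.dc_cx hφ)
  refine ⟨K * √C, by positivity, fun l s hs => ?_⟩
  have td := Ap.tst_dil hφ hs.ne'
  have k := b _ (fun _ => C) (cx (dil s φ)) l s 1 (√C * √s) (fun _ => 1) hs measurable_const
    (Ap.dc_cx td) (hC l _ (Ap.test_pf (Ap.dc_cx hg) (Ap.dc_cx td))) (fun t => by
      rw [ft1_dil hs, norm_mul, Complex.norm_real, Real.norm_of_nonneg hs.le, one_mul]; rfl)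
    (fun _ => zero_le_one) fun p _ => by
      rw [mul_pow, Real.sq_sqrt C0, Real.sq_sqrt hs.le, one_mul, one_pow, one_mul]
      exact le_mul_of_one_le_right (by positivity) (one_le_mul_of_one_le_of_one_le
        (one_le_pow₀ (le_add_of_nonneg_right (sq_nonneg _)))
        (one_le_pow₀ (le_add_of_nonneg_right (sq_nonneg _))))
  rw [ENNReal.ofReal_one, lintegral_one, ← ofReal_measureReal, c.bt.nu_univ,
    ENNReal.ofReal_le_ofReal_iff (sq_nonneg _)] at k
  rw [PP, sL_apply, Ap.ev_sch (Ap.test_pr hg td), pr_eq]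
  exact (abs_le_of_sq_le_sq' k (by positivity)).2.trans_eq (by ring)

end Flux

open Flux in
/-- **row BB.flux** -/
theorem fluxl_row (c : Ctx D) [Fact c.can] (t : T3 c) : FLUXL c := by
  have w := t.toT2.twol
  refine ⟨fun l i g φ hg hφ => ?_, fun g φ hg hφ => ?_, fun g φ v N hg hφ hv => ?_,
    fun l g φ hg hφ => ?_⟩
  · obtain ⟨K, a, b⟩ := tx_bd w hg hφ
    obtain ⟨C, C0, hC⟩ := log_pow_bd c.k (2 * l)
    refine ⟨K * C * 4 * 2, fun s hs v N hv => ?_⟩
    have N0 := (norm_nonneg _).trans hv.1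
    refine (b l (ex i) s (4 * √s) (2 * N) (fun p => (1 + |al p|)⁻¹) v hs.1 (by positivity)
      (by positivity) (by fun_prop) (fun p => by positivity) (fun p hp => ?_)
      (by simpa only [inv_inv] using qb_int t.bas hv)).trans ?_
    · obtain ⟨t0, m0⟩ := (mem_Fc' p).1 hp
      have a0 := ((mem_Fc p).1 hp).1
      have s0 := hs.1
      have e := mu_eq p
      have q := sq_le_d2 (tx p) i
      refine ⟨?_, by rw [nn_ex]; positivity⟩
      have h1 : (1 + |al p|)⁻¹ * nn p (ex i) ≤ 4 * be p := by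
        rw [abs_of_pos t0, inv_mul_le_iff₀ (by positivity), nn_ex]
        nlinarith
      have h2 : 4 * be p * (2 * be p ^ 2 + 2 * (s * al p) ^ 2) ≤
          4 ^ 2 * ((1 + be p ^ 2) ^ 2 * (1 + (s * al p) ^ 2) ^ 2) := by
        set a := be p
        set u := s * al p
        have h1 : a ≤ 1 + a ^ 2 := by nlinarith [sq_nonneg (a - 1)]
        have h2 : a ^ 2 + u ^ 2 ≤ (1 + a ^ 2) * (1 + u ^ 2) ^ 2 := by
          nlinarith [sq_nonneg a, sq_nonneg u, sq_nonneg (u ^ 2),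
            mul_nonneg (sq_nonneg a) (sq_nonneg u), mul_nonneg (sq_nonneg (u ^ 2)) (sq_nonneg a)]
        have h3 := mul_le_mul h1 h2 (by positivity) (by positivity)
        have : 0 ≤ (1 + a ^ 2) ^ 2 * (1 + u ^ 2) ^ 2 := by positivity
        nlinarith
      rw [mul_pow 4, Real.sq_sqrt s0.le]
      calc _ ≤ 4 * be p * s * (2 * be p ^ 2 + 2 * (s * al p) ^ 2) := by gcongr
        _ = s * (4 * be p * (2 * be p ^ 2 + 2 * (s * al p) ^ 2)) := by ring
        _ ≤ _ := (mul_le_mul_of_nonneg_left h2 s0.le).trans_eq (by ring)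
    · calc _ = K * 8 * N * ((1 + |Real.log s + 2 * l|) ^ c.k * √s) := by ring
        _ ≤ K * 8 * N * (C * √(√s)) := mul_le_mul_of_nonneg_left (hC s hs) (by positivity)
        _ = _ := by ring
  · obtain ⟨K, a, b⟩ := face_bd w hg hφ
    refine ⟨K * 2, fun s hs v N hv => ?_⟩
    have N0 := (norm_nonneg _).trans hv.1
    exact (b s (2 * N) v hs.1 (by positivity) ((lintegral_mono fun p =>
      ENNReal.ofReal_le_ofReal (ms_le hs.1 p)).trans (qb_int t.bas hv))).trans_eq (by ring)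
  · obtain ⟨K, a, b⟩ := face_bd w hg hφ
    have l : Tendsto (fun s => ∫⁻ p, ENNReal.ofReal (ms s p)⁻¹ ∂c.nu v) (𝓝[>] 0)
        (𝓝 (∫⁻ _, 0 ∂c.nu v)) := by
      refine tendsto_lintegral_filter_of_dominated_convergence
        (fun p => ENNReal.ofReal (1 + |al p|))
        (.of_forall fun s => (ms_meas s).inv.ennreal_ofReal) ?_
        ((qb_int t.bas hv).trans_lt ENNReal.ofReal_lt_top).ne (.of_forall fun p => ?_)
      · filter_upwards [self_mem_nhdsWithin] with s hs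
        exact .of_forall fun p => ENNReal.ofReal_le_ofReal (ms_le hs p)
      · rw [← ENNReal.ofReal_zero]
        refine ENNReal.tendsto_ofReal (squeeze_zero' (g := fun s => s * (1 + |al p|) ^ 2) ?_ ?_ ?_)
        · filter_upwards [self_mem_nhdsWithin] with s hs using (inv_pos.2 (ms_pos hs p)).le
        · filter_upwards [self_mem_nhdsWithin] with s hs using ms_le' hs p
        · exact (Continuous.tendsto' (f := fun s : ℝ => s * (1 + |al p|) ^ 2) (by fun_prop) 0 0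
            (zero_mul _)).mono_left nhdsWithin_le_nhds
    rw [lintegral_zero] at l
    refine NormedAddGroup.tendsto_nhds_zero.2 fun ε hε => ?_
    have d : 0 < ε / (K + 1) := by positivity
    filter_upwards [self_mem_nhdsWithin, l.eventually (ge_mem_nhds
      (ENNReal.ofReal_pos.2 (pow_pos d 2)))] with s hs h
    refine (b s _ v hs d.le h).trans_lt ?_
    rw [← mul_div_assoc, div_lt_iff₀ (by positivity)]
    nlinarith
  · obtain ⟨K, a, b⟩ := sl_bd w hg hφ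
    obtain ⟨C, C0, hC⟩ := log_pow_bd c.k (2 * l)
    obtain ⟨C', C0', hC'⟩ := log_pow_bd 0 0
    refine ⟨K * C + K * C', fun s hs => ?_⟩
    have b1 := (b l s hs.1).trans (mul_le_mul_of_nonneg_left (hC s hs) a)
    have b2 := b (ll s) s hs.1
    have b3 := mul_le_mul_of_nonneg_left (hC' s hs) a
    rw [ll, show Real.log s + 2 * (-Real.log s / 2) = 0 by ring, abs_zero, add_zero, one_pow,
      ← ll] at b2
    rw [pow_zero] at b3
    exact (norm_sub_le _ _).trans ((add_le_add b1 (b2.trans b3)).trans_eq (by ring))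

end

end Vale.Agent.P352X.ZZ.BX
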