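import Vale.Agent.P352Z.R.BB.SpecL

/-!
# P352Z, row BB: the surface charge with logarithms and the remaining sub-rows
-/

set_option linter.all false

open MeasureTheory Filter Topology Set
open scoped SchwartzMap ComplexConjugate ENNReal ContDiff

namespace Vale.Agent.P352X.ZZ.BX

open Vale.Agent.P352 Vale.Agent.P352.GF Vale.Agent.P352.BW Vale.Agent.P352.H246
open Vale.Agent.P352.H496 Vale.Agent.P352.H755 Vale.Agent.P352.H15 Vale.Agent.P352X.Ap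
open Vale.Agent.P132 (ModData jconj)
open UniformSpace (Completion)
open Complex (I)

noncomputable section

variable {D : Type*} [NormedAddCommGroup D] [InnerProductSpace ℂ D] (c : Ctx D)

/-- the cutoff in the gap -/
def gp (χ : ℝ → ℝ) (R L : ℝ) : P3 → ℝ :=
  k3 (fun t => -deriv χ t) fun x => kp R ((Real.sqrt L)⁻¹ • x)

/-- `(t ps t)''` -/
def p2 : ℝ → ℝ := deriv (deriv (tm ps))

/-- the local correction of the charge -/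
def Eg (Φ : Sch →L[ℂ] Completion D) (g : P3 → ℝ) (ε : ℝ) : Completion D :=
  PP Φ (da (ap 1 g)) (dlt ε (deriv ps)) + PP Φ g (dlt ε p2)

/-- the second moment of the correction -/
def Hg (g : P3 → ℝ) : P3 → ℝ := fun y => -(1 / 3) * (x2 (da (da (ap 1 g))) y + x2 (da g) y)

variable [Fact c.can]

/-- the charge of the boost on the surface below the plane, with the correction -/
def GC (χ : ℝ → ℝ) (R L ε : ℝ) : Completion D :=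
  GG (c.toS (ll L)) χ R L ε + (1 / 3 : ℂ) • Eg (dl c (ll L) (ll ε)) (gp χ R L) ε

/-- BB.half: the Ward identity of the boost on the surface below the plane -/
def HALFL : Prop := ∀ (d d1 e R L ε : ℝ) χ y r X k, 0 < d → d / 2 < d1 → d ≤ R → 2 * R ≤ L →
  0 < ε → 2 * ε ≤ e → e ≤ R → Stp d χ → 0 < r → X ∈ c.N (dc y r) →
  closure (dc y r) ⊆ Box d e R → Gn (Bo c.Q) (X c.Om) k →
  Pr (c.N (Wdg va vb (-(d1 • va)))) c.Om (k + X (GC c χ R L ε)) (star X (GC c χ R L ε))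

/-- BB.dec: the total surface, by conservation -/
def DECL : Prop := ∀ (d R : ℝ) χ, 0 < d → d ≤ R → Stp d χ →
  ∃ (Γ : ℝ → Completion D) (g1 : Fin 2 → P3 → ℝ) (φ0 γ : ℝ → ℝ), (∀ i, Tst (g1 i)) ∧ Tst φ0 ∧
    Tst γ ∧ (∀ ε, 0 < ε → inner ℂ c.Om (Γ ε) = 0) ∧
    (∀ n, ep n ≤ R → Γ (ep (n + 1)) - Γ (ep n) =
      ∑ i, Tx (c.toS 0) (ex i) (g1 i) (dil (ep n) φ0)) ∧
    ∀ L, R ≤ L → ∃ (g2 g4 : P3 → ℝ) (g3 : Fin 2 → P3 → ℝ), Tst g2 ∧ Tst g4 ∧ (∀ i, Tst (g3 i)) ∧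
      ∀ ε, 0 < ε → ε ≤ R → GC c χ R L ε - c.J (GC c (opp χ) R L ε) =
        Usc c.Q L 1 (Γ ε) + Tx (c.toS (ll ε)) vb g2 (dil ε γ) +
          ∑ i, Tx (c.toS (ll L)) (ex i) (g3 i) (dil ε γ) + PP (dl c (ll L) (ll ε)) g4 (dil ε γ)

/-- BB.ks: `K` on thin slabs -/
structure KSL : Prop where
  face : ∀ ρ g φ, Tst ρ → Tst g → Tst φ → tsupport φ ⊆ Iio 0 → ∃ C : ℝ, ∀ t ∈ Ioc (0 : ℝ) 1,
    ‖Rb c ρ (gen c.SK (Tx (c.toS 0) vb g (dil (t ^ 22) φ)))‖ ≤ C * Real.sqrt (Real.sqrt t)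
  slab : ∀ l ρ g φ, Tst ρ → Tst g → Tst φ → tsupport φ ⊆ Iio 0 →
    Tendsto (fun t : ℝ => Rb c ρ (gen c.SK (Tx (c.toS l) va g (dlt (t ^ 22) φ)))) (𝓝[>] 0)
      (𝓝 (((∫ t, φ t : ℝ) : ℂ) • I • TP (c.toS l) va va (x2 (da (ap 1 g))) ρ))
  sg : ∀ l ρ g φ, Tst ρ → Tst g → Tst φ → tsupport φ ⊆ Iio 0 →
    Tendsto (fun t : ℝ => Rb c ρ (gen c.SK (PP (dl c l (ll (t ^ 22))) g (dlt (t ^ 22) φ))) -
      ((∫ t, φ t : ℝ) : ℂ) • I • PP (dl c l (ll (t ^ 22))) (x2 (da g)) ρ) (𝓝[>] 0) (𝓝 0)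

/-- BB.main: the main terms -/
def MAINL : Prop := ∀ (d R : ℝ) χ ρ w, 0 < d → d ≤ R → Stp d χ → Tst ρ → ∀ η > 0,
  ∀ᶠ L in atTop, ∀ᶠ n in atTop, ‖I * inner ℂ (Rb c ρ (gen c.SK (GC c χ R L (ep n)))) w -
    inner ℂ (TP (c.toS (ll L)) va va (x2 (da (ap 1 (slab χ R L)))) ρ) w -
    inner ℂ (PP (dl c (ll L) (ll (ep n))) (Hg (gp χ R L)) ρ) w‖ ≤ η

/-- BB.gaps: the corrections cancel -/
def GAPS : Prop := ∀ u0 d0 y1 r1 y2 r2 X X' χ ρ (R L l l' : ℝ), Dat c u0 d0 y1 r1 y2 r2 X X' →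
  Stp d0 χ → 0 < R → 0 < L → Tst ρ → tsupport ρ ⊆ Ioo (-u0) u0 →
  inner ℂ (PP (dl c l l') (Hg (gp χ R L)) ρ) (jconj c.J X' (X c.Om)) +
    inner ℂ (PP (dl c l l') (Hg (gp (opp χ) R L)) (ng ρ))
      (c.J (star X (star (jconj c.J X') c.Om))) = 0

/-- BB.cross: the cross terms -/
def CROSSL : Prop := ∀ (d R u1 N : ℝ) χ ρ (v : ℝ → Completion D), 0 < d → d ≤ R → Stp d χ →
  Tst ρ → tsupport ρ ⊆ Icc (-u1) u1 → ContinuousOn v (Icc (-u1) u1) →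
  (∀ u ∈ Icc (-u1) u1, Qb c (v u) N) → ∀ η > 0, ∀ᶠ L in atTop, ∀ᶠ n in atTop,
    ‖∫ u, (ρ u : ℂ) * inner ℂ (GC c χ R L (ep n) - c.J (GC c (opp χ) R L (ep n))) (v u)‖ ≤ η

/-- BB.end: the main terms and the form -/
def ENDL : Prop := ∀ u0 d0 y1 r1 y2 r2 X X' χ ρ (R : ℝ), Dat c u0 d0 y1 r1 y2 r2 X X' →
  Stp d0 χ → 0 < R → Tst ρ → tsupport ρ ⊆ Ioo (-u0) u0 →
  Tendsto (fun L => inner ℂ (TP (c.toS (ll L)) va va (x2 (da (ap 1 (slab χ R L)))) ρ)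
      (jconj c.J X' (X c.Om)) +
    inner ℂ (TP (c.toS (ll L)) va va (x2 (da (ap 1 (slab (opp χ) R L)))) (ng ρ))
      (c.J (star X (star (jconj c.J X') c.Om))) -
    c.om2 (jconj c.J X' (X c.Om)) (star X (star (jconj c.J X') c.Om)) χ
      (hk va va (pr (fun q => d2 q.2 q.2 * kL (cut0 R) L q) ρ))) atTop (𝓝 0)

end

end Vale.Agent.P352X.ZZ.BX
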