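import Vale.Agent.P352X.R.BB.KS
import Vale.Agent.P352X.R.BB.L1
import Vale.Agent.P352Z.R.BB.SpecM

/-!
# P352Z, row BB: the calculus of the vectors `PP`
-/

set_option linter.all false

open MeasureTheory Filter Topology Set
open scoped SchwartzMap ComplexConjugate ENNReal ContDiff

namespace Vale.Agent.P352X.ZZ.BX

export Vale.Agent.P352X.BX (pr_sub_vb)
export Vale.Agent.P352X.BX.Ks (da_mul da_xi da_x2 mv)

open Vale.Agent.P352 Vale.Agent.P352.GF Vale.Agent.P352.BW Vale.Agent.P352.H246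
open Vale.Agent.P352.H496 Vale.Agent.P352.H755 Vale.Agent.P352.H15 Vale.Agent.P352X.Ap
open UniformSpace (Completion)
open Complex (I)

noncomputable section

/-! ## functions -/

section fn

variable {χ : ℝ → ℝ} {d R L t : ℝ} {g : P3 → ℝ}

theorem tst_gp (h : Stp d χ) (hR : 0 < R) (hL : 0 < L) : Tst (gp χ R L) :=
  tst_k3 (cs_neg h.tst_d.1) (tst_kpL hR hL)

theorem tsupport_gp (h : Stp d χ) : tsupport (gp χ R L) ⊆ {y | |y.1| ≤ d / 2} :=
  tsupp_sub (isClosed_le (by fun_prop) (by fun_prop)) fun y hy => by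
    have k : deriv χ y.1 ≠ 0 := fun k => hy (by simp [gp, k3, k])
    exact abs_le.2 ⟨not_lt.1 fun h' => k (h.d_le (by linarith)),
      not_lt.1 fun h' => k (h.d_ge h'.le)⟩

theorem tsupport_da (g : P3 → ℝ) : tsupport (da g) ⊆ tsupport g :=
  (tsupp_of_zero fun y h => by simp [da, h]).trans (tsupport_fderiv_subset ℝ)

theorem tsupport_x2 (g : P3 → ℝ) : tsupport (x2 g) ⊆ tsupport g := tsupport_mul_subset_right

theorem fl_gp (h : Stp d χ) : fl (gp (opp χ) R L) = gp χ R L := by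
  funext y
  simp only [fl, gp, k3, deriv_opp h.diff, neg_neg]

theorem fl_da (h : Differentiable ℝ g) : fl (da g) = fun y => -da (fl g) y := by
  funext y
  have h1 : HasDerivAt (fun a : ℝ => ((-a, y.2) : P3)) (-1, 0) y.1 :=
    (hasDerivAt_neg y.1).prodMk (hasDerivAt_const _ _)
  have h2 : DifferentiableAt ℝ (fl g) y := (h.comp flE.differentiable) y
  rw [da_of h2 ((h (-y.1, y.2)).hasFDerivAt.comp_hasDerivAt y.1 h1), fl, da, ← map_neg]
  simp

theorem fl_da_ap (h : Differentiable ℝ g) : fl (da (ap 1 g)) = da (ap 1 (fl g)) := by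
  rw [da_ap h, da_ap (g := fl g) (h.comp flE.differentiable)]
  funext y
  have := congrFun (fl_da h) y
  simp only [fl, ap, pow_one] at this ⊢
  rw [this]
  ring

theorem smooth_tp : ContDiff ℝ ∞ (tm ps) := contDiff_id.mul smooth_ps

theorem d_tp (t : ℝ) : deriv (tm ps) t = ps t + t * deriv ps t := by
  have := ((hasDerivAt_id' t).fun_mul (diff_ps t).hasDerivAt).deriv
  rwa [one_mul] at this

theorem smooth_dtp : ContDiff ℝ ∞ (deriv (tm ps)) := (contDiff_infty_iff_deriv.1 smooth_tp).2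

theorem dtp_one (h : t ≤ -1) : deriv (tm ps) t = 1 := by rw [d_tp, ps_one h, dps_le h]; ring

theorem dtp_zero (h : -1 / 2 ≤ t) : deriv (tm ps) t = 0 := by rw [d_tp, ps_zero h, dps_ge h]; ring

theorem tst_p2' : Tst p2 ∧ tsupport p2 ⊆ Icc (-1) (-1 / 2) :=
  tst_Icc (contDiff_infty_iff_deriv.1 smooth_dtp).2
    (fun _ => deriv_zero_le smooth_dtp fun _ => dtp_one)
    fun _ => deriv_zero_ge smooth_dtp fun _ => dtp_zero

theorem tst_p2 : Tst p2 := tst_p2'.1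

theorem tsupport_p2 : tsupport p2 ⊆ Icc (-1) (-1 / 2) := tst_p2'.2

theorem tsupport_p2_neg : tsupport p2 ⊆ Iio 0 :=
  fun _ ht => (tsupport_p2 ht).2.trans_lt (by norm_num)

theorem integral_p2 : ∫ t, p2 t = -1 := by
  rw [← setIntegral_eq_integral_of_forall_compl_eq_zero (s := Ioc (-1) (-1 / 2)) fun t ht => by
      rcases le_or_gt t (-1) with h | h
      · exact deriv_zero_le smooth_dtp (fun _ => dtp_one) h
      · exact deriv_zero_ge smooth_dtp (fun _ => dtp_zero) (not_le.1 fun k => ht ⟨h, k⟩).le,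
    ← intervalIntegral.integral_of_le (by norm_num), p2,
    intervalIntegral.integral_deriv_eq_sub (fun x _ => smooth_dtp.differentiable (by simp) x)
      (tst_p2.1.continuous.intervalIntegrable _ _), dtp_zero le_rfl, dtp_one le_rfl]
  norm_num

theorem tst_Hg (h : Tst g) : Tst (Hg g) :=
  cs_cmul _ (cs_add (tst_x2 (tst_da (tst_da (tst_ap 1 h)))) (tst_x2 (tst_da h)))

end fn

variable {D : Type*} [NormedAddCommGroup D] [InnerProductSpace ℂ D] {c : Ctx D}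
  {Φ Ψ : Sch →L[ℂ] Completion D} {g g' : P3 → ℝ} {φ φ' ρ : ℝ → ℝ} {s l l' : ℝ}
  {v : Completion D}

/-! ## linearity -/

theorem PP_lin (g φ) {g₁ g₂ : P3 → ℝ} {φ₁ φ₂ : ℝ → ℝ} (a b : ℝ) (h1 : Tst g₁) (k1 : Tst φ₁)
    (h2 : Tst g₂) (k2 : Tst φ₂) (e : ∀ y t, g y * φ t = a * (g₁ y * φ₁ t) + b * (g₂ y * φ₂ t)) :
    PP Φ g φ = (a : ℂ) • PP Φ g₁ φ₁ + (b : ℂ) • PP Φ g₂ φ₂ := by
  rw [PP, PP, PP, ← map_smul, ← map_smul, ← map_add]
  congr 1
  refine Ap.sch_eq fun z => ?_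
  simp only [SchwartzMap.add_apply, SchwartzMap.smul_apply, sch_dc (dc_pr h1 k1),
    sch_dc (dc_pr h2 k2), pr, e, smul_eq_mul]
  push_cast
  rfl

theorem PP_add_g (hg : Tst g) (hg' : Tst g') (hφ : Tst φ) :
    PP Φ (fun y => g y + g' y) φ = PP Φ g φ + PP Φ g' φ := by
  simpa using PP_lin (Φ := Φ) (fun y => g y + g' y) φ 1 1 hg hφ hg' hφ fun y t => by ring

theorem PP_sub_g (hg : Tst g) (hg' : Tst g') (hφ : Tst φ) :
    PP Φ (fun y => g y - g' y) φ = PP Φ g φ - PP Φ g' φ := by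
  simpa [sub_eq_add_neg] using
    PP_lin (Φ := Φ) (fun y => g y - g' y) φ 1 (-1) hg hφ hg' hφ fun y t => by ring

theorem PP_mul_g (a : ℝ) (hg : Tst g) (hφ : Tst φ) :
    PP Φ (fun y => a * g y) φ = (a : ℂ) • PP Φ g φ := by
  simpa using PP_lin (Φ := Φ) (fun y => a * g y) φ a 0 hg hφ hg hφ fun y t => by ring

theorem PP_neg_g (hg : Tst g) (hφ : Tst φ) : PP Φ (fun y => -g y) φ = -PP Φ g φ := by
  simpa using PP_mul_g (Φ := Φ) (-1) hg hφ

theorem PP_add_p (hg : Tst g) (hφ : Tst φ) (hφ' : Tst φ') :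
    PP Φ g (fun t => φ t + φ' t) = PP Φ g φ + PP Φ g φ' := by
  simpa using PP_lin (Φ := Φ) g (fun t => φ t + φ' t) 1 1 hg hφ hg hφ' fun y t => by ring

theorem PP_sub_p (hg : Tst g) (hφ : Tst φ) (hφ' : Tst φ') :
    PP Φ g (fun t => φ t - φ' t) = PP Φ g φ - PP Φ g φ' := by
  simpa [sub_eq_add_neg] using
    PP_lin (Φ := Φ) g (fun t => φ t - φ' t) 1 (-1) hg hφ hg hφ' fun y t => by ring

theorem PP_mul_p (a : ℝ) (hg : Tst g) (hφ : Tst φ) :
    PP Φ g (fun t => a * φ t) = (a : ℂ) • PP Φ g φ := by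
  simpa using PP_lin (Φ := Φ) g (fun t => a * φ t) a 0 hg hφ hg hφ fun y t => by ring

theorem PP_dlt (hg : Tst g) (hφ : Tst φ) (hs : 0 < s) :
    PP Φ g (dlt s φ) = ((s⁻¹ : ℝ) : ℂ) • PP Φ g (dil s φ) := by
  rw [dlt_eq, PP_mul_p _ hg (tst_dil hφ hs.ne')]

theorem PP_tm (hg : Tst g) (hφ : Tst φ) (hs : 0 < s) :
    PP Φ g (tm (dil s φ)) = (s : ℂ) • PP Φ g (dil s (tm φ)) := by
  rw [tm_dil s hs.ne', PP_mul_p s hg (tst_dil (tst_tm hφ) hs.ne')]

theorem PP_sub (g φ) : PP (Φ - Ψ) g φ = PP Φ g φ - PP Ψ g φ := rfl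

theorem PP_add (g φ) : PP (Φ + Ψ) g φ = PP Φ g φ + PP Ψ g φ := rfl

theorem PP_ex0 (n : ℕ) (l : ℝ) (Θ : ℕ → Sch →L[ℂ] Completion D) (g φ) :
    PP (ex0 n l Θ) g φ = ex0 n l fun j => PP (Θ j) g φ := ex0_apply _ _ _ _

theorem TP_PP (hg : Tst g) (hφ : Tst φ) (h k : V) : TP c h k g φ = PP (TL c h k) g φ :=
  TP_sch hg hφ h k

theorem PP_da (hg : Tst g) (hφ : Tst φ) : Φ (KDa.dS va (sch (pr g φ))) = PP Φ (da g) φ := by
  congr 1
  refine (Ap.sch_eq fun z => ?_).symm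
  have := congrFun (KDa.ev_dS va (sch (pr g φ))) z
  rwa [ev_sch (test_pr hg hφ), dv_pr_a (tst_diff hg) (tst_diff hφ)] at this

theorem PP_db (hg : Tst g) (hφ : Tst φ) : Φ (KDa.dS vb (sch (pr g φ))) = PP Φ g (deriv φ) := by
  congr 1
  refine (Ap.sch_eq fun z => ?_).symm
  have := congrFun (KDa.ev_dS vb (sch (pr g φ))) z
  rwa [ev_sch (test_pr hg hφ), dv_pr_b (tst_diff hg) (tst_diff hφ)] at this

theorem xS_pr (i : Fin 2) (hg : Tst g) (hφ : Tst φ) :
    xS i (sch (pr g φ)) = sch (pr (xi i g) φ) := (Ap.sch_eq fun z => by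
  rw [xS_apply, sch_dc (dc_pr hg hφ)]
  simp [pr, xi, pl, mul_assoc]).symm

theorem qS_pr (hg : Tst g) (hφ : Tst φ) : qS (sch (pr g φ)) = sch (pr (x2 g) φ) :=
  (Ap.sch_eq fun z => by
    rw [qS_apply, sch_dc (dc_pr hg hφ)]
    simp [pr, x2, pl, mul_assoc]).symm

theorem PP_MS (i : Fin 2) (hg : Tst g) (hφ : Tst φ) :
    Φ (MS i (sch (pr g φ))) = PP Φ (xi i (da g)) φ + PP Φ (di i g) (tm φ) := by
  rw [PP, PP, ← map_add]
  congr 1
  ext z
  have := congrFun (ev_MS i (sch (pr g φ))) z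
  rw [ev_sch (test_pr hg hφ), Mc, dv_pr_a (tst_diff hg) (tst_diff hφ),
    dv_pr_ex (tst_diff hg) (tst_diff hφ)] at this
  rw [SchwartzMap.add_apply, sch_dc (dc_pr (tst_xi i (tst_da hg)) hφ),
    sch_dc (dc_pr (tst_di i hg) (tst_tm hφ))]
  refine this.trans ?_
  simp only [pr, xi, da, di, dx, tm, pl]
  push_cast
  ring

/-! ## translation covariance -/

theorem tr_TL (G : GRP c) (h k : V) : Two.Tr c (TL c h k) := fun y f => by
  rw [TL_apply, TL_apply, ut_T' G y h k (test_ev f)]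
  rfl

theorem tr_sub (h : Two.Tr c Φ) (h' : Two.Tr c Ψ) : Two.Tr c (Φ - Ψ) := fun y f => by
  simp only [ContinuousLinearMap.sub_apply, h y f, h' y f, map_sub]

theorem tr_ex0 (n : ℕ) (l : ℝ) {Θ : ℕ → Sch →L[ℂ] Completion D} (h : ∀ j, Two.Tr c (Θ j)) :
    Two.Tr c (ex0 n l Θ) := fun y f => by
  simp only [ex0, ContinuousLinearMap.sum_apply, ContinuousLinearMap.smul_apply, h _ y f, map_sum,
    map_smul]

/-- the generators of the translations -/
theorem gn_tr (G : GRP c) (h : Two.Tr c Φ) (y : V) (f : Sch) :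
    Gn (fun t => Ut c.Q (t • y)) (Φ f) (I • Φ (KDa.dS y f)) := by
  refine (G.ugT y).gn_of_integral (.of_forall fun t => ?_)
  have e := (ST.conv_gen (μ := volume.restrict (Ioc (0 : ℝ) 1)) (m := fun _ => -(t : ℂ))
    (a := fun r => (t * r) • y) aestronglyMeasurable_const (by fun_prop) (fun N =>
      (by fun_prop : Continuous fun r : ℝ => ‖-(t : ℂ)‖ * (1 + ‖(t * r) • y‖) ^ N).integrableOn_Ioc)
    (KDa.dS y f) (ST.tsl (t • y) f - f) (fun z => ?_) Φ).2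
  · simp only [map_sub, h _ _] at e
    rw [e, ← intervalIntegral.integral_of_le zero_le_one]
    have k := intervalIntegral.smul_integral_comp_mul_left (a := 0) (b := 1)
      (fun r => I • Ut c.Q (r • y) (I • Φ (KDa.dS y f))) t
    rw [mul_zero, mul_one] at k
    rw [← k, ← intervalIntegral.integral_smul]
    congr 1
    funext r
    rw [map_smul, smul_smul I, Complex.I_mul_I, ← Complex.coe_smul, smul_smul, mul_neg_one]
  · have d : ∀ r : ℝ, HasDerivAt (fun r : ℝ => f (z - (t * r) • y))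
        (-(t : ℂ) * KDa.dS y f (z - (t * r) • y)) r := fun r => by
      have := (f.differentiableAt (x := z - (t * r) • y)).hasFDerivAt.comp_hasDerivAt r
        ((((hasDerivAt_id' r).const_mul t).smul_const y).const_sub z)
      refine this.congr_deriv ?_
      rw [mul_one, map_neg, map_smul, Complex.real_smul, neg_mul]
      rfl
    rw [← intervalIntegral.integral_of_le zero_le_one, intervalIntegral.integral_eq_sub_of_hasDerivAt
      (fun r _ => d r) (Continuous.intervalIntegrable (by fun_prop) _ _)]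
    simp [ST.tsl_apply]

theorem gn_PP_a (G : GRP c) (h : Two.Tr c Φ) (hg : Tst g) (hφ : Tst φ) :
    Gn (Pa c.Q) (PP Φ g φ) (I • PP Φ (da g) φ) := PP_da (Φ := Φ) hg hφ ▸ gn_tr G h va _

theorem gn_PP_b (G : GRP c) (h : Two.Tr c Φ) (hg : Tst g) (hφ : Tst φ) :
    Gn (Pb c.Q) (PP Φ g φ) (I • PP Φ g (deriv φ)) := PP_db (Φ := Φ) hg hφ ▸ gn_tr G h vb _

/-- the average along `b` is the convolution of the profiles -/
theorem Rb_PP (h : Two.Tr c Φ) (hρ : Tst ρ) (hg : Tst g) (hφ : Tst φ) :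
    Rb c ρ (PP Φ g φ) = Φ (sch fun z => (g (pl z) * ∫ u, ρ u * φ (be z - u) : ℝ)) := by
  have hD : Dc fun q : ℝ × V => (ρ q.1 : ℂ) * pr g φ (q.2 - q.1 • vb) := by
    have := cs_cle ((ContinuousLinearEquiv.refl ℝ ℝ).skewProd (ContinuousLinearEquiv.refl ℝ V)
      (-(ContinuousLinearMap.id ℝ ℝ).smulRight vb)) (cs_prod (dc_cx hρ) (dc_pr hg hφ))
    rw [dc_iff]
    simpa [ContinuousLinearEquiv.skewProd_apply, sub_eq_add_neg] using this
  have e := (Api4.par volume hD Φ).2.2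
  have e1 : (fun z => ∫ u, (ρ u : ℂ) * pr g φ (z - u • vb)) =
      fun z => ((g (pl z) * ∫ u, ρ u * φ (be z - u) : ℝ) : ℂ) := by
    funext z
    rw [← integral_const_mul, ← integral_complex_ofReal]
    congr 1
    funext u
    rw [pr_sub_vb]
    push_cast
    ring
  simp only [e1] at e
  rw [e, Rb]
  congr 1
  funext u
  have ht : IsTest fun z => pr g φ (z - u • vb) := by
    simpa only [sub_eq_add_neg] using test_tsl (test_pr hg hφ) (-(u • vb))
  rw [Pb, PP, ← h, Ap.sch_cmul _ ht, map_smul, Api4.sch_tsl (dc_pr hg hφ)]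

/-- the two profiles can be swapped -/
theorem Rb_swap (h : Two.Tr c Φ) (hρ : Tst ρ) (hg : Tst g) (hφ : Tst φ) :
    Rb c ρ (PP Φ g φ) = Rb c φ (PP Φ g ρ) := by
  rw [Rb_PP h hρ hg hφ, Rb_PP h hφ hg hρ]
  congr 2
  funext z
  rw [← integral_sub_left_eq_self (fun u => ρ u * φ (be z - u)) volume (be z)]
  simp only [sub_sub_cancel, mul_comm]

theorem Rb_dlt (hs : 0 < s) (φ : ℝ → ℝ) (v : Completion D) :
    Rb c (dlt s φ) v = ∫ t, (φ t : ℂ) • Pb c.Q (s * t) v := by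
  have := Measure.integral_comp_mul_left (fun u => ((φ (u / s) : ℝ) : ℂ) • Pb c.Q u v) s
  simp only [mul_div_cancel_left₀ _ hs.ne'] at this
  rw [this, abs_of_pos (inv_pos.2 hs), ← integral_smul, Rb]
  congr 1
  funext u
  rw [← Complex.coe_smul, smul_smul, ← Complex.ofReal_mul, dlt, div_eq_inv_mul]

/-- thin averages -/
theorem Rb_dlt_le (G : GRP c) (hφ : Tst φ) (hs : 0 < s) {k : Completion D}
    (hv : Gn (Pb c.Q) v k) :
    ‖Rb c (dlt s φ) v - ((∫ t, φ t : ℝ) : ℂ) • v‖ ≤ s * ((∫ t, |tm φ t|) * ‖k‖) := by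
  have i1 : Integrable fun t => (φ t : ℂ) • Pb c.Q (s * t) v :=
    (((dc_cx hφ).1.continuous.smul (G.ugPb.cont' (continuous_const.mul continuous_id)
      continuous_const)).integrable_of_hasCompactSupport (dc_cx hφ).2.smul_right)
  rw [Rb_dlt hs, ← integral_complex_ofReal, ← integral_smul_const, ← integral_sub i1
    ((cs_int (dc_cx hφ)).smul_const v), ← integral_mul_const, ← integral_const_mul]
  refine norm_integral_le_of_norm_le (((cs_int (tst_tm hφ)).abs.mul_const _).const_mul s)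
    (.of_forall fun t => ?_)
  rw [← smul_sub, norm_smul, Complex.norm_real, Real.norm_eq_abs, tm, abs_mul]
  refine (mul_le_mul_of_nonneg_left (G.ugPb.lip hv _) (abs_nonneg _)).trans (le_of_eq ?_)
  rw [abs_mul, abs_of_pos hs]
  ring

theorem Rb_PP_dlt (G : GRP c) (h : Two.Tr c Φ) (hρ : Tst ρ) (hg : Tst g) (hφ : Tst φ)
    (hs : 0 < s) : ‖Rb c ρ (PP Φ g (dlt s φ)) - ((∫ t, φ t : ℝ) : ℂ) • PP Φ g ρ‖ ≤
      s * ((∫ t, |tm φ t|) * ‖PP Φ g (deriv ρ)‖) := by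
  have := Rb_dlt_le G hφ hs (gn_PP_b G h hg hρ)
  rwa [norm_smul, Complex.norm_I, one_mul, ← Rb_swap h hρ hg (tst_dlt hφ hs.ne')] at this

theorem Rb_PP_dil (G : GRP c) (h : Two.Tr c Φ) (hρ : Tst ρ) (hg : Tst g) (hφ : Tst φ)
    (hs : 0 < s) : ‖Rb c ρ (PP Φ g (dil s φ))‖ ≤ s * ((∫ t, |φ t|) * ‖PP Φ g ρ‖) := by
  rw [Rb_swap h hρ hg (tst_dil hφ hs.ne'), ← mul_assoc, ← integral_dil hs]
  exact Rb_norm G _ _

/-! ## the generator `K` -/

theorem K_PP (G : GRP c) (h : Two.Tr c Φ) {N : Fin 2 → Sch →L[ℂ] Completion D}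
    (hm : ∀ i f, Gn (Mi c.Q i) (Φ f) (I • (Φ (MS i f) - N i f))) (hg : Tst g) (hφ : Tst φ) :
    gen c.SK (PP Φ g φ) = KS c Φ (sch (pr g φ)) + I • PP Φ (x2 (da g)) φ +
      (2 * I) • ∑ i, (PP Φ (di i (xi i g)) (tm φ) - PP (N i) (xi i g) φ) := by
  have e5 : PP Φ (x2 (da g)) φ = ∑ i, PP Φ (xi i (xi i (da g))) φ := by
    rw [Fin.sum_univ_two, ← PP_add_g (tst_xi _ (tst_xi _ (tst_da hg)))
      (tst_xi _ (tst_xi _ (tst_da hg))) hφ]
    congr 1
    funext y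
    simp [x2, xi, d2]
    ring
  have e4 := (gn_PP_a G h (tst_x2 hg) hφ).gen_eq
  rw [da_x2 (tst_diff hg), PP] at e4
  simp only [KS, K3, xS_pr _ hg hφ, qS_pr hg hφ, e4, (hm _ _).gen_eq, PP_MS _ (tst_xi _ hg) hφ,
    da_xi _ (tst_diff hg), e5]
  simp only [Fin.sum_univ_two, PP]
  module

/-! ## the potentials -/

variable [Fact c.can]

theorem tr_sL (l : ℝ) : Two.Tr c (sL c l) := tr_ex0 _ _ fun j => c.hC.pot.lmu.tr j default

theorem tr_dl (l l' : ℝ) : Two.Tr c (dl c l l') := tr_sub (tr_sL l) (tr_sL l')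

theorem dl_eq' (l l' : ℝ) : dl c l l' = ex0 c.k l (s1 c) - ex0 c.k l' (s1 c) :=
  ContinuousLinearMap.ext fun f => by
    rw [dl_eq, ContinuousLinearMap.sub_apply, ex0_apply, ex0_apply]

theorem J_dl (S : SIG c) (l l' : ℝ) (f : Sch) : c.J (dl c l l' f) = dl c l l' (KDa.mir f) := by
  simp only [dl_eq, ex0, map_sub, map_sum, J_smul, S.J, Complex.conj_ofReal]

theorem J_PP (S : SIG c) (hg : Tst g) (hφ : Tst φ) :
    c.J (PP (dl c l l') g φ) = PP (dl c l l') (fl g) (ng φ) := by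
  rw [PP, J_dl S, PP]
  congr 1
  refine (Ap.sch_eq fun z => ?_).symm
  rw [KDa.mir_apply, sch_dc (dc_pr hg hφ)]
  simp [pr, fl, ng, pl]

theorem loc_dl (S : SIG c) {O : Set V} (hO : ∀ t : ℝ, 0 ≤ t → ∀ z ∈ O, z + t • ex 0 ∈ O) {f : Fn}
    (hf : In O f) : Pr (c.N O) c.Om (dl c l l' (sch f)) (dl c l l' (sch (bar f))) := by
  have k := fun j => S.loc j O (ex 0) f
    (.inr ⟨va, null_va, by simp [md_va], by rw [md_ex, tx_ex]; simp [P352X.e2]⟩) hO hf
  simp only [dl_eq, ex0]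
  exact (Pr.sum _ fun j _ => (k j).csmul _).sub (Pr.sum _ fun j _ => (k j).csmul _)

theorem loc_PP (S : SIG c) {O : Set V} (hO : ∀ t : ℝ, 0 ≤ t → ∀ z ∈ O, z + t • ex 0 ∈ O)
    (hg : Tst g) (hφ : Tst φ) (h : ∀ z, pl z ∈ tsupport g → be z ∈ tsupport φ → z ∈ O) :
    Pr (c.N O) c.Om (PP (dl c l l') g φ) (PP (dl c l l') g φ) := by
  have := loc_dl (l := l) (l' := l') S hO (in_pr hg hφ h)
  rwa [bar_pr] at this

theorem mi_dl (S : SIG c) (i : Fin 2) (f : Sch) :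
    Gn (Mi c.Q i) (dl c l l' f) (I • (dl c l l' (MS i f) - (0 : Sch →L[ℂ] Completion D) f)) := by
  have k := fun (l : ℝ) => Gn.sum (Finset.range (c.k + 1)) fun j _ =>
    (S.mi j i f).smul ((l ^ j / j.factorial : ℝ) : ℂ)
  have := (k l).sub (k l')
  simp only [dl_eq, ex0, ContinuousLinearMap.zero_apply, sub_zero, smul_sub, Finset.smul_sum,
    smul_comm I]
  exact this

theorem dm_dl (S : SIG c) (hg : Tst g) (hφ : Tst φ) (hs : tsupport φ ⊆ Iio 0) :
    Dm c.SK (PP (dl c l l') g φ) := by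
  have k : ∀ j, Dm c.SK (PP (s1 c j) g φ) := fun j => by
    rcases (tsupport φ).eq_empty_or_nonempty with h0 | h0
    · have : φ = fun t => 0 * φ t := funext fun z => by
        rw [zero_mul, image_eq_zero_of_notMem_tsupport (f := φ) (by simp [h0])]
      rw [this, PP_mul_p 0 hg hφ, Complex.ofReal_zero, zero_smul]
      exact (gn_of_fix fun _ => map_zero _).dm
    obtain ⟨a, -, ha⟩ := hφ.2.isCompact.exists_isMinOn h0 continuousOn_id
    obtain ⟨b, hb, hb'⟩ := hφ.2.isCompact.exists_isMaxOn h0 continuousOn_id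
    obtain ⟨m, C, -, e⟩ := S.slab j a b (hs hb)
    obtain ⟨ξ, ζ, h1, -⟩ := e (sch (pr g φ)) fun z hz => by
      rw [Api4.tsupport_sch (dc_pr hg hφ)] at hz
      exact ⟨ha (tsupport_pr g φ hz).2, hb' (tsupport_pr g φ hz).2⟩
    exact h1.dm
  have k' := fun (l : ℝ) => Gn.sum (Finset.range (c.k + 1)) fun j _ =>
    (k j).gn.smul ((l ^ j / j.factorial : ℝ) : ℂ)
  rw [dl_eq', PP_sub, PP_ex0, PP_ex0]
  exact ((k' l).sub (k' l')).dm

theorem dm_GC (t : T3 c) (S : SIG c) {χ : ℝ → ℝ} {d R L ε : ℝ} (hχ : Stp d χ) (hR : 0 < R)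
    (hL : 0 < L) (hε : 0 < ε) : Dm c.SK (GC c χ R L ε) :=
  (dm_GG (t.tS _).kd hχ hR hL hε).add (((dm_dl S (tst_da (tst_ap 1 (tst_gp hχ hR hL)))
    (tst_dlt tst_dps hε.ne') (tsupport_dlt_neg tsupport_dps_neg hε)).add (dm_dl S (tst_gp hχ hR hL)
      (tst_dlt tst_p2 hε.ne') (tsupport_dlt_neg tsupport_p2_neg hε))).smul _)

end

end Vale.Agent.P352X.ZZ.BX
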