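import Vale.Agent.P352X.Api2d
import Vale.Agent.P352X.R.BB.Half
import Vale.Agent.P352Z.R.BB.Gen

/-!
# P352Z, row BB.half: the Ward identity of the boost on the surface below the plane
-/

set_option linter.all false

open MeasureTheory Filter Topology Set
open scoped SchwartzMap ComplexConjugate ENNReal ContDiff

namespace Vale.Agent.P352X.ZZ.BX

open Vale.Agent.P352 Vale.Agent.P352.GF Vale.Agent.P352.BW Vale.Agent.P352.H246
open Vale.Agent.P352.H496 Vale.Agent.P352.H755 Vale.Agent.P352.H15 Vale.Agent.P352X.Ap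
open UniformSpace (Completion)
open Complex (I)

noncomputable section

namespace Half

export Vale.Agent.P352X.BX.Half (st ct bf chg supp_ct dr_st ct_slab ct_face)

variable {χ : ℝ → ℝ} {d e R L ε : ℝ}
variable {D : Type*} [NormedAddCommGroup D] [InnerProductSpace ℂ D] (c : Ctx D)

theorem Tv_sub {F G : Ix → Ix → Fn} (hF : ∀ m n, IsTest (F m n)) (hG : ∀ m n, IsTest (G m n)) :
    c.Tv (fun m n z => F m n z - G m n z) = c.Tv F - c.Tv G := by
  choose f hf using hF
  choose g hg using hG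
  rw [Ctx.Tv, Ctx.Tv, Ctx.Tv, ← UniformSpace.Completion.coe_sub]
  simp only [Ctx.Tf, ← Finset.sum_sub_distrib, ← hf, ← hg]
  exact congrArg _ (Finset.sum_congr rfl fun m _ => Finset.sum_congr rfl fun n _ =>
    map_sub (Grp.fC (Grp.T_fld c.hT m n) c.Q.vac) (f m n) (g m n))

theorem Tx_eq (h : V) {g : P3 → ℝ} {φ : ℝ → ℝ} (hg : Tst g) (hφ : Tst φ) :
    Tx c h g φ = c.Tv (hX h bf (pr g φ)) := by
  rw [Tx, TP, TP, ← Tv_sub c (test_hk _ _ (test_pr (tst_ap 1 hg) hφ))
    (test_hk _ _ (test_pr hg (tst_tm hφ)))]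
  congr 1
  funext m n z
  simp only [hk, hX, pr, ap, tm, bf, pl_1, Pi.sub_apply, Pi.smul_apply, smul_eq_mul]
  push_cast
  ring

theorem GG_eq (h : Stp d χ) (hR : 0 < R) (hε : 0 < ε) (h1 : ε ≤ 2 * R) (hd : d / 2 ≤ L)
    (hL : 0 < L) : GG c χ R L ε = c.Tv (dens (ct χ R L ε) (st L ε) bf) := by
  have b : bf.HasTemperateGrowth := by unfold bf; fun_prop
  have a1 := tst_slab h hR hL
  have a2 := tst_dlt tst_dps hε.ne'
  have a3 := test_hX va b (test_pr a1 a2)
  have a4 := test_hX vb b (test_pr (tst_face hR hL) (tst_edge hR hε))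
  have z : c.Tv (fun _ _ _ => 0) = 0 := by
    simpa using Tv_sub c a3 a3
  rw [GG, Tx_eq c _ a1 a2, Tx_eq c _ (tst_face hR hL) (tst_edge hR hε), ← zero_sub, ← z,
    ← Tv_sub c (fun _ _ => sw_zero) a3, ← Tv_sub c (fun m n => sw_sub sw_zero (a3 m n)) a4]
  congr 1
  funext m n z
  simp only [hX, pr, dens, dr_st, ← ct_slab hε h1 hL, ← ct_face h hε hd hL]
  push_cast
  ring

theorem gg (f2 : F2 c) {d1 r : ℝ} {y : V} {X : Completion D →L[ℂ] Completion D} {k : Completion D}
    (hd : 0 < d) (h0 : d / 2 < d1) (h1 : d ≤ R) (h2 : 2 * R ≤ L) (hε : 0 < ε) (h3 : 2 * ε ≤ e)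
    (h4 : e ≤ R) (h : Stp d χ) (hr : 0 < r) (hX : X ∈ c.N (dc y r))
    (hB : closure (dc y r) ⊆ Box d e R) (hk : Gn (Bo c.Q) (X c.Om) k) :
    Pr (c.N (Wdg va vb (-(d1 • va)))) c.Om (k + X (GG c χ R L ε)) (star X (GG c χ R L ε)) := by
  have hR := hd.trans_le h1
  have w : ∀ z, be z < 0 → -d1 < al z → z ∈ Wdg va vb (-(d1 • va)) := fun z a b =>
    ⟨by simpa [md_va] using a, by simpa [md_vb] using neg_lt_iff_pos_add.1 b⟩
  rw [GG_eq c h hR hε (by linarith) (by linarith) (by linarith)]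
  refine f2 y r va vb _ _ _ (fun s => bst va vb (Real.exp s - 1) (Real.exp (-s) - 1)) (fun _ => 0)
    bf X k hr null_va null_vb (by simp [md_ab]) hX (chg hd h1 h2 hε h3 h4 h hB)
    (fun z hz => ?_) (fun z hz => ?_) (by funext m; simp [bst, GF.one]) rfl Grp.lor_bo
    (fun n z => ?_) (by simpa only [← Grp.bo_eq] using hk)
  · obtain ⟨-, a, b, -⟩ := hB (subset_closure hz)
    exact w z (by linarith) (by linarith)
  · obtain ⟨a, b⟩ := supp_ct h hε hz
    exact w z (by linarith) (by linarith)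
  · simp only [sim_bst, md_va, md_vb, bf, Pi.add_apply, Pi.sub_apply, Pi.smul_apply, smul_eq_mul]
    refine ((((((Real.hasDerivAt_exp 0).sub_const 1).mul_const (al z)).mul_const (va n)).const_add
      (z n)).add (((((hasDerivAt_neg (0 : ℝ)).exp).sub_const 1).mul_const (be z)).mul_const
        (vb n))).congr_deriv ?_
    rw [neg_zero, Real.exp_zero]
    ring

end Half

variable {D : Type*} [NormedAddCommGroup D] [InnerProductSpace ℂ D]

theorem half_row (c : Ctx D) [Fact c.can] (t : T3 c) (S : SIG c) : HALFL c := by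
  intro d d1 e R L ε χ y r X k hd h0 h1 h2 hε h3 h4 h hr hX hB hk
  have hR := hd.trans_le h1
  have hL : 0 < L := by linarith
  have p1 := Half.gg (c.toS (ll L)) (t.toT2.f2l (ll L)) hd h0 h1 h2 hε h3 h4 h hr hX hB hk
  set O : Set V := {z | (-(3 * ε / 2) < be z ∧ be z < 0) ∧ -d1 < al z ∧ al z < 3 * d / 4} with hO
  have g1 := tst_gp h hR hL
  have q : ∀ {g φ}, Tst g → tsupport g ⊆ tsupport (gp χ R L) → Tst φ →
      tsupport φ ⊆ Icc (-1) (-1 / 2) → Pr (c.N O) c.Om (PP (dl c (ll L) (ll ε)) g (dlt ε φ))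
        (PP (dl c (ll L) (ll ε)) g (dlt ε φ)) := fun hg sg hφ sφ =>
    loc_PP S (fun s _ z hz => by simpa [hO] using hz) hg (tst_dlt hφ hε.ne') fun z a b => by
      have a' := abs_le.1 (show |al z| ≤ d / 2 from tsupport_gp h (sg a))
      have b' := tsupport_dlt_Icc sφ hε b
      exact ⟨⟨by linarith [b'.1], by linarith [b'.2]⟩, by linarith [a'.1], by linarith [a'.2]⟩
  have p2 := ((q (tst_da (tst_ap 1 g1)) ((tsupport_da _).trans (tsupport_ap 1 _)) tst_dps
    tsupport_dps).add (q g1 le_rfl tst_p2 tsupport_p2)).csmul (1 / 3)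
  have sub : O ⊆ Wdg va vb (-(d1 • va)) := fun z hz =>
    ⟨by simpa [md_va] using hz.1.2, by simpa [md_vb] using neg_lt_iff_pos_add.1 hz.2.1⟩
  have m1 : X ∈ (c.N O).commutant := t.jc.loc null_vb null_va (by simp [md_vb])
    (y := pt (3 * d / 4) (-(3 * ε / 2)) 0) (fun z hz => mem_W'.2 (by simpa using ⟨hz.2.2, hz.1.1⟩))
    (fun z hz => mem_W.2 (by
      obtain ⟨-, a, b, -⟩ := hB (subset_closure hz)
      simp only [be_pt, al_pt]
      exact ⟨by linarith, by linarith⟩)) X hX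
  have m2 : X ∈ c.N (Wdg va vb (-(d1 • va))) := c.N_mono (fun z hz => by
    obtain ⟨-, a, b, -⟩ := hB (subset_closure hz)
    exact ⟨by simpa [md_va] using (by linarith : be z < 0),
      by simpa [md_vb] using (by linarith : 0 < al z + d1)⟩) X hX
  have p3 : ∀ E, Pr (c.N O) c.Om E E →
      Pr (c.N (Wdg va vb (-(d1 • va)))) c.Om (X E) (star X E) := fun E hE Z hZ => by
    have := hE (Z * X) (mul_mem (comm_anti (c.N_mono sub) Z hZ) m1)
    rw [star_mul, ContinuousLinearMap.mul_apply, star_inner, ← comm_mul m2 hZ,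
      ContinuousLinearMap.mul_apply] at this
    rw [this, star_inner]
  have p4 := p1.add (p3 _ p2)
  rw [add_assoc, ← map_add, ← map_add] at p4
  simpa only [GC, Eg, Complex.ofReal_div, Complex.ofReal_one, Complex.ofReal_ofNat] using p4

end

end Vale.Agent.P352X.ZZ.BX
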