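import Vale.Agent.P352Z.R.BB.KtA

/-!
# P352Z, row BB.kt: the covariant part of `K` on thin slabs
-/

set_option linter.all false

open MeasureTheory Filter Topology Set
open scoped SchwartzMap ComplexConjugate ENNReal ContDiff

namespace Vale.Agent.P352X.ZZ.BX

open Vale.Agent.P352 Vale.Agent.P352.GF Vale.Agent.P352.BW
open Vale.Agent.P352.H755 Vale.Agent.P352X.Ap
open Vale.Agent.P352X.BX.Ktp (meas_lt mul mul_bd ex_slab cells)
open UniformSpace (Completion)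
open Complex (I)
open KDa (dS)

noncomputable section

variable {D : Type*} [NormedAddCommGroup D] [InnerProductSpace ℂ D] {c : Ctx D}

namespace Ktp

/-- bounds with a gain at small `p_b` -/
def Lo (c : Ctx D) (S : Set V) (Φ : Sch → Completion D) : Prop := ∃ (m : ℕ) (C : ℝ), 0 ≤ C ∧
  ∀ f : Sch, tsupport f ⊆ S → ‖Φ f‖ ≤ C * sn m f ∧
    ∀ t : ℝ, 0 < t → t ≤ 1 → ‖c.bt.P {p | al p < t ^ 20} (Φ f)‖ ≤ C * Real.sqrt t * sn m f

variable {S : Set V} {Φ Ψ : Sch → Completion D} {Θ : Sch →L[ℂ] Completion D}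

lemma Lo.add (h : Lo c S Φ) (h' : Lo c S Ψ) : Lo c S fun f => Φ f + Ψ f := by
  obtain ⟨m, C, hC, hb⟩ := h
  obtain ⟨m', C', hC', hb'⟩ := h'
  refine ⟨max m m', C + C', by positivity, fun f hf => ?_⟩
  have h1 := sn_mo (le_max_left m m') f
  have h2 := sn_mo (le_max_right m m') f
  refine ⟨(norm_add_le _ _).trans ?_, fun t h0 ht => ?_⟩
  · nlinarith [(hb f hf).1, (hb' f hf).1]
  · rw [map_add]
    refine (norm_add_le _ _).trans ?_
    nlinarith [(hb f hf).2 t h0 ht, (hb' f hf).2 t h0 ht, mul_nonneg hC (Real.sqrt_nonneg t),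
      mul_nonneg hC' (Real.sqrt_nonneg t)]

lemma Lo.smul (a : ℂ) (h : Lo c S Φ) : Lo c S fun f => a • Φ f := by
  obtain ⟨m, C, hC, hb⟩ := h
  refine ⟨m, ‖a‖ * C, by positivity, fun f hf => ⟨?_, fun t h0 ht => ?_⟩⟩
  · rw [norm_smul, mul_assoc]
    exact mul_le_mul_of_nonneg_left (hb f hf).1 (norm_nonneg a)
  · rw [map_smul, norm_smul, mul_assoc, mul_assoc, ← mul_assoc C]
    exact mul_le_mul_of_nonneg_left ((hb f hf).2 t h0 ht) (norm_nonneg a)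

lemma Lo.sub (h : Lo c S Φ) (h' : Lo c S Ψ) : Lo c S fun f => Φ f - Ψ f := by
  simpa only [neg_one_smul, ← sub_eq_add_neg] using h.add (h'.smul (-1))

lemma lo_lw (hl : Lw c Θ) (A : Sch →L[ℂ] Sch) : Lo c S fun f => Θ (A f) := by
  obtain ⟨m, C, hC, hb⟩ := hl
  obtain ⟨C1, m1, hC1, h1⟩ := ST.clm_sn' (A.restrictScalars ℝ) m
  obtain ⟨C2, m2, hC2, h2⟩ := ST.clm_sn_c (Θ ∘L A)
  refine ⟨max m1 m2, C * C1 + C2, by positivity, fun f _ => ?_⟩
  have a1 := sn_mo (le_max_left m1 m2) f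
  have a2 := sn_mo (le_max_right m1 m2) f
  have a3 := h1 f
  have a4 := h2 f
  rw [← Api4.sn_eq, ← Api4.sn_eq] at a3
  rw [← Api4.sn_eq] at a4
  have a5 := sn_nn m1 f
  have a6 := sn_nn m2 f
  have a7 : 0 ≤ C * C1 := by positivity
  refine ⟨a4.trans (by nlinarith), fun t h0 ht => ?_⟩
  have a8 := (hb (A f) (t ^ 5) (by positivity) (pow_le_one₀ h0.le ht)).1
  have a9 : t ^ 5 ≤ Real.sqrt t := (pow_le_of_le_one h0.le ht (by norm_num)).trans (le_sq h0 ht)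
  rw [← pow_mul] at a8
  calc _ ≤ C * Real.sqrt t * (C1 * sn (max m1 m2) f) := a8.trans (by
        gcongr
        · exact sn_nn _ _
        · exact a3.trans (mul_le_mul_of_nonneg_left a1 hC1))
    _ ≤ _ := by nlinarith [mul_nonneg (mul_nonneg hC2 (Real.sqrt_nonneg t)) (a5.trans a1)]

lemma lo_K (g : GRP c) (h : Mt c Θ) (b1 : ℝ) {b2 : ℝ} (hb : b2 < 0) :
    Lo c {z | b1 ≤ be z ∧ be z ≤ b2} fun f => gen c.SK (Θ f) := by
  obtain ⟨m1, C1, p1, k1⟩ := h.slab b1 b2 hb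
  obtain ⟨m2, C2, p2, k2⟩ := h.lw
  obtain ⟨Θ', Θ'', -, k3⟩ := h.mi 0
  obtain ⟨C3, m3, p3, k4⟩ := ST.clm_sn_c Θ''
  refine ⟨m1 + m2 + m3, 10 * (C1 + C2 + C3), by positivity, fun f hf => ?_⟩
  obtain ⟨ξ, ζ, d1, d2, n1, n2⟩ := k1 f hf
  have n3 := k4 f
  rw [← Api4.sn_eq] at n3
  have up : ∀ {m C}, m ≤ m1 + m2 + m3 → C ≤ C1 + C2 + C3 →
      C * sn m f ≤ (C1 + C2 + C3) * sn (m1 + m2 + m3) f := fun hm hC =>
    mul_le_mul hC (sn_mo hm f) (sn_nn _ _) (by positivity)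
  replace n1 := n1.trans (up (by omega) (by linarith))
  beta_reduce
  rw [d1.gen_eq]
  refine ⟨n1.trans (by nlinarith [norm_nonneg ξ]), fun t h0 ht => (rate g d1 d2 (k3 f).1 (k3 f).2
    n1 (n2.trans (up (by omega) (by linarith))) (n3.trans (up (by omega) (by linarith))) h0 ht
    ((k2 f t h0 ht).2.trans ?_)).trans_eq (by ring)⟩
  rw [mul_comm C2, mul_assoc]
  exact mul_le_mul_of_nonneg_left (up (by omega) (by linarith)) h0.le

lemma lo_KS (g : GRP c) (h : Mt c Θ) (b1 : ℝ) {b2 : ℝ} (hb : b2 < 0) :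
    Lo c {z | b1 ≤ be z ∧ be z ≤ b2} (KS c Θ) := by
  have hM : ∀ i, Lo c {z | b1 ≤ be z ∧ be z ≤ b2} fun f => gen (Mi c.Q i) (Θ (xS i f)) :=
    fun i => by
      obtain ⟨Θ', Θ'', l, k⟩ := h.mi i
      simp only [(k _).1.gen_eq]
      exact lo_lw l (xS i)
  have hP : Lo c {z | b1 ≤ be z ∧ be z ≤ b2} fun f => gen (Pa c.Q) (Θ (qS f)) := by
    have e : ∀ u, gen (Pa c.Q) (Θ u) = I • Θ (dS va u) := fun u => (gn_tr0 h.tr va u).gen_eq
    simp only [e]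
    exact (lo_lw h.lw (dS va ∘L qS)).smul I
  have := ((lo_K g h b1 hb).sub (((hM 0).add (hM 1)).smul 2)).add hP
  unfold KS K3
  simpa only [Fin.sum_univ_two] using this

lemma lo_sum (n : ℕ) {Λ : ℕ → Sch → Completion D} (h : ∀ j, Lo c S (Λ j)) :
    ∃ (m : ℕ) (C : ℝ), 0 ≤ C ∧ ∀ j < n, ∀ f : Sch, tsupport f ⊆ S → ‖Λ j f‖ ≤ C * sn m f ∧
      ∀ t : ℝ, 0 < t → t ≤ 1 →
        ‖c.bt.P {p | al p < t ^ 20} (Λ j f)‖ ≤ C * Real.sqrt t * sn m f := by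
  choose m C hC hb using h
  have e1 : ∀ j < n, C j ≤ ∑ i ∈ Finset.range n, C i := fun j hj =>
    Finset.single_le_sum (fun i _ => hC i) (Finset.mem_range.2 hj)
  have e2 : ∀ j < n, m j ≤ ∑ i ∈ Finset.range n, m i := fun j hj =>
    Finset.single_le_sum (fun i _ => Nat.zero_le (m i)) (Finset.mem_range.2 hj)
  have e0 : 0 ≤ ∑ i ∈ Finset.range n, C i := Finset.sum_nonneg fun i _ => hC i
  exact ⟨_, _, e0, fun j hj f hf => ⟨(hb j f hf).1.trans (mul_le_mul (e1 j hj) (sn_mo (e2 j hj) f)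
    (sn_nn _ _) e0), fun t h0 ht => ((hb j f hf).2 t h0 ht).trans (mul_le_mul
      (mul_le_mul_of_nonneg_right (e1 j hj) (Real.sqrt_nonneg t)) (sn_mo (e2 j hj) f) (sn_nn _ _)
      (by positivity))⟩⟩

lemma norm_ex0 {E : Type*} [NormedAddCommGroup E] [NormedSpace ℂ E] (n : ℕ) (l : ℝ) {x : ℕ → E}
    {B : ℝ} (hB : 0 ≤ B) (h : ∀ j < n + 1, ‖x j‖ ≤ B) :
    ‖ex0 n l x‖ ≤ (n + 1) * B * (1 + |l|) ^ n := by
  have e : (n + 1 : ℝ) * B * (1 + |l|) ^ n = ∑ j ∈ Finset.range (n + 1), (1 + |l|) ^ n * B := by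
    simp
    ring
  rw [e]
  refine norm_sum_le_of_le _ fun j hj => ?_
  have hj' := Finset.mem_range.1 hj
  rw [norm_smul, Complex.norm_real, Real.norm_eq_abs, abs_div, abs_pow, Nat.abs_cast]
  refine mul_le_mul ((div_le_self (by positivity) (by exact_mod_cast j.factorial_pos)).trans
    ((pow_le_pow_left₀ (abs_nonneg l) (by linarith) j).trans (pow_le_pow_right₀
      (by linarith [abs_nonneg l]) (by omega)))) (h j hj') (norm_nonneg _) (by positivity)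

/-! ## wide averages along `b` -/

lemma av_eq {ρ : ℝ → ℝ} (hρ : Tst ρ) (s : ℝ) (v : Completion D) : SN.Bd (mul ρ s) ∧
    ∫ u, (ρ u : ℂ) • Pb c.Q (u / s) v = c.bt.Phi (mul ρ s) v := by
  have := c.bt.smear SN.isPair_mdot (y := fun u : ℝ => (u / s) • vb) (by fun_prop) (m := volume)
    (u := cx ρ) (cs_int (dc_cx hρ)) v
  have e : (fun p => ∫ u, cx ρ u * SN.ch (fun p y : V => mdot p y) ((u / s) • vb) p) = mul ρ s := by
    funext p
    simp only [mul, ft1, SN.ch, md_smul, md_vb']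
    congr 1
    funext u
    congr 4
    ring
  rw [e] at this
  exact this

lemma av_le {ρ : ℝ → ℝ} (hρ : Tst ρ) : ∃ C : ℝ, 0 ≤ C ∧ ∀ (v : Completion D) (t B : ℝ), 0 < t →
    t ≤ 1 → ‖v‖ ≤ B → ‖c.bt.P {p | al p < t ^ 20} v‖ ≤ Real.sqrt t * B →
      ‖c.bt.Phi (mul ρ (t ^ 22)) v‖ ≤ C * Real.sqrt t * B := by
  obtain ⟨C1, hC1, h1⟩ := mul_bd hρ
  refine ⟨2 * C1, by positivity, fun v t B h0 ht hv hP => ?_⟩
  have hB := (av_eq (c := c) hρ (t ^ 22) 0).1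
  have hA := meas_lt (t ^ 20)
  have e : v = c.bt.P {p | al p < t ^ 20} v + c.bt.P {p | al p < t ^ 20}ᶜ v := by
    rw [SN.Calc.P_compl hA, add_sub_cancel]
  have a1 := c.bt.norm_le hB hC1 (c.bt.P {p | al p < t ^ 20} v)
    (.of_forall fun p => (h1 t h0 ht p).1)
  have a2 := c.bt.norm_le hB (mul_nonneg hC1 h0.le) (c.bt.P {p | al p < t ^ 20}ᶜ v) (by
    rw [SN.Calc.nu_P hA.compl]
    exact (ae_restrict_mem hA.compl).mono fun p hp => (h1 t h0 ht p).2 hp)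
  have a3 := mul_le_mul_of_nonneg_left hP hC1
  have a4 := mul_le_mul_of_nonneg_left ((SN.Calc.norm_P_le (C := c.bt.toCalc) hA.compl _).trans
    hv) (mul_nonneg hC1 h0.le)
  have a5 := mul_le_mul_of_nonneg_right (mul_le_mul_of_nonneg_left (le_sq h0 ht) hC1)
    ((norm_nonneg _).trans hv)
  rw [e, map_add]
  refine (norm_add_le _ _).trans ?_
  linarith

lemma rb_sc (g : GRP c) {ρ : ℝ → ℝ} (hρ : Tst ρ) {s : ℝ} (hs : 0 < s) (a : ℂ)
    (v : Completion D) :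
    Rb c ρ (a • Usc c.Q 1 s v) = a • Usc c.Q 1 s (c.bt.Phi (mul ρ s) v) := by
  have hi := (g.ugPb.scale s⁻¹).integrable_smul (cs_int (dc_cx hρ)) v
  simp only [← div_eq_inv_mul] at hi
  rw [← (av_eq hρ s v).2, ← (Usc c.Q 1 s).integral_comp_comm hi, ← integral_smul, Rb]
  congr 1
  funext u
  rw [map_smul, pb_sc g hs, map_smul, smul_comm]

end Ktp

open Ktp in
/-- **row BB.kt** -/
theorem ktl_row (c : Ctx D) (t : T3 c) : KTL c := by
  intro n Θ ρ g φ hΘ hρ hg hφ hn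
  obtain ⟨b1, b2, hb, hs⟩ := ex_slab hφ hn
  obtain ⟨m, C, hC, h1⟩ := lo_sum (n + 1) fun j => lo_KS t.grp (hΘ j) b1 hb
  obtain ⟨C0, hC0, h0'⟩ := av_le (c := c) hρ
  obtain ⟨C', hC', h2⟩ := cells hg hφ m
  have h3 : ∀ j (f : Sch), tsupport f ⊆ {z | b1 ≤ be z ∧ be z ≤ b2} → Dm c.SK (Θ j f) :=
    fun j f hf => by
      obtain ⟨_, _, -, k⟩ := (hΘ j).slab b1 b2 hb
      obtain ⟨_, _, d, -⟩ := k f hf
      exact d.dm
  refine ⟨(n + 1) * C0 * C * C' * C', by positivity, fun τ hτ ψ a l hψ => ?_⟩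
  have h0 := hτ.1
  have hs0 : 0 < τ ^ 22 := by positivity
  have w := wm_ex0 n l fun j => wm_mt (hΘ j)
  have h4 : ∀ f : Sch, tsupport f ⊆ {z | b1 ≤ be z ∧ be z ≤ b2} → Dm c.SK (ex0 n l Θ f) :=
    fun f hf => by
      rw [ex0_apply]
      exact (gn_ex0 n l fun j => h3 j f hf).dm
  obtain ⟨J, y, u, u1, u2, u3, u4⟩ := h2 (τ ^ 11) ⟨by positivity, pow_le_one₀ h0.le hτ.2⟩
  have u5 : ∀ j, tsupport (u j) ⊆ {z | b1 ≤ be z ∧ be z ≤ b2} := fun j z hz => hs (u1 j hz)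
  have d2 : ∀ j, Dm c.SK (ex0 n l Θ (ST.tsl (tv (y j)) (u j))) := fun j =>
    h4 _ fun z hz => by simpa using u5 j (Vale.Agent.P352X.KDa.tsupport_tsl _ _ hz)
  have hF := test_pr hg (tst_dil hφ hs0.ne')
  have hq : Real.sqrt (τ ^ 22) = τ ^ 11 := by
    rw [show τ ^ 22 = (τ ^ 11) ^ 2 by ring, Real.sqrt_sq (by positivity)]
  have hB := (av_eq (c := c) hρ (τ ^ 22) 0).1
  rw [KS_sc t.grp w hs0 (fun F f e => by rw [hψ F f e, ex0_apply])
    (f := ∑ j ∈ J, ST.tsl (tv (y j)) (u j)) (fun z => by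
      rw [sch_apply hF, SchwartzMap.sum_apply]
      simp only [ST.tsl_apply, u4, pr, pl, dil, al_scp, be_scp, tx_scp, hq, one_mul,
        mul_div_cancel_left₀ _ hs0.ne']) (by
      rw [map_sum]
      exact Dm.sum _ fun j _ => d2 j), rb_sc t.grp hρ hs0, norm_smul, Usc, t.grp.ug_norm,
    KS_sum w J d2, map_sum, norm_mul, Complex.norm_real, Real.norm_of_nonneg hs0.le]
  have h5 : ‖∑ j ∈ J, c.bt.Phi (mul ρ (τ ^ 22)) (KS c (ex0 n l Θ) (ST.tsl (tv (y j)) (u j)))‖ ≤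
      J.card * ((n + 1) * (C0 * Real.sqrt τ * (C * C')) * (1 + |l|) ^ n) := by
    rw [← nsmul_eq_mul, ← Finset.sum_const]
    refine norm_sum_le_of_le _ fun j hj => ?_
    rw [KS_tsl t.grp t.gen w _ (h4 _ (u5 j)), c.bt.Phi_U SN.isPair_mdot _ hB, Ut, t.grp.ug_norm,
      KS_ex0 n l (fun j => wm_mt (hΘ j)) fun i => h3 i _ (u5 j), Two.ex0_map]
    have b := mul_le_mul_of_nonneg_left (u2 j hj) hC
    refine norm_ex0 n l (by positivity) fun i hi => h0' _ τ _ h0 hτ.2 ((h1 i hi _ (u5 j)).1.trans b)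
      (((h1 i hi _ (u5 j)).2 τ h0 hτ.2).trans ?_)
    rw [mul_comm C, mul_assoc]
    exact mul_le_mul_of_nonneg_left b (Real.sqrt_nonneg τ)
  calc _ ≤ ‖a‖ * τ ^ 22 * (J.card * ((n + 1) * (C0 * Real.sqrt τ * (C * C')) * (1 + |l|) ^ n)) := by
        gcongr
    _ = (n + 1) * C0 * C * C' * (J.card * (τ ^ 11) ^ 2) * Real.sqrt τ * ‖a‖ * (1 + |l|) ^ n := by
        ring
    _ ≤ _ := by gcongr

end

end Vale.Agent.P352X.ZZ.BX
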