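import Vale.Agent.P352X.R.BB.Low
import Vale.Agent.P352Z.SG.Log

/-!
# P352Z, row BB: logarithmic weights on thin slabs (pure analysis)
-/

set_option linter.all false

open MeasureTheory Filter Topology Set
open scoped SchwartzMap ComplexConjugate ENNReal ContDiff Real

namespace Vale.Agent.P352X.ZZ.BX

open Vale.Agent.P352 Vale.Agent.P352.GF Vale.Agent.P352.BW Vale.Agent.P352.H496
open Vale.Agent.P352.H755
open Vale.Agent.P352X.Lgm (hs hs_nonneg meas_hs int_hs)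

noncomputable section

/-- powers beat logarithms -/
theorem log_rpow (N : ℕ) {ε : ℝ} (hε : 0 < ε) : ∃ C : ℝ, 0 ≤ C ∧ ∀ t ∈ Ioc (0 : ℝ) 1,
    (1 + |Real.log t|) ^ N ≤ C * t⁻¹ ^ ε := by
  set δ : ℝ := ε / (N + 1) with hδ
  have e0 : 0 < δ := by positivity
  refine ⟨(1 + 1 / δ) ^ N, by positivity, fun t ht => ?_⟩
  have t0 := ht.1
  have b3 : 1 ≤ t⁻¹ := (one_le_inv₀ t0).2 ht.2
  have b4 : 1 ≤ t⁻¹ ^ δ := Real.one_le_rpow b3 e0.le
  have a1 := Real.log_le_rpow_div (inv_pos.2 t0).le e0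
  rw [Real.log_inv] at a1
  rw [abs_of_nonpos (Real.log_nonpos t0.le ht.2)]
  have a3 : 1 + -Real.log t ≤ (1 + 1 / δ) * t⁻¹ ^ δ := by
    rw [add_mul, one_mul, div_mul_eq_mul_div, one_mul]
    linarith
  have a4 : (t⁻¹ ^ δ) ^ N ≤ t⁻¹ ^ ε := by
    rw [← Real.rpow_natCast, ← Real.rpow_mul (by positivity)]
    refine Real.rpow_le_rpow_of_exponent_le b3 ?_
    rw [hδ, div_mul_eq_mul_div, div_le_iff₀ (by positivity)]
    nlinarith
  calc _ ≤ ((1 + 1 / δ) * t⁻¹ ^ δ) ^ N := pow_le_pow_left₀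
        (by linarith [Real.log_nonpos t0.le ht.2]) a3 N
    _ ≤ _ := by
      rw [mul_pow]
      gcongr

theorem one_add_le (x y : ℝ) : 1 + |x + y| ≤ (1 + |x|) * (1 + |y|) := by
  nlinarith [abs_add_le x y, mul_nonneg (abs_nonneg x) (abs_nonneg y)]

theorem log_pow_bd (n : ℕ) (a : ℝ) : ∃ C : ℝ, 0 ≤ C ∧ ∀ t ∈ Ioc (0 : ℝ) 1,
    (1 + |Real.log t + a|) ^ n * Real.sqrt t ≤ C * Real.sqrt (Real.sqrt t) := by
  obtain ⟨C, hC, h⟩ := log_rpow n (ε := 1 / 4) (by norm_num)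
  refine ⟨(1 + |a|) ^ n * C, by positivity, fun t ht => ?_⟩
  have t0 := ht.1
  have e : t⁻¹ ^ (1 / 4 : ℝ) * Real.sqrt t = Real.sqrt (Real.sqrt t) := by
    rw [Real.sqrt_eq_rpow, Real.sqrt_eq_rpow, ← Real.rpow_mul t0.le, Real.inv_rpow t0.le,
      ← Real.rpow_neg t0.le, ← Real.rpow_add t0]
    norm_num
  calc _ ≤ ((1 + |Real.log t|) * (1 + |a|)) ^ n * Real.sqrt t := by
        gcongr
        exact one_add_le _ _
    _ ≤ C * t⁻¹ ^ (1 / 4 : ℝ) * (1 + |a|) ^ n * Real.sqrt t := by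
        rw [mul_pow]
        gcongr
        exact h t ht
    _ = _ := by
        rw [← e]
        ring

namespace Lw

theorem log_hs (N : ℕ) : ∃ C : ℝ, 0 ≤ C ∧ ∀ t : ℝ, 0 < t →
    (1 + |Real.log t|) ^ N ≤ C * (hs t + (1 + t) ^ N) := by
  obtain ⟨C, hC, h⟩ := log_rpow N (ε := 1 / 2) (by norm_num)
  refine ⟨C + 1, by positivity, fun t t0 => ?_⟩
  have h1 := hs_nonneg t
  have h2 : 0 ≤ (1 + t) ^ N := by positivity
  rcases le_total t 1 with k | k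
  · have e : hs t = t⁻¹ ^ (1 / 2 : ℝ) := by
      rw [hs, indicator_of_mem (show t ∈ Ioc 0 1 from ⟨t0, k⟩), neg_div, Real.rpow_neg t0.le,
        Real.inv_rpow t0.le]
    refine (h t ⟨t0, k⟩).trans ?_
    rw [← e]
    nlinarith
  · have : (1 + |Real.log t|) ^ N ≤ (1 + t) ^ N := by
      rw [abs_of_nonneg (Real.log_nonneg k)]
      exact pow_le_pow_left₀ (by linarith [Real.log_nonneg k])
        (by linarith [Real.log_le_sub_one_of_pos t0]) N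
    nlinarith

/-- products in sheared coordinates -/
theorem shear {τ : P3 → ℝ} (hτ : Measurable τ) {A : P3 → ℝ} {B : ℝ → ℝ} (hA : Integrable A)
    (hB : Integrable B) : Integrable (fun p : V => A (pm p) * B (al p - τ (pm p))) ∧
      ∫ p : V, A (pm p) * B (al p - τ (pm p)) = (∫ k, A k) * ∫ t, B t := by
  have h1 : MeasurePreserving (fun q : P3 × ℝ => (q.1, q.2 - τ q.1)) (volume.prod volume)
      (volume.prod volume) :=
    (MeasurePreserving.id volume).skew_product (g := fun k t => t - τ k)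
      (measurable_snd.sub (hτ.comp measurable_fst))
      (.of_forall fun k => (measurePreserving_sub_right volume (τ k)).map_eq)
  have h2 := h1.comp mp_pmE
  have i := hA.mul_prod hB
  refine ⟨h2.integrable_comp_of_integrable i, ?_⟩
  rw [← integral_prod_mul, ← h2.map_eq, integral_map h2.aemeasurable
    (h2.map_eq.symm ▸ i.aestronglyMeasurable)]
  rfl

theorem dec_sq {X F B : ℝ} {n a b : ℕ} (hX : 1 ≤ X) (hF : 0 ≤ F) (h : X ^ n * F ≤ B)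
    (e : a + b ≤ 2 * n) : X ^ a * F ^ 2 ≤ B ^ 2 * (X ^ b)⁻¹ := by
  rw [← div_eq_mul_inv, le_div_iff₀ (by positivity)]
  calc _ = X ^ (a + b) * F ^ 2 := by ring
    _ ≤ X ^ (2 * n) * F ^ 2 := by gcongr
    _ = (X ^ n * F) ^ 2 := by ring
    _ ≤ _ := by gcongr

theorem sq_le (k X : ℝ) (h : |k| ≤ X) : (1 + k ^ 2) ^ 2 ≤ (1 + X) ^ 4 := by
  have h0 := abs_nonneg k
  rw [show (1 + X) ^ 4 = ((1 + X) ^ 2) ^ 2 by ring, ← sq_abs k]
  gcongr
  nlinarith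

theorem dom3 (N : ℕ) {g : P3 → ℂ} (hg : Dc g) : ∃ A : P3 → ℝ, Integrable A ∧ (∀ k, 0 ≤ A k) ∧
    ∀ k : P3, 0 < k.1 →
      (1 + |Real.log (2 * k.1)|) ^ N * ((1 + k.1 ^ 2) ^ 2 * ‖ft3 g k‖ ^ 2) ≤ A k := by
  obtain ⟨G, rfl⟩ := Ap.dc_sw hg
  obtain ⟨C, hC, h⟩ := log_hs N
  obtain ⟨m, B, -, hB⟩ := ft3_decay (N + 4)
  have i2 : Integrable fun x : R2 => ((1 + ‖x‖) ^ 4)⁻¹ := by
    have := integrable_one_add_norm (E := R2) (μ := volume) (r := (4 : ℕ)) (by simp; norm_num)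
    refine this.congr (.of_forall fun y => ?_)
    simp only
    rw [Real.rpow_neg (by positivity), Real.rpow_natCast]
  have i1 : Integrable fun k : P3 => hs (2 * k.1) * ((1 + ‖k.2‖) ^ 4)⁻¹ :=
    (int_hs.comp_mul_left' two_ne_zero).mul_prod i2
  refine ⟨fun k => C * (B * sn m G) ^ 2 * (hs (2 * k.1) * ((1 + ‖k.2‖) ^ 4)⁻¹ +
    2 ^ N * ((1 + ‖k‖) ^ 4)⁻¹), (i1.add (P352X.BX.Low.int_w.const_mul _)).const_mul _,
    fun k => by have := hs_nonneg (2 * k.1); positivity, fun k hk => ?_⟩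
  have x1 : 1 ≤ 1 + ‖k‖ := by linarith [norm_nonneg k]
  have a0 : |k.1| ≤ ‖k‖ := norm_fst_le k
  have a1 := dec_sq (a := 4) (b := 4) x1 (norm_nonneg _) (hB G k) (by omega)
  have a2 := dec_sq (a := N + 4) (b := 4) x1 (norm_nonneg _) (hB G k) (by omega)
  have a3 : ((1 + ‖k‖) ^ 4)⁻¹ ≤ ((1 + ‖k.2‖) ^ 4)⁻¹ := by
    gcongr
    exact norm_snd_le k
  have a4 : (1 + 2 * k.1) ^ N ≤ 2 ^ N * (1 + ‖k‖) ^ N := by
    rw [← mul_pow]
    gcongr
    linarith [le_abs_self k.1]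
  have a5 := hs_nonneg (2 * k.1)
  calc _ ≤ C * (hs (2 * k.1) + 2 ^ N * (1 + ‖k‖) ^ N) * ((1 + ‖k‖) ^ 4 * ‖ft3 G k‖ ^ 2) := by
        gcongr
        · exact (h _ (by positivity)).trans (by gcongr)
        · exact sq_le _ _ a0
    _ = C * (hs (2 * k.1) * ((1 + ‖k‖) ^ 4 * ‖ft3 G k‖ ^ 2) +
          2 ^ N * ((1 + ‖k‖) ^ (N + 4) * ‖ft3 G k‖ ^ 2)) := by ring
    _ ≤ C * (hs (2 * k.1) * ((B * sn m G) ^ 2 * ((1 + ‖k.2‖) ^ 4)⁻¹) +
          2 ^ N * ((B * sn m G) ^ 2 * ((1 + ‖k‖) ^ 4)⁻¹)) := by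
        gcongr C * (_ * ?_ + _ * ?_)
        exact a1.trans (by gcongr)
    _ = _ := by ring

theorem dom1 (N : ℕ) {φ : ℝ → ℂ} (hφ : Dc φ) : ∃ G : ℝ → ℝ, Integrable G ∧ (∀ y, 0 ≤ G y) ∧
    ∀ y u : ℝ, 0 < y → y ≤ u →
      (1 + |Real.log y|) ^ N * ((1 + u ^ 2) ^ 2 * ‖ft1 φ u‖ ^ 2) ≤ G y := by
  obtain ⟨F, rfl⟩ := Ap.dc_sw hφ
  obtain ⟨C, hC, h⟩ := log_hs N
  obtain ⟨m, B, -, hB⟩ := ft1_decay (N + 4)
  refine ⟨fun y => C * (B * sn m F) ^ 2 * (hs y + (1 + y ^ 2)⁻¹),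
    (int_hs.add integrable_inv_one_add_sq).const_mul _,
    fun y => by have := hs_nonneg y; positivity, fun y u hy hu => ?_⟩
  have u0 := hy.trans_le hu
  have b := hB F u
  rw [Real.norm_of_nonneg u0.le] at b
  have x1 : 1 ≤ 1 + u := by linarith
  have a1 := dec_sq (a := 4) (b := 0) x1 (norm_nonneg _) b (by omega)
  have a2 := dec_sq (a := N + 4) (b := 2) x1 (norm_nonneg _) b (by omega)
  have a3 : ((1 + u) ^ 2)⁻¹ ≤ (1 + y ^ 2)⁻¹ := inv_anti₀ (by positivity) (by nlinarith)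
  have a5 := hs_nonneg y
  rw [pow_zero, inv_one, mul_one] at a1
  calc _ ≤ C * (hs y + (1 + u) ^ N) * ((1 + u) ^ 4 * ‖ft1 F u‖ ^ 2) := by
        gcongr
        · exact (h _ hy).trans (by gcongr)
        · exact sq_le _ _ (abs_of_pos u0).le
    _ = C * (hs y * ((1 + u) ^ 4 * ‖ft1 F u‖ ^ 2) + (1 + u) ^ (N + 4) * ‖ft1 F u‖ ^ 2) := by ring
    _ ≤ C * (hs y * (B * sn m F) ^ 2 + (B * sn m F) ^ 2 * (1 + y ^ 2)⁻¹) := by
        gcongr C * (_ * ?_ + ?_)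
        exact a2.trans (by gcongr)
    _ = _ := by ring

/-- **thin slabs with logarithms** -/
theorem thin_log (N : ℕ) {g : P3 → ℂ} {φ : ℝ → ℂ} (hg : Dc g) (hφ : Dc φ) : ∃ K : ℝ, 0 ≤ K ∧
    ∀ s : ℝ, 0 < s → ∫⁻ p in Fc, ENNReal.ofReal ((1 + |Real.log (s * mu p)|) ^ N *
      ((1 + be p ^ 2) ^ 2 * ‖ft3 g (pm p)‖ ^ 2) *
      (s * ((1 + (s * al p) ^ 2) ^ 2 * ‖ft1 φ (s * al p)‖ ^ 2))) ≤ ENNReal.ofReal (K ^ 2) := by
  obtain ⟨A, iA, A0, hA⟩ := dom3 N hg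
  obtain ⟨G, iG, G0, hG⟩ := dom1 N hφ
  have a0 : 0 ≤ ∫ k, A k := integral_nonneg A0
  have g0 : 0 ≤ ∫ t, G t := integral_nonneg G0
  refine ⟨√((∫ k, A k) * ∫ t, G t), Real.sqrt_nonneg _, fun s hs => ?_⟩
  obtain ⟨i, e⟩ := shear (τ := fun k => d2 k.2 k.2 / (2 * k.1)) (by unfold d2; fun_prop) iA
    ((iG.comp_mul_left' hs.ne').const_mul s)
  rw [integral_const_mul, Measure.integral_comp_mul_left G, abs_of_pos (inv_pos.2 hs), smul_eq_mul,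
    mul_inv_cancel_left₀ hs.ne'] at e
  rw [Real.sq_sqrt (by positivity), ← e, ofReal_integral_eq_lintegral_ofReal i
    (.of_forall fun p => mul_nonneg (A0 _) (mul_nonneg hs.le (G0 _)))]
  refine le_trans (setLIntegral_mono' meas_Fc fun p hp => ENNReal.ofReal_le_ofReal ?_)
    (setLIntegral_le_lintegral _ _)
  obtain ⟨b0, m0⟩ := (mem_Fc p).1 hp
  set y := s * (al p - d2 (tx p) (tx p) / (2 * be p)) with hy
  have e1 : s * mu p = 2 * be p * y := by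
    rw [hy, mu_eq]
    field_simp
  have y0 : 0 < y := (mul_pos_iff_of_pos_left (by positivity)).1 ((mul_pos hs m0).trans_eq e1)
  have y1 : y ≤ s * al p := mul_le_mul_of_nonneg_left
    (sub_le_self _ (div_nonneg (d2_nonneg _) (by positivity))) hs.le
  have a := hA (pm p) b0
  have b := hG y _ y0 y1
  have c : (1 + |Real.log (s * mu p)|) ^ N ≤
      (1 + |Real.log (2 * be p)|) ^ N * (1 + |Real.log y|) ^ N := by
    rw [e1, Real.log_mul (by positivity) y0.ne', ← mul_pow]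
    gcongr
    exact one_add_le _ _
  calc _ ≤ (1 + |Real.log (2 * be p)|) ^ N * (1 + |Real.log y|) ^ N *
        ((1 + be p ^ 2) ^ 2 * ‖ft3 g (pm p)‖ ^ 2) *
        (s * ((1 + (s * al p) ^ 2) ^ 2 * ‖ft1 φ (s * al p)‖ ^ 2)) := by gcongr
    _ = (1 + |Real.log (2 * be p)|) ^ N * ((1 + be p ^ 2) ^ 2 * ‖ft3 g (pm p)‖ ^ 2) *
        (s * ((1 + |Real.log y|) ^ N *
          ((1 + (s * al p) ^ 2) ^ 2 * ‖ft1 φ (s * al p)‖ ^ 2))) := by ring
    _ ≤ _ := mul_le_mul a (mul_le_mul_of_nonneg_left b hs.le) (by positivity) (A0 _)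

/-- thin strips in momentum space -/
theorem strip {q : V → P3} {l : V → ℝ} (hq : ∀ p, ‖q p‖ ≤ 2 * ‖p‖)
    (i1 : ∀ (g : P3 → ℝ) (φ : ℝ → ℝ), Integrable g → Integrable φ →
      Integrable fun p => g (q p) * φ (l p))
    (i2 : ∀ (g : P3 → ℝ) (φ : ℝ → ℝ), ∫ p, g (q p) * φ (l p) = (∫ y, g y) * ∫ t, φ t) :
    ∃ (m : ℕ) (C : ℝ), 0 ≤ C ∧ ∀ (f : Sch) (σ : ℝ), 0 < σ →
      ∫⁻ p, ENNReal.ofReal ((Ioo 0 σ).indicator 1 (l p) * ‖ft (ev f) p‖ ^ 2) ≤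
        ENNReal.ofReal (σ * (C * sn m f) ^ 2) := by
  obtain ⟨m, A, A0, hA⟩ := ft_decay 2
  set W := ∫ y : P3, ((1 + ‖y‖) ^ 4)⁻¹
  have W0 : 0 ≤ W := integral_nonneg fun _ => by positivity
  refine ⟨m, √W * (4 * A), by positivity, fun f σ hσ => ?_⟩
  set K := (4 * A * sn m f) ^ 2
  have n : ∀ t : ℝ, 0 ≤ (Ioo 0 σ).indicator (1 : ℝ → ℝ) t :=
    indicator_nonneg fun _ _ => zero_le_one
  have e := i2 (fun y => K * ((1 + ‖y‖) ^ 4)⁻¹) ((Ioo 0 σ).indicator 1)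
  rw [integral_const_mul, integral_indicator_one measurableSet_Ioo,
    Real.volume_real_Ioo_of_le hσ.le, sub_zero] at e
  rw [show σ * (√W * (4 * A) * sn m f) ^ 2 = K * W * σ by
    simp only [mul_pow, Real.sq_sqrt W0, K]; ring, ← e,
    ofReal_integral_eq_lintegral_ofReal (i1 _ ((Ioo 0 σ).indicator 1) (P352X.BX.Low.int_w.const_mul K)
      ((integrable_indicator_iff measurableSet_Ioo).2 (integrableOn_const (by simp))))
      (.of_forall fun p => mul_nonneg (by positivity) (n _))]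
  refine lintegral_mono fun p => ENNReal.ofReal_le_ofReal ?_
  rw [mul_comm]
  refine mul_le_mul_of_nonneg_right ?_ (n _)
  rw [← div_eq_mul_inv, le_div_iff₀ (by positivity)]
  have h2 : 1 + ‖q p‖ ≤ 2 * (1 + ‖p‖) := by linarith [hq p]
  calc _ ≤ ‖ft (ev f) p‖ ^ 2 * (2 * (1 + ‖p‖)) ^ 4 := by gcongr
    _ = (4 * ((1 + ‖p‖) ^ 2 * ‖ft (ev f) p‖)) ^ 2 := by ring
    _ ≤ (4 * (A * sn m f)) ^ 2 := by gcongr (_ * ?_) ^ 2; exact hA f p
    _ = K := by simp only [K]; ring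

end Lw

end

end Vale.Agent.P352X.ZZ.BX
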