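import Vale.Agent.P352Z.R.BB.Gen
import Vale.Agent.P352Z.R.BB.Kt
import Vale.Agent.P352Z.R.BB.Log

/-!
# P352Z, row BB.ks: `K` on thin slabs, with logarithms (helper40)
-/

set_option linter.all false

open MeasureTheory Filter Topology Set
open scoped SchwartzMap ComplexConjugate ENNReal ContDiff

namespace Vale.Agent.P352X.ZZ.BX

open Vale.Agent.P352 Vale.Agent.P352.GF Vale.Agent.P352.BW Vale.Agent.P352.H246
open Vale.Agent.P352.H496 Vale.Agent.P352.H755 Vale.Agent.P352.H15 Vale.Agent.P352X.Ap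
open UniformSpace (Completion)
open Complex (I)

noncomputable section

variable {D : Type*} [NormedAddCommGroup D] [InnerProductSpace ℂ D] {c : Ctx D}
  {g : P3 → ℝ} {φ ρ : ℝ → ℝ} {F F' : ℝ → Completion D}

namespace Ks

/-- vectors of order `t ^ (1 / 4)` -/
def Oq (F : ℝ → Completion D) : Prop :=
  ∃ C : ℝ, ∀ t ∈ Ioc (0 : ℝ) 1, ‖F t‖ ≤ C * Real.sqrt (Real.sqrt t)

theorem Oq.add (h : Oq F) (h' : Oq F') : Oq fun t => F t + F' t := by
  obtain ⟨C, h⟩ := h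
  obtain ⟨C', h'⟩ := h'
  exact ⟨C + C', fun t ht => (norm_add_le _ _).trans (by linarith [h t ht, h' t ht])⟩

theorem Oq.le {a : ℝ} (ha : 0 ≤ a) (h : Oq F) (e : ∀ t ∈ Ioc (0 : ℝ) 1, ‖F' t‖ ≤ a * ‖F t‖) :
    Oq F' := by
  obtain ⟨C, h⟩ := h
  exact ⟨a * C, fun t ht => (e t ht).trans
    ((mul_le_mul_of_nonneg_left (h t ht) ha).trans_eq (mul_assoc _ _ _).symm)⟩

theorem Oq.cs (a : ℂ) (h : Oq F) : Oq fun t => a • F t :=
  h.le (norm_nonneg a) fun _ _ => (norm_smul _ _).le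

theorem Oq.sub (h : Oq F) (h' : Oq F') : Oq fun t => F t - F' t := by
  simpa only [neg_one_smul, ← sub_eq_add_neg] using h.add (h'.cs (-1))

theorem n22 {t : ℝ} (ht : t ∈ Ioc (0 : ℝ) 1) : ‖((t ^ 22 : ℝ) : ℂ)‖ = t ^ 22 := by
  rw [Complex.norm_real, Real.norm_of_nonneg (pow_pos ht.1 _).le]

theorem Oq.pw (h : Oq F) : Oq fun t => ((t ^ 22 : ℝ) : ℂ) • F t := h.le zero_le_one fun t ht => by
  rw [norm_smul, n22 ht]
  exact mul_le_mul_of_nonneg_right (pow_le_one₀ ht.1.le ht.2) (norm_nonneg _)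

theorem Oq.congr (h : Oq F) (e : ∀ t ∈ Ioc (0 : ℝ) 1, F' t = F t) : Oq F' :=
  h.imp fun C h t ht => (e t ht).symm ▸ h t ht

theorem Oq.lim (h : Oq F) : Tendsto F (𝓝[>] 0) (𝓝 0) := by
  obtain ⟨C, h⟩ := h
  refine squeeze_zero_norm' (mem_of_superset (Ioc_mem_nhdsGT one_pos) h) ?_
  exact ((by fun_prop : Continuous fun t : ℝ => C * Real.sqrt (Real.sqrt t)).tendsto' 0 0
    (by simp)).mono_left nhdsWithin_le_nhds

/-- logarithms are absorbed -/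
theorem oq_log (n : ℕ) (l : ℝ) {C : ℝ} (hC : 0 ≤ C) (h : ∀ t ∈ Ioc (0 : ℝ) 1,
    ‖F t‖ ≤ C * Real.sqrt t * (1 + |l + Real.log (t ^ 22) / 2|) ^ n) : Oq F := by
  obtain ⟨K, -, k⟩ := log_pow_bd n (l / 11)
  refine ⟨C * 11 ^ n * K, fun t ht => (h t ht).trans ?_⟩
  have e : 1 + |l + Real.log (t ^ 22) / 2| ≤ 11 * (1 + |Real.log t + l / 11|) := by
    rw [Real.log_pow, show l + (22 : ℕ) * Real.log t / 2 = 11 * (Real.log t + l / 11) by
      push_cast; ring, abs_mul, abs_of_pos (by norm_num : (0 : ℝ) < 11)]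
    linarith
  calc _ ≤ C * Real.sqrt t * (11 * (1 + |Real.log t + l / 11|)) ^ n := by gcongr
    _ = C * 11 ^ n * ((1 + |Real.log t + l / 11|) ^ n * Real.sqrt t) := by rw [mul_pow]; ring
    _ ≤ _ := (mul_le_mul_of_nonneg_left (k t ht) (by positivity)).trans_eq (by ring)

theorem p22 {t : ℝ} (ht : t ∈ Ioc (0 : ℝ) 1) : t ^ 22 ≤ Real.sqrt t :=
  (pow_le_of_le_one ht.1.le ht.2 (by norm_num)).trans (Ktp.le_sq ht.1 ht.2)

/-- families of covariant distributions that grow slowly -/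
structure Fm (c : Ctx D) (ψ : ℝ → Sch →L[ℂ] Completion D) : Prop where
  tr : ∀ t, Two.Tr c (ψ t)
  bd : ∀ f, Oq fun t => ((t ^ 22 : ℝ) : ℂ) • ψ t f

variable {ψ : ℝ → Sch →L[ℂ] Completion D} {Θ : Sch →L[ℂ] Completion D}
  {N : Fin 2 → ℝ → Sch →L[ℂ] Completion D}

theorem fm_const (h : Two.Tr c Θ) : Fm c fun _ => Θ :=
  ⟨fun _ => h, fun f => oq_log 0 0 (norm_nonneg (Θ f)) fun t ht => by
    rw [norm_smul, n22 ht, pow_zero, mul_one, mul_comm]
    exact mul_le_mul_of_nonneg_left (p22 ht) (norm_nonneg _)⟩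

theorem ot_PP (G : GRP c) (h : Fm c ψ) (hρ : Tst ρ) (hg : Tst g) (hφ : Tst φ) :
    Oq fun t => Rb c ρ (PP (ψ t) g (dil (t ^ 22) φ)) :=
  (h.bd (sch (pr g ρ))).le (integral_nonneg fun t => abs_nonneg (φ t)) fun t ht =>
    (Rb_PP_dil G (h.tr t) hρ hg hφ (pow_pos ht.1 _)).trans_eq (by
      rw [norm_smul, n22 ht, PP]
      ring)

theorem ot_dlt (G : GRP c) (h : Fm c ψ) (hρ : Tst ρ) (hg : Tst g) (hφ : Tst φ) :
    Oq fun t => Rb c ρ (PP (ψ t) g (dlt (t ^ 22) φ)) - ((∫ t, φ t : ℝ) : ℂ) • PP (ψ t) g ρ :=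
  (h.bd (sch (pr g (deriv ρ)))).le (integral_nonneg fun t => abs_nonneg (tm φ t)) fun t ht =>
    (Rb_PP_dlt G (h.tr t) hρ hg hφ (pow_pos ht.1 _)).trans_eq (by
      rw [norm_smul, n22 ht, PP]
      ring)

theorem ot_ex (G : GRP c) (h : Fm c ψ) (hN : ∀ i, Fm c (N i))
    (hm : ∀ t i f, Gn (Mi c.Q i) (ψ t f) (I • (ψ t (MS i f) - N i t f))) (hρ : Tst ρ) (hg : Tst g)
    (hφ : Tst φ) : Oq fun t => Rb c ρ (gen c.SK (PP (ψ t) g (dil (t ^ 22) φ))) -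
      Rb c ρ (KS c (ψ t) (sch (pr g (dil (t ^ 22) φ)))) := by
  have o (i) := (ot_PP G h hρ (tst_di i (tst_xi i hg)) (tst_tm hφ)).pw.sub
    (ot_PP G (hN i) hρ (tst_xi i hg) hφ)
  refine (((ot_PP G h hρ (tst_x2 (tst_da hg)) hφ).cs I).add
    (((o 0).add (o 1)).cs (2 * I))).congr fun t ht => ?_
  have s := pow_pos ht.1 22
  simp only [K_PP G (h.tr t) (N := fun i => N i t) (hm t) hg (tst_dil hφ s.ne'), Fin.sum_univ_two,
    Rb_add G hρ, Rb_sub G hρ, Rb_smul, PP_tm (tst_di _ (tst_xi _ hg)) hφ s]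
  abel

theorem KS_dlt (hg : Tst g) (hφ : Tst φ) {s : ℝ} (hs : 0 < s) : KS c Θ (sch (pr g (dlt s φ))) =
    KS c (((s⁻¹ : ℝ) : ℂ) • Θ) (sch (pr g (dil s φ))) := by
  have e : sch (pr g (dlt s φ)) = ((s⁻¹ : ℝ) : ℂ) • sch (pr g (dil s φ)) :=
    Ap.sch_eq fun z => by
      simp only [SchwartzMap.smul_apply, sch_dc (dc_pr hg (tst_dil hφ hs.ne')), pr, dlt, dil,
        smul_eq_mul]
      push_cast
      ring
  simp only [e, KS, map_smul, ContinuousLinearMap.smul_apply]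

theorem ot_main (G : GRP c) (h : Fm c ψ)
    (hm : ∀ t i f, Gn (Mi c.Q i) (ψ t f) (I • (ψ t (MS i f) - (0 : Sch →L[ℂ] Completion D) f)))
    (hρ : Tst ρ) (hg : Tst g) (hφ : Tst φ) (k : Oq fun t =>
      Rb c ρ (KS c ((((t ^ 22)⁻¹ : ℝ) : ℂ) • ψ t) (sch (pr g (dil (t ^ 22) φ))))) :
    Oq fun t => Rb c ρ (gen c.SK (PP (ψ t) g (dlt (t ^ 22) φ))) -
      ((∫ t, φ t : ℝ) : ℂ) • I • PP (ψ t) (x2 (da g)) ρ := by
  have o (i) := ot_PP G h hρ (tst_di i (tst_xi i hg)) (tst_tm hφ)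
  refine ((k.add ((ot_dlt G h hρ (tst_x2 (tst_da hg)) hφ).cs I)).add
    (((o 0).add (o 1)).cs (2 * I))).congr fun t ht => ?_
  have s := pow_pos ht.1 22
  have z : ∀ g φ, PP (0 : Sch →L[ℂ] Completion D) g φ = 0 := fun _ _ => rfl
  simp only [K_PP G (h.tr t) (N := fun _ => 0) (hm t) hg (tst_dlt hφ s.ne'), Fin.sum_univ_two,
    Rb_add G hρ, Rb_smul, tm_dlt, KS_dlt hg hφ s, z, sub_zero]
  module

theorem mi_TL (G : GEN c) (h k : V) (i : Fin 2) (f : Sch) : Gn (Mi c.Q i) (TL c h k f)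
    (I • (TL c h k (MS i f) - (TL c (mv i h) k + TL c h (mv i k)) f)) := by
  simp only [ContinuousLinearMap.add_apply, TL_apply, ev_MS, ← sub_sub]
  exact G.mi i h k _ ⟨f, rfl⟩

theorem ex_TL (G : GRP c) (G' : GEN c) (hρ : Tst ρ) (hg : Tst g) (hφ : Tst φ) (h k : V) :
    Oq fun t => Rb c ρ (gen c.SK (PP (TL c h k) g (dil (t ^ 22) φ))) -
      Rb c ρ (KS c (TL c h k) (sch (pr g (dil (t ^ 22) φ)))) :=
  ot_ex G (fm_const (tr_TL G h k)) (N := fun i _ => TL c (mv i h) k + TL c h (mv i k))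
    (fun i => fm_const fun y f => by
      simp only [ContinuousLinearMap.add_apply, tr_TL G _ _ y f, map_add])
    (fun _ => mi_TL G' h k) hρ hg hφ

theorem KS_smul (h : Ktp.Wm c Θ) (a : ℂ) {f : Sch} (d : Dm c.SK (Θ f)) :
    KS c (a • Θ) f = a • KS c Θ f := by
  simp only [KS, K3, ContinuousLinearMap.smul_apply, gen_smul _ d, gen_smul _ (h.mi _ _),
    gen_smul _ (h.pa _), Fin.sum_univ_two]
  module

variable [Fact c.can]

theorem log_sq {s : ℝ} (hs : 0 < s) : Real.log (Real.sqrt (1 * s)) = Real.log s / 2 := by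
  rw [one_mul, Real.log_sqrt hs.le]

/-- the scaling law of `S_l` -/
theorem sc_S (G : GRP c) (l : ℝ) {s : ℝ} (hs : 0 < s) (h k : V) {F f : Sch}
    (e : ∀ z, f z = F (scp 1 s z)) : TL (c.toS l) (scp 1 s h) (scp 1 s k) F = (s : ℂ) •
      Usc c.Q 1 s (ex0 c.k (l + Real.log s / 2) fun j => TL (c.toC j) h k f) := by
  obtain ⟨hL, e1⟩ := G.lsc 1 s one_pos hs
  have hq : 0 < Real.sqrt (1 * s) := Real.sqrt_pos.2 (by positivity)
  have := Grp.ten' (c.hC.fam.p2l l) (c.hC.fam.p2l _) 0 h k c.Q.vac hq hL ⟨F, rfl⟩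
    fun m n => c.hC.fam.cov2 l m n _ _ 0 _ _ hq hL ⟨F, rfl⟩
  rw [c.Q.U_vac _ _ _ hq hL, log_sq hs, show (fun x => ev F (sim _ _ 0 x)) = ev f from
    funext fun x => by rw [e1]; exact (e x).symm] at this
  rw [← TL_toS, TL_apply, TL_apply, ← e1 h, ← e1 k, sim_smul h, sim_smul k, Tv_smul_l ⟨F, rfl⟩,
    Tv_smul_r ⟨F, rfl⟩, smul_smul, ← Complex.ofReal_mul, Real.mul_self_sqrt (by positivity),
    one_mul s, Usc, Ctx.Tv, Ctx.Tv, G.coe _ _ _ _ hq hL]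
  exact congrArg (fun v : D => (s : ℂ) • (v : Completion D)) this.symm

/-- the scaling law of `σ_l` -/
theorem sc_g (G : GRP c) (l : ℝ) {s : ℝ} (hs : 0 < s) {F f : Sch}
    (e : ∀ z, f z = F (scp 1 s z)) :
    sL c l F = (s : ℂ) • Usc c.Q 1 s (sL c (l + Real.log s / 2) f) := by
  obtain ⟨hL, e1⟩ := G.lsc 1 s one_pos hs
  have hq : 0 < Real.sqrt (1 * s) := Real.sqrt_pos.2 (by positivity)
  have := c.hC.pot.cov l _ _ 0 _ hq hL ⟨F, rfl⟩
  rw [log_sq hs, show (fun x => ev F (sim _ _ 0 x)) = ev f from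
    funext fun x => by rw [e1]; exact (e x).symm, Real.sq_sqrt (by positivity)] at this
  rw [sL_apply, sL_apply, Usc, this, one_mul s, Complex.coe_smul, smul_inv_smul₀ hs.ne']

theorem sc_dl (G : GRP c) (l : ℝ) {s : ℝ} (hs : 0 < s) {F f : Sch}
    (e : ∀ z, f z = F (scp 1 s z)) : dl c l (ll s) F =
      (s : ℂ) • Usc c.Q 1 s (ex0 c.k (l + Real.log s / 2) fun j => s1 c j f) := by
  have := dl_eq (c := c) (l + Real.log s / 2) 0 f
  rw [Two.ex0_zero, show s1 c 0 f = 0 from rfl, sub_zero] at this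
  rw [← this, dl, dl, ContinuousLinearMap.sub_apply, ContinuousLinearMap.sub_apply, sc_g G l hs e,
    sc_g G (ll s) hs e, map_sub, smul_sub, ll, show -Real.log s / 2 + Real.log s / 2 = 0 by ring]

theorem fm_dl (l : ℝ) : Fm c fun t => dl c l (ll (t ^ 22)) := ⟨fun _ => tr_dl _ _, fun f => by
  set B := ∑ j ∈ Finset.range (c.k + 1), ‖s1 c j f‖
  have hB : 0 ≤ B := Finset.sum_nonneg fun _ _ => norm_nonneg _
  have o : Oq fun t => ((t ^ 22 : ℝ) : ℂ) • ex0 c.k (ll (t ^ 22)) fun j => s1 c j f :=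
    oq_log c.k 0 (C := (c.k + 1) * B) (by positivity) fun t ht => by
      have := Ktp.norm_ex0 c.k (ll (t ^ 22)) hB (x := fun j => s1 c j f) fun j hj =>
        Finset.single_le_sum (f := fun j => ‖s1 c j f‖) (fun _ _ => norm_nonneg _)
          (Finset.mem_range.2 hj)
      rw [norm_smul, n22 ht, zero_add, ← abs_neg, ← neg_div, mul_right_comm, mul_comm]
      exact mul_le_mul this (p22 ht) (pow_pos ht.1 _).le ((norm_nonneg _).trans this)
  refine (((fm_const (c := c) (tr_ex0 c.k l fun j => ?_)).bd f).sub o).congr fun t ht => by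
    rw [dl_eq, smul_sub, ex0_apply]
  unfold s1
  split_ifs
  · exact fun y f => by simp
  · exact c.hC.pot.lmu.tr j default⟩

/-- the covariant part -/
theorem oq_KS (kt : KTL c) {Λ : ℕ → Sch →L[ℂ] Completion D} (M : ∀ j, Mt c (Λ j)) (l : ℝ)
    (hρ : Tst ρ) (hg : Tst g) (hφ : Tst φ) (hs : tsupport φ ⊆ Iio 0)
    (e : ∀ t ∈ Ioc (0 : ℝ) 1, ∀ F f : Sch, (∀ z, f z = F (scp 1 (t ^ 22) z)) → ψ t F =
      Usc c.Q 1 (t ^ 22) (ex0 c.k (l + Real.log (t ^ 22) / 2) fun j => Λ j f)) :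
    Oq fun t => Rb c ρ (KS c (ψ t) (sch (pr g (dil (t ^ 22) φ)))) := by
  obtain ⟨C, hC, h⟩ := kt c.k Λ ρ g φ M hρ hg hφ hs
  refine oq_log c.k l hC fun t ht => ?_
  simpa only [norm_one, mul_one] using h t ht (ψ t) 1 _ fun F f hf => by
    rw [one_smul]
    exact e t ht F f hf

omit [Fact c.can] in
theorem TL_l (a : ℝ) (h k : V) (F : Sch) : TL c (a • h) k F = (a : ℂ) • TL c h k F := by
  rw [TL_apply, TL_apply, Tv_smul_l ⟨F, rfl⟩]

omit [Fact c.can] in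
theorem TL_r (a : ℝ) (h k : V) (F : Sch) : TL c h (a • k) F = (a : ℂ) • TL c h k F := by
  rw [TL_apply, TL_apply, Tv_smul_r ⟨F, rfl⟩]

theorem face (T : T3 c) (M : MTL c) (kt : KTL c) (hρ : Tst ρ) (hg : Tst g) (hφ : Tst φ)
    (hs : tsupport φ ⊆ Iio 0) :
    Oq fun t => Rb c ρ (gen c.SK (Tx (c.toS 0) vb g (dil (t ^ 22) φ))) := by
  have hs' := (tsupport_tm φ).trans hs
  have T' := T.tS 0
  have o1 := oq_KS kt (fun j => M.s j vb va) 0 hρ (tst_ap 1 hg) hφ hs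
    (ψ := fun _ => TL (c.toS 0) vb va) fun t ht F f e => by
      have s := pow_pos ht.1 22
      have := sc_S T.grp 0 s vb va e
      rw [scp_va, scp_vb, one_smul, TL_l] at this
      exact smul_right_injective _ (Complex.ofReal_ne_zero.2 s.ne') this
  have o2 := oq_KS kt (fun j => M.s j vb vb) 0 hρ hg (tst_tm hφ) hs'
    (ψ := fun t => ((t ^ 22 : ℝ) : ℂ) • TL (c.toS 0) vb vb) fun t ht F f e => by
      have s := pow_pos ht.1 22
      have := sc_S T.grp 0 s vb vb e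
      rw [scp_vb, TL_l, TL_r] at this
      exact smul_right_injective _ (Complex.ofReal_ne_zero.2 s.ne') this
  refine ((o1.add (ex_TL T'.grp T'.gen hρ (tst_ap 1 hg) hφ vb va)).sub
    (o2.add (ex_TL T'.grp T'.gen hρ hg (tst_tm hφ) vb vb).pw)).congr fun t ht => ?_
  have s := pow_pos ht.1 22
  have t1 := tst_dil hφ s.ne'
  have t2 := tst_dil (tst_tm hφ) s.ne'
  have d := dm_TP T'.kd hg t2 (tsupport_dil_neg hs' s) vb vb
  have d' := dm_TP T'.kd (tst_ap 1 hg) t1 (tsupport_dil_neg hs s) vb va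
  rw [TP_PP hg t2] at d
  rw [TP_PP (tst_ap 1 hg) t1] at d'
  rw [Tx, TP_PP (tst_ap 1 hg) t1, TP_PP hg (tst_tm t1), PP_tm hg hφ s, gen_sub d' (d.smul _),
    gen_smul _ d, Rb_sub T.grp hρ, Rb_smul, KS_smul (c := c) ⟨tr_TL T'.grp vb vb, fun i f =>
      (mi_TL T'.gen vb vb i f).dm⟩ _ d, Rb_smul]
  show _ = Rb c ρ (KS c _ _) + (Rb c ρ (gen c.SK _) - Rb c ρ (KS c _ _)) -
    (_ + _ • (Rb c ρ (gen c.SK _) - Rb c ρ (KS c _ _)))
  module

theorem slab (T : T3 c) (M : MTL c) (kt : KTL c) (l : ℝ) (hρ : Tst ρ) (hg : Tst g) (hφ : Tst φ)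
    (hs : tsupport φ ⊆ Iio 0) :
    Oq fun t => Rb c ρ (gen c.SK (Tx (c.toS l) va g (dlt (t ^ 22) φ))) -
      ((∫ t, φ t : ℝ) : ℂ) • I • TP (c.toS l) va va (x2 (da (ap 1 g))) ρ := by
  have hs' := (tsupport_tm φ).trans hs
  have g1 := tst_ap 1 hg
  have T' := T.tS l
  have o1 := oq_KS kt (fun j => M.s j va va) l hρ g1 hφ hs
    (ψ := fun t => (((t ^ 22)⁻¹ : ℝ) : ℂ) • TL (c.toS l) va va) fun t ht F f e => by
      have s := pow_pos ht.1 22
      have := sc_S T.grp l s va va e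
      rw [scp_va, one_smul] at this
      rw [ContinuousLinearMap.smul_apply, this, Complex.ofReal_inv,
        inv_smul_smul₀ (Complex.ofReal_ne_zero.2 s.ne')]
  have o2 := oq_KS kt (fun j => M.s j va vb) l hρ hg (tst_tm hφ) hs'
    (ψ := fun _ => TL (c.toS l) va vb) fun t ht F f e => by
      have s := pow_pos ht.1 22
      have := sc_S T.grp l s va vb e
      rw [scp_va, scp_vb, one_smul, TL_r] at this
      exact smul_right_injective _ (Complex.ofReal_ne_zero.2 s.ne') this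
  have o3 := ot_main T.grp (fm_const (c := c) (tr_TL T'.grp va va)) (fun _ i f => by
    have := mi_TL T'.gen va va i f
    rwa [show mv i va = (0 : ℝ) • va by simp [P352X.BX.Ks.mv], ContinuousLinearMap.add_apply, TL_l,
      TL_r, Complex.ofReal_zero, zero_smul, add_zero] at this) hρ g1 hφ o1
  refine (o3.sub (o2.add (ex_TL T'.grp T'.gen hρ hg (tst_tm hφ) va vb))).congr fun t ht => ?_
  have s := pow_pos ht.1 22
  have t1 := tst_dlt hφ s.ne'
  have t2 := tst_dil (tst_tm hφ) s.ne'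
  have d := dm_TP T'.kd hg t2 (tsupport_dil_neg hs' s) va vb
  have d' := dm_TP T'.kd g1 t1 (tsupport_dlt_neg hs s) va va
  rw [Tx, tm_dlt, gen_sub d' d, Rb_sub T.grp hρ, TP_PP g1 t1, TP_PP hg t2,
    TP_PP (tst_x2 (tst_da g1)) hρ]
  show _ = _ - (Rb c ρ (KS c _ _) + (Rb c ρ (gen c.SK _) - Rb c ρ (KS c _ _)))
  abel

theorem sg (T : T3 c) (S : SIG c) (M : MTL c) (kt : KTL c) (l : ℝ) (hρ : Tst ρ) (hg : Tst g)
    (hφ : Tst φ) (hs : tsupport φ ⊆ Iio 0) :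
    Oq fun t => Rb c ρ (gen c.SK (PP (dl c l (ll (t ^ 22))) g (dlt (t ^ 22) φ))) -
      ((∫ t, φ t : ℝ) : ℂ) • I • PP (dl c l (ll (t ^ 22))) (x2 (da g)) ρ :=
  ot_main T.grp (fm_dl l) (fun _ i f => mi_dl S i f) hρ hg hφ
    (oq_KS kt M.g l hρ hg hφ hs fun t ht F f e => by
      have s := pow_pos ht.1 22
      rw [ContinuousLinearMap.smul_apply, sc_dl T.grp l s e, Complex.ofReal_inv,
        inv_smul_smul₀ (Complex.ofReal_ne_zero.2 s.ne')])

end Ks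

/-- **Row BB.ks.** -/
theorem ksl_row (c : Ctx D) [Fact c.can] (t : T3 c) (S : SIG c) (M : MTL c) (kt : KTL c) :
    KSL c where
  face _ _ _ hρ hg hφ hs := Ks.face t M kt hρ hg hφ hs
  slab l _ _ _ hρ hg hφ hs := tendsto_sub_nhds_zero_iff.1 (Ks.slab t M kt l hρ hg hφ hs).lim
  sg l _ _ _ hρ hg hφ hs := (Ks.sg t S M kt l hρ hg hφ hs).lim

end

end Vale.Agent.P352X.ZZ.BX
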