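import Vale.Agent.P352Z.R.BB.Log
import Vale.Agent.P352Z.R.BB.SpecL

/-!
# P352Z, row BB.low: small light cone momenta, with logarithms
-/

set_option linter.all false

open MeasureTheory Filter Topology Set
open scoped SchwartzMap ComplexConjugate ENNReal ContDiff Real

namespace Vale.Agent.P352X.ZZ.BX

open Vale.Agent.P352 Vale.Agent.P352.GF Vale.Agent.P352.BW Vale.Agent.P352.H496
open Vale.Agent.P352.H755
open UniformSpace (Completion)

noncomputable section

variable {D : Type*} [NormedAddCommGroup D] [InnerProductSpace ℂ D] {c : Ctx D}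

theorem Lw.half {Θ : Sch →L[ℂ] Completion D} {ρ : V → ℝ} (hρ : Lgm.Lg ρ) (hm : Measurable ρ)
    (h : ∀ f, c.nu (Θ f) ≤ Two.wd fun p => ρ p * ‖ft (ev f) p‖ ^ 2) {l : V → ℝ}
    (hl : Measurable l) (pos : ∀ p ∈ Fc, 0 < l p)
    (st : ∃ (m : ℕ) (C : ℝ), 0 ≤ C ∧ ∀ (f : Sch) (σ : ℝ), 0 < σ →
      ∫⁻ p, ENNReal.ofReal ((Ioo 0 σ).indicator 1 (l p) * ‖ft (ev f) p‖ ^ 2) ≤
        ENNReal.ofReal (σ * (C * sn m f) ^ 2)) :
    ∃ (m : ℕ) (C : ℝ), 0 ≤ C ∧ ∀ (f : Sch) (t : ℝ), 0 < t →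
      ‖c.bt.P {p | l p < t ^ 4} (Θ f)‖ ≤ C * t * sn m f := by
  obtain ⟨m1, C1, a1, b1⟩ := st
  obtain ⟨m2, C2, a2, b2⟩ := (hρ.pow 2).bd
  refine ⟨max m1 m2, C1 + C2, by positivity, fun f t ht => ?_⟩
  have hS : MeasurableSet {p | l p < t ^ 4} := measurableSet_lt hl measurable_const
  have cf := (cont_ft ⟨f, rfl⟩).measurable
  have s1 := mul_le_mul_of_nonneg_left (sn_mo (le_max_left m1 m2) f) a1
  have s2 := mul_le_mul_of_nonneg_left (sn_mo (le_max_right m1 m2) f) a2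
  have n1 := mul_nonneg a1 (sn_nn m1 f)
  have n2 := mul_nonneg a2 (sn_nn m2 f)
  have t2 : 0 ≤ t ^ 2 := by positivity
  have t3 : 0 ≤ (t ^ 2)⁻¹ := by positivity
  have k : c.nu (Θ f) {p | l p < t ^ 4} ≤
      ENNReal.ofReal (t ^ 2 * (C2 * sn m2 f) ^ 2 + (t ^ 2)⁻¹ * (t ^ 4 * (C1 * sn m1 f) ^ 2)) := by
    refine (Measure.le_iff'.1 (h f) _).trans ?_
    rw [Two.wd, withDensity_apply _ hS, ← lintegral_indicator hS]
    calc _ ≤ ∫⁻ p in Fc, (ENNReal.ofReal (t ^ 2) * ENNReal.ofReal (ρ p ^ 2 * ‖ft (ev f) p‖ ^ 2) +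
          ENNReal.ofReal (t ^ 2)⁻¹ *
            ENNReal.ofReal ((Ioo 0 (t ^ 4)).indicator 1 (l p) * ‖ft (ev f) p‖ ^ 2)) := by
          refine setLIntegral_mono' meas_Fc fun p hp => ?_
          by_cases e : l p < t ^ 4
          · rw [indicator_of_mem (show p ∈ {p | l p < t ^ 4} from e), indicator_of_mem
              (show l p ∈ Ioo 0 (t ^ 4) from ⟨pos p hp, e⟩), ← ENNReal.ofReal_mul t2,
              ← ENNReal.ofReal_mul t3, Pi.one_apply, one_mul,
              ← ENNReal.ofReal_add (by positivity) (by positivity), ← mul_assoc, ← add_mul]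
            refine ENNReal.ofReal_le_ofReal (mul_le_mul_of_nonneg_right ?_ (sq_nonneg _))
            have e1 : t ^ 2 * (t ^ 2)⁻¹ = 1 := mul_inv_cancel₀ (by positivity)
            nlinarith [mul_nonneg t2 (sq_nonneg (ρ p - (t ^ 2)⁻¹)), mul_nonneg t2 (sq_nonneg (ρ p))]
          · rw [indicator_of_notMem (show p ∉ {p | l p < t ^ 4} from e)]
            exact zero_le
      _ ≤ _ := by
          rw [lintegral_add_left (by fun_prop), lintegral_const_mul' _ _ ENNReal.ofReal_ne_top,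
            lintegral_const_mul' _ _ ENNReal.ofReal_ne_top,
            ENNReal.ofReal_add (by positivity) (by positivity), ENNReal.ofReal_mul t2,
            ENNReal.ofReal_mul t3]
          exact add_le_add (mul_le_mul_right (b2 f) _) (mul_le_mul_right
            ((setLIntegral_le_lintegral _ _).trans (b1 f _ (by positivity))) _)
  rw [c.bt.nu_apply hS, ENNReal.ofReal_le_ofReal_iff (by positivity),
    show (t ^ 2)⁻¹ * (t ^ 4 * (C1 * sn m1 f) ^ 2) = t ^ 2 * (C1 * sn m1 f) ^ 2 by field_simp] at k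
  refine (abs_le_of_sq_le_sq' (k.trans ?_) (mul_nonneg (by positivity) (sn_nn _ _))).2
  rw [show ((C1 + C2) * t * sn (max m1 m2) f) ^ 2 =
    t ^ 2 * (C1 * sn (max m1 m2) f + C2 * sn (max m1 m2) f) ^ 2 by ring, ← mul_add]
  refine mul_le_mul_of_nonneg_left ?_ t2
  nlinarith [mul_nonneg (n1.trans s1) (n2.trans s2)]

/-- **row BB.low** -/
theorem lowl_row (c : Ctx D) : LOWL c := fun Θ ρ hρ hm h => by
  have n (p : V) : ‖tx p‖ ≤ 2 * ‖p‖ := by linarith [norm_tx_le p, norm_nonneg p]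
  obtain ⟨m1, C1, a1, b1⟩ := Lw.half hρ hm h meas_al (fun p hp => ((mem_Fc' p).1 hp).1)
    (Lw.strip (q := pm) (fun p => max_le (abs_be_le p) (n p)) (fun _ _ => integrable_pm_al)
      integral_pm_al)
  obtain ⟨m2, C2, a2, b2⟩ := Lw.half hρ hm h meas_be (fun p hp => ((mem_Fc p).1 hp).1)
    (Lw.strip (q := pl) (fun p => max_le ((abs_al_le p).trans (by linarith [norm_nonneg p])) (n p))
      (fun _ _ => integrable_pl_be) integral_pl_be)
  refine ⟨max m1 m2, C1 + C2, by positivity, fun f t ht _ => ⟨(b1 f t ht).trans ?_,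
    (b2 f t ht).trans ?_⟩⟩
  · have := sn_nn m1 f
    gcongr
    exacts [le_add_of_nonneg_right a2, sn_mo (le_max_left _ _) f]
  · have := sn_nn m2 f
    gcongr
    exacts [le_add_of_nonneg_left a1, sn_mo (le_max_right _ _) f]

end

end Vale.Agent.P352X.ZZ.BX
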