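import Vale.Agent.P352X.R.BB.MI
import Vale.Agent.P352Z.R.BB.Spec
import Vale.Agent.P352Z.Api1C

/-!
# P352Z, sub-row BB.mi: the master identity
-/

set_option linter.all false

noncomputable section

open Filter Topology
open Complex (I conj_I)
open UniformSpace (Completion)

namespace Vale.Agent.P352X.ZZ.BX

export Vale.Agent.P352X.BX (mi_der rc_wdg)

open Vale.Agent.P352 Vale.Agent.P352.GF Vale.Agent.P352.BW Vale.Agent.P352.H496
open Vale.Agent.P132 (jconj jconj_apply)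

variable {D : Type*} [NormedAddCommGroup D] [InnerProductSpace ℂ D] {c : Ctx D}

/-- conjugation by `exp (i t K)` for small `t` -/
lemma mem_S (g : GRP c) {r d t : ℝ} (hr : 0 < r) (ht : t ≤ r) {X : Completion D →L[ℂ] Completion D}
    (h : X ∈ c.N (Rc r (d • va))) : c.SK (-t) * X * c.SK t ∈ c.N (Rc (r - t) (d • va)) := by
  have h1 := g.mem_ut h (-(d • va)) (O' := Rc r 0) fun z hz => by
    simpa only [Rc, Set.mem_setOf_eq, sub_zero, ← sub_eq_add_neg] using hz
  have h2 := g.mem_ut ((g.geo r (r - t) _ hr.le (sub_nonneg.2 ht)).1 h1) (d • va)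
    (O' := Rc (r - t) (d • va)) fun z hz => by
      simpa only [Rc, Set.mem_setOf_eq, sub_zero, add_sub_cancel_right] using hz
  have e1 : ∀ s, Ut c.Q (d • va) * c.SK s = c.SK s * Ut c.Q (d • va) := g.pa_S d
  rw [neg_neg, sub_sub_cancel_left, sub_sub_cancel] at h2
  simp only [← mul_assoc] at h2
  rwa [e1, mul_assoc _ (Ut c.Q _) (Ut c.Q (-_)), g.ut_inv, mul_one, mul_assoc _ _ (c.SK t), e1,
    ← mul_assoc, mul_assoc _ (Ut c.Q _) (Ut c.Q (-_)), g.ut_inv, mul_one] at h2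

lemma mem_Z (g : GRP c) (j : JC c) {r d : ℝ} (hr : 0 < r) {X : Completion D →L[ℂ] Completion D}
    (h : X ∈ c.N (Rc r (d • va))) : ∀ᶠ t in 𝓝 (0 : ℝ), c.SK t * jconj c.J X * c.SK (-t) ∈
      (c.N (Wdg va vb (-(d • va)))).commutant := by
  have h0 : 0 < GF.mdot va vb := by rw [g.nab]; exact one_pos
  filter_upwards [Iio_mem_nhds hr] with t ht
  have h1 := j.alg va vb _ g.na g.nb h0 _ (c.N_mono (fun z hz => rc_wdg
    (sub_nonneg.2 (le_of_lt ht)) hz) _ (mem_S g hr (le_of_lt ht) h))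
  have e : jconj c.J (c.SK (-t) * X * c.SK t) = c.SK t * jconj c.J X * c.SK (-t) := by
    ext z
    simp only [jconj_apply, ContinuousLinearMap.mul_apply, j.S, neg_neg]
  rw [j.dual va vb _ g.na g.nb h0, ← e]
  refine c.N_mono ?_ _ h1
  rintro _ ⟨z, ⟨h2, h3⟩, rfl⟩
  simp only [Wdg, Set.mem_setOf_eq, md_va, md_vb, al_sub, be_sub, al_jr, be_jr, al_neg, be_neg,
    al_smul, be_smul, al_va, be_va] at h2 h3 ⊢
  constructor <;> linarith

/-- **sub-row BB.mi** -/
theorem mi_row (c : Ctx D) (t : T3 c) : MI c := by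
  intro d r X X' G G' hd hr hX hX' hG hG' ⟨h1, h2, h3, h4⟩ h5 h6 p1 p2
  have g := t.grp
  have j := t.jc
  have hs : Rc r (d • va) ⊆ Wdg va vb (-(d • va)) := fun z hz => by
    obtain ⟨h2, h3⟩ := rc_wdg hr.le hz
    simp only [Wdg, Set.mem_setOf_eq, md_va, md_vb, al_sub, be_sub, al_neg, be_neg,
      al_smul, be_smul, al_va, be_va] at h2 h3 ⊢
    constructor <;> linarith
  have k1 := h6.gn.anti_neg c.J fun t => j.S t _
  have k2 := h2.gn.anti_neg c.J fun t => j.S t _
  have b1 := h5.gn.anti_pos c.J (W' := Bo c.Q) fun t => by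
    have := c.E.J_U (-t / (2 * Real.pi)) (star X' c.Om)
    rwa [c.bw, c.bw, show -(2 * Real.pi * (-t / (2 * Real.pi))) = t by field_simp] at this
  have e1 := mi_der c.ugK c.K_vac (c.N_mono hs _ hX) (mem_Z g j hr hX') p1 hG.gn h2.gn
    (k1.cast (by rw [jconj_star _ c.J_J, jconj_apply, c.J_Om]) rfl)
  have e2 := mi_der c.ugK c.K_vac (c.N_mono hs _ (star_mem hX')) (mem_Z g j hr (star_mem hX))
    (p2.cast rfl (by rw [star_star])) hG'.gn h6.gn
    (k2.cast (by rw [jconj_star _ c.J_J, star_star, jconj_apply, c.J_Om]) rfl)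
  have e3 := g.ugB.symm b1 h4
  have e4 := c.ugK.symm k1 h3.gn
  have e5 := J_left c.J c.J_J (gen c.SK (X c.Om)) (gen (Bo c.Q) (star X' c.Om))
  have e6 := J_inner c.J G' (X' (c.J (gen c.SK (X c.Om))))
  have e7 := J_right c.J c.J_J G' (star X (c.J (gen c.SK (star X' c.Om))))
  simp only [star_star, jconj_apply, inner_sub_left, inner_sub_right, inner_neg_left,
    inner_smul_right] at e1 e2 e3 ⊢
  linear_combination -I * e1 - I * e2 + I * e5 - I * e4 + I * e3 - I * e6 - I * e7 +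
    inner ℂ (c.J (star X' c.Om)) (gen c.SK (X c.Om)) * Complex.I_mul_I

end Vale.Agent.P352X.ZZ.BX
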