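import Vale.Agent.P352Z.R.BB.Key

/-!
# P352Z, row BB.main: the main terms
-/

set_option linter.all false

open MeasureTheory Filter Topology Set
open scoped SchwartzMap ComplexConjugate ENNReal ContDiff

namespace Vale.Agent.P352X.ZZ.BX

open Vale.Agent.P352 Vale.Agent.P352.GF Vale.Agent.P352.BW Vale.Agent.P352.H246
open Vale.Agent.P352.H496 Vale.Agent.P352.H755 Vale.Agent.P352.H15 Vale.Agent.P352X.Ap
open UniformSpace (Completion)
open Complex (I)

noncomputable section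

namespace Mn

/-- sums of pieces with the ratio `7 / 8` -/
theorem geo {H : Type*} [NormedAddCommGroup H] {f : ℕ → H} {C : ℝ} {m : ℕ} (h0 : 0 ≤ C)
    (h : ∀ j, m ≤ j → ‖f (j + 1) - f j‖ ≤ C * (7 / 8) ^ j) {n : ℕ} (hn : m ≤ n) :
    ‖f n - f m‖ ≤ 8 * C * (7 / 8) ^ m := by
  have : ‖f n - f m‖ ≤ 8 * C * (7 / 8) ^ m - 8 * C * (7 / 8) ^ n := by
    induction n, hn using Nat.le_induction with
    | base => simp
    | succ n hn ih =>
      have := norm_add_le (f (n + 1) - f n) (f n - f m)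
      rw [sub_add_sub_cancel] at this
      rw [pow_succ]
      linarith [h n hn]
  have k : 0 ≤ 8 * C * (7 / 8 : ℝ) ^ n := by positivity
  linarith

theorem sq_half (j : ℕ) : Real.sqrt (Real.sqrt ((1 / 2 : ℝ) ^ j)) ≤ (7 / 8) ^ j := by
  refine Real.sqrt_le_iff.2 ⟨by positivity, Real.sqrt_le_iff.2 ⟨by positivity, ?_⟩⟩
  rw [← pow_mul, ← pow_mul, mul_comm, pow_mul]
  exact pow_le_pow_left₀ (by norm_num) (by norm_num) _

end Mn

variable {D : Type*} [NormedAddCommGroup D] [InnerProductSpace ℂ D]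

theorem main_row (c : Ctx D) [Fact c.can] (T : T3 c) (S : SIG c) (ks : KSL c) : MAINL c := by
  intro d R χ ρ w hd hdR hχ hρ η hη
  have G := T.grp
  have hR : 0 < R := hd.trans_le hdR
  have g0 := tst_face0 hR
  have dx : ∀ (l : ℝ) (h : V) {g φ}, Tst g → Tst φ → tsupport φ ⊆ Iio 0 →
      Dm c.SK (Tx (c.toS l) h g φ) := fun l h g φ hg hφ hs => dm_Tx (T.tS l).kd hg hφ hs h
  set F : ℕ → Completion D := fun n =>
    Rb c ρ (gen c.SK (Tx (c.toS 0) vb (k3 (deriv kk) (kp R)) (edge R (ep n)))) with hF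
  have dm := fun n => dx 0 vb g0 (tst_edge hR (ep_pos n)) (tsupport_edge hR (ep_pos n))
  obtain ⟨C, hC⟩ := ks.face ρ _ _ hρ g0 tst_ph0 tsupport_ph0
  have C0 : 0 ≤ C := by
    simpa using (norm_nonneg _).trans (hC 1 ⟨one_pos, le_rfl⟩)
  have t0 : Tendsto (fun n : ℕ => 8 * C * (7 / 8 : ℝ) ^ n * ‖w‖) atTop (𝓝 0) := by
    simpa using ((tendsto_pow_atTop_nhds_zero_of_lt_one (r := (7 / 8 : ℝ)) (by norm_num)
      (by norm_num)).const_mul (8 * C)).mul_const ‖w‖
  obtain ⟨m, m1, m2⟩ := (((tendsto_ep.mono_right nhdsWithin_le_nhds).eventually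
    (ge_mem_nhds hR)).and (t0.eventually (ge_mem_nhds (show 0 < η / 3 by positivity)))).exists
  have st : ∀ j, m ≤ j → ‖F (j + 1) - F j‖ ≤ C * (7 / 8) ^ j := fun j hj => by
    have p := tst_dil tst_ph0 (ep_pos j).ne'
    have e : edge R (ep (j + 1)) = fun t => edge R (ep j) t + dil (ep j) ph0 t :=
      funext (edge_succ hR ((ep_anti hj).trans m1))
    simp only [hF]
    rw [e, Tx_add_p g0 (tst_edge hR (ep_pos j)) p, gen_add (dm j)
      (dx 0 vb g0 p (tsupport_dil_neg tsupport_ph0 (ep_pos j))), Rb_add G hρ,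
      add_sub_cancel_left]
    exact (hC _ (half_mem j)).trans (mul_le_mul_of_nonneg_left (Mn.sq_half j) C0)
  have wn := (Far.wn G T.bas (perp_Rb G hρ (perp_K (dm m))) w).norm
  rw [norm_zero] at wn
  filter_upwards [wn.eventually (ge_mem_nhds (show 0 < η / 3 by positivity)),
    eventually_gt_atTop 0] with L h1 hL
  have sl := tst_slab hχ hR hL
  have tg := tst_gp hχ hR hL
  have ta := tst_da (tst_ap 1 tg)
  have t1 := (ks.slab (ll L) ρ _ _ hρ sl tst_dps tsupport_dps_neg).comp tendsto_half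
  have t3 := (ks.sg (ll L) ρ _ _ hρ ta tst_dps tsupport_dps_neg).comp tendsto_half
  have t4 := (ks.sg (ll L) ρ _ _ hρ tg tst_p2 tsupport_p2_neg).comp tendsto_half
  have t2 := ((((tendsto_sub_nhds_zero_iff.2 t1).neg.add ((t3.add t4).const_smul
    (1 / 3 : ℂ))).inner (𝕜 := ℂ) (tendsto_const_nhds (x := w))).const_mul I).norm
  rw [integral_dps, integral_p2] at t2
  simp only [neg_zero, add_zero, smul_zero, inner_zero_left, mul_zero, norm_zero] at t2
  filter_upwards [t2.eventually (ge_mem_nhds (show 0 < η / 3 by positivity)),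
    eventually_ge_atTop m] with n h2 hn
  have p1 := tst_dlt tst_dps (ep_pos n).ne'
  have s1 := tsupport_dlt_neg tsupport_dps_neg (ep_pos n)
  have d1 := dx (ll L) va sl p1 s1
  have d2 := dm_dl (l := ll L) (l' := ll (ep n)) S ta p1 s1
  have d3 := dm_dl (l := ll L) (l' := ll (ep n)) S tg (tst_dlt tst_p2 (ep_pos n).ne')
    (tsupport_dlt_neg tsupport_p2_neg (ep_pos n))
  have u := usc_K G hL (dm n)
  have h3 : ‖inner ℂ (Usc c.Q L 1 (F n - F m)) w‖ ≤ η / 3 := by
    refine (norm_inner_le_norm _ _).trans (le_trans ?_ m2)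
    rw [usc_norm G]
    exact mul_le_mul_of_nonneg_right (Mn.geo C0 st hn) (norm_nonneg _)
  have a1 := tst_x2 (tst_da ta)
  have a2 := tst_x2 (tst_da tg)
  rw [GC, GG, Eg, usc_face_S G hR hL (tst_edge hR (ep_pos n)),
    gen_add (d1.neg.sub u.1) ((d2.add d3).smul _), gen_sub d1.neg u.1, gen_neg d1, u.2,
    gen_smul _ (d2.add d3), gen_add d2 d3, Rb_add G hρ, Rb_sub G hρ, Rb_neg, Rb_usc G hρ hL, Rb_smul,
    Rb_add G hρ]
  unfold Hg
  rw [PP_mul_g _ (cs_add a1 a2) hρ, PP_add_g a1 a2 hρ]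
  rw [map_sub, inner_sub_left] at h3
  have k := norm_add₃_le.trans (add_le_add (add_le_add h2 ((norm_mul_le (-I) _).trans
    ((mul_le_mul_of_nonneg_right (by simp : ‖-I‖ ≤ 1) (norm_nonneg _)).trans
      ((one_mul _).trans_le h1)))) ((norm_mul_le (-I) _).trans
    ((mul_le_mul_of_nonneg_right (by simp : ‖-I‖ ≤ 1) (norm_nonneg _)).trans
      ((one_mul _).trans_le h3))))
  refine le_trans (le_of_eq ?_) (k.trans (by linarith))
  congr 1
  simp only [hF, Function.comp, ep, inner_add_left, inner_sub_left, inner_neg_left, inner_smul_left,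
    Complex.ofReal_neg, Complex.ofReal_one, map_neg, map_one, Complex.conj_I, Complex.ofReal_div,
    Complex.ofReal_ofNat, map_div₀, map_ofNat]
  linear_combination (exp := 1) (inner ℂ (TP (c.toS (ll L)) va va (x2 (da (ap 1 (slab χ R L)))) ρ) w -
    (1 / 3) * (inner ℂ (PP (dl c (ll L) (ll (((1 / 2 : ℝ) ^ n) ^ 22)))
      (x2 (da (da (ap 1 (gp χ R L))))) ρ) w + inner ℂ (PP (dl c (ll L)
        (ll (((1 / 2 : ℝ) ^ n) ^ 22))) (x2 (da (gp χ R L))) ρ) w)) * (-1 : ℂ) * Complex.I_mul_I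

end

end Vale.Agent.P352X.ZZ.BX
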