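import Vale.Agent.P352Z.R.BB.SpecL
import Vale.Agent.P352Z.R.DD
import Vale.Agent.P352Z.R.GEN

/-!
# P352Z, rows BB.sig and BB.mt: the potentials as scalar multiplets (helper40)
-/

set_option linter.all false

open MeasureTheory Filter Topology Set Metric
open scoped SchwartzMap ComplexConjugate ENNReal ContDiff

namespace Vale.Agent.P352X.ZZ.BX

open Vale.Agent.P352 Vale.Agent.P352.GF Vale.Agent.P352.BW Vale.Agent.P352.H246
open Vale.Agent.P352.H496 Vale.Agent.P352.H755 Vale.Agent.P352.H15 Vale.Agent.P352X.Ap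
open UniformSpace (Completion)
open Complex (I)
open KDa (mir BS barL gr2)

noncomputable section

variable {D : Type*} [NormedAddCommGroup D] [InnerProductSpace ℂ D] {c : Ctx D}

namespace Sig

/-- null, or orthogonal to a null vector and not null -/
def Dir (y : V) : Prop := IsNull y ∨ ∃ a, IsNull a ∧ mdot a y = 0 ∧ mdot y y ≠ 0

/-- the mean ergodic theorem along a ray -/
theorem erg (g : GRP c) {a : V} (ha : Dir a) {v : Completion D}
    (hv : inner ℂ c.Om v = 0) : Tendsto (fun t : ℝ => ∫ y in (0 : ℝ)..1,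
      (Ut c.Q ((t * y) • a) v - v)) atTop (𝓝 (-v)) := by
  have h := Kin.thin c.bR c.ct c.bV volume (ContinuousLinearMap.toSpanSingleton ℝ a) (x := 1)
    (by simpa [Dir] using ha) (u := (Set.Ioc (0 : ℝ) 1).indicator 1)
    ((integrable_indicator_iff measurableSet_Ioc).2 (integrableOn_const (by simp))) v
  rw [show inner ℂ (om c.Q) v = 0 from hv, zero_smul, smul_zero] at h
  have h1 := h.sub_const v
  rw [zero_sub] at h1
  refine h1.congr fun t => ?_
  rw [intervalIntegral.integral_sub ((g.ut_cont (by fun_prop) continuous_const).intervalIntegrable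
    _ _) (by simp), intervalIntegral.integral_const, sub_zero, one_smul,
    intervalIntegral.integral_of_le zero_le_one, ← integral_indicator measurableSet_Ioc]
  congr 2 with y
  by_cases hy : y ∈ Set.Ioc (0 : ℝ) 1 <;> simp [hy, P352X.Br.Ut_apply]

/-- integration along rays -/
theorem ta (g : GRP c) {O : Set V} {a : V} (ha : Dir a)
    (hO : ∀ t : ℝ, 0 ≤ t → ∀ z ∈ O, z + t • a ∈ O) {v v' k k' : Completion D}
    (h : Gn (fun t => Ut c.Q (t • a)) v k) (h' : Gn (fun t => Ut c.Q (t • a)) v' k')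
    (p : inner ℂ c.Om v = 0) (p' : inner ℂ c.Om v' = 0) (hp : Pr (c.N O) c.Om (I • k) (I • k')) :
    Pr (c.N O) c.Om v v' := by
  have G := g.ugT a
  have key : ∀ t : ℝ, 0 ≤ t →
      Pr (c.N O) c.Om (Ut c.Q (t • a) v - v) (Ut c.Q (t • a) v' - v') := fun t ht => by
    have e1 := G.integral_eq h 0 t
    have e2 := G.integral_eq h' 0 t
    rw [G.zero] at e1 e2
    rw [← e1, ← e2]
    refine Pr.intervalIntegral (((G.cont _).const_smul I).intervalIntegrable _ _)
      (((G.cont _).const_smul I).intervalIntegrable _ _) fun r hr => ?_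
    rw [uIoc_of_le ht] at hr
    simpa only [map_smul] using g.pr_ut hp (r • a) (hO r hr.1.le)
  have cn : ∀ (t : ℝ) (w : Completion D), IntervalIntegrable
      (fun y : ℝ => Ut c.Q ((t * y) • a) w - w) volume 0 1 := fun t w =>
    ((g.ut_cont (by fun_prop) continuous_const).sub continuous_const).intervalIntegrable _ _
  simpa only [neg_neg] using (Pr.closed ((eventually_ge_atTop 0).mono fun t ht =>
    Pr.intervalIntegral (cn t v) (cn t v') fun y hy => key _ (mul_nonneg ht (by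
      rw [uIoc_of_le zero_le_one] at hy
      exact hy.1.le))) (erg g ha p) (erg g ha p')).neg

lemma pd_jr (n : Ix) (f : Fn) : (pd n fun z => f (jr z)) = fun z => sj n * pd n f (jr z) := by
  funext z
  have e : ∀ t : ℝ, jr (fun m => z m + bas n t m) = fun m => jr z m + bas n (sj n * t) m :=
    fun t => funext fun m => by
      simp only [jr_apply, bas]
      split_ifs with h
      · rw [h, mul_add]
      · rw [add_zero, add_zero]
  simp only [pd, e]
  have := deriv_comp_mul_left (sj n) (fun t => f fun m => jr z m + bas n t m) 0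
  rw [mul_zero] at this
  exact this

lemma box_jr (f : Fn) : (box fun z => f (jr z)) = fun z => box f (jr z) := by
  funext z
  refine Finset.sum_congr rfl fun m _ => ?_
  have h : (sj m : ℂ) * sj m = 1 := by exact_mod_cast sj_sq m
  rw [pd_jr, ← dv_bas, dv_cmul, dv_bas, pd_jr]
  linear_combination (eta m * pd m (pd m f) (jr z) : ℂ) * h

lemma mir_mir (f : Sch) : mir (mir f) = f := by
  ext z
  rw [KDa.mir_apply, KDa.mir_apply, jr_jr, star_star]

lemma ev_mir (f : Sch) : ev (mir f) = bar fun z => ev f (jr z) := rfl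

lemma mir_smul (a : ℂ) (f : Sch) : mir (a • f) = conj a • mir f := by
  ext z
  simp [KDa.mir_apply]

lemma mir_tsl (y : V) (f : Sch) : mir (ST.tsl y f) = ST.tsl (jr y) (mir f) := by
  ext z
  rw [KDa.mir_apply, ST.tsl_apply, ST.tsl_apply, KDa.mir_apply]
  congr 2
  funext m
  simp only [jr_apply, Pi.sub_apply, mul_sub, ← mul_assoc, sj_sq, one_mul]

lemma J_ut (j : JC c) (y : V) (v : Completion D) : c.J (Ut c.Q y v) = Ut c.Q (jr y) (c.J v) :=
  (j.ug 1 _ y v one_pos H496.isLor_one).trans (by rw [JCa.jL_one]; rfl)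

lemma J_ae (j : JC c) {v : Completion D} (h : ∀ᵐ p ∂c.nu v, p ∈ Fc) :
    ∀ᵐ p ∂c.nu (c.J v), p ∈ Fc := by
  have := c.bt.cov_anti c.bt SN.isPair_mdot (k := fun p => -jr p) (A := jr)
    cont_jr.neg.measurable (fun p y => by rw [md_neg_l, ← md_jr, jr_jr])
    c.J.toContinuousLinearEquiv.toContinuousLinearMap (v := v) (w := c.J v)
    (fun y => J_ut j y v) (SN.Bd.ind meas_Fc)
  refine (c.bt.P_eq_self meas_Fc).1 ?_
  rw [show c.bt.Phi _ v = v from (c.bt.P_eq_self meas_Fc).2 h] at this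
  refine Eq.trans ?_ this.symm
  rw [SN.Calc.P]
  congr 2
  funext p
  have e : -jr p ∈ Fc ↔ p ∈ Fc := by simp [mem_Fc, mu, md_neg, md_neg_l, md_jr]
  by_cases hp : p ∈ Fc <;> simp [hp, e]

/-- the mirror image of a distribution -/
def mX (c : Ctx D) (X : Sch →L[ℂ] Completion D) : Sch →L[ℂ] Completion D where
  toFun f := c.J (X (mir f))
  map_add' f g := by simp only [map_add]
  map_smul' a f := by rw [mir_smul, map_smul, map_smulₛₗ, Complex.conj_conj, RingHom.id_apply]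
  cont := c.J.continuous.comp (X.continuous.comp mir.continuous)

variable [Fact c.can]

theorem lv_J (t : T3 c) (j : ℕ) (f : Sch) :
    c.J (c.hC.pot.lv j default f) = c.hC.pot.lv j default (mir f) := by
  set X := c.hC.pot.lv j default with hX
  have tr : Two.Tr c X := c.hC.pot.lmu.tr j default
  have ae : ∀ f, ∀ᵐ p ∂c.nu (X f), p ∈ Fc := c.hC.pot.lmu.ae c.hC.pot.top_lv (by norm_num) j default
  have h0 : mX c X - X = 0 := Two.Tr.box_zero (c := c) (fun y f => by
    show c.J (X (mir _)) - X _ = Ut c.Q y (c.J (X (mir f)) - X f)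
    rw [mir_tsl, tr, tr, J_ut t.jc, jr_jr, map_sub]) (by
      have := SN.Calc.ae_add (J_ae t.jc (ae (mir Two.gS))) (SN.Calc.ae_smul (-1) (ae Two.gS))
      rwa [neg_one_smul, ← sub_eq_add_neg] at this) fun g hg => by
    have s0 := Two.g0_in.1
    have s1 : IsTest (ev (mir Two.gS)) := ⟨_, rfl⟩
    have e : ev (mir g) = box (ev (mir Two.gS)) := by
      rw [ev_mir, hg, ← box_jr]
      exact (Dd.box_bar ((sw_smooth s0).comp jrL.contDiff)).symm
    show c.J (c.sg j (ev (mir g))) - c.sg j (ev g) = 0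
    rw [e, hg, c.hC.pot.trace j _ s0, c.hC.pot.trace j _ s1, sub_eq_zero]
    simp only [GF.tr, P352X.Two.coe_sum, Completion.coe_smul, map_sum, map_smulₛₗ, Complex.conj_ofReal]
    refine Finset.sum_congr rfl fun m _ => ?_
    have := (t.tC j).jc.one m m _ s1
    rw [sj_sq, Complex.ofReal_one, one_smul, ← ev_mir, mir_mir] at this
    exact congrArg _ this
  have := congrArg (· (mir f)) h0
  simp only [ContinuousLinearMap.sub_apply, ContinuousLinearMap.zero_apply, sub_eq_zero] at this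
  rw [← this]
  show _ = c.J (X (mir (mir f)))
  rw [mir_mir]

theorem lv_gn (g : GRP c) {W : ℝ → Completion D →L[ℂ] Completion D} {X : V → V} (K : Gen.Fl c W X)
    (j : ℕ) {f : Fn} (hf : IsTest f) : Gn W (c.sg j f) (I • c.sg j (H746.vf X f)) := by
  have := K.core g (c.sg j) (c.hC.pot.lv j default ∘L toSchL) (fun F => rfl) hf
    (fun _ => c.sg j f) (fun L a hL => Dd.sg_one j a hL hf) (ψ := 0)
    fun L _ _ => hasDerivAt_const _ _
  rwa [sub_zero] at this

theorem s1_mi (g : GRP c) (j : ℕ) (i : Fin 2) (f : Sch) :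
    Gn (Mi c.Q i) (s1 c j f) (I • s1 c j (MS i f)) := by
  unfold s1
  split_ifs
  · simpa using KDa.gn_zero
  · simpa only [Gen.vf_mi, Pot.lv_apply, ev_MS] using lv_gn g (Gen.fl_mi g i) j ⟨f, rfl⟩

theorem s1_bo (g : GRP c) (j : ℕ) (f : Sch) : Gn (Bo c.Q) (s1 c j f) (I • s1 c j (BS f)) := by
  unfold s1
  split_ifs
  · simpa using KDa.gn_zero
  · simpa only [Gen.vf_bo, Pot.lv_apply, KDa.ev_BS] using lv_gn g (Gen.fl_bo g) j ⟨f, rfl⟩

theorem s1_tr (j : ℕ) : Two.Tr c (s1 c j) := by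
  unfold s1
  split_ifs
  · exact fun y f => by simp
  · exact c.hC.pot.lmu.tr j default

theorem s1_loc (g : GRP c) (j : ℕ) {O : Set V} {y : V} {f : Fn} (hy : Dir y)
    (hO : ∀ t : ℝ, 0 ≤ t → ∀ z ∈ O, z + t • y ∈ O) (hf : In O f) :
    Pr (c.N O) c.Om (s1 c j (sch f)) (s1 c j (sch (bar f))) := by
  unfold s1
  split_ifs with hj
  · exact fun Z _ => by simp
  · have h := (Dd.p0_sg g j).toTc
    have hj := Nat.one_le_iff_ne_zero.2 hj
    rw [Pot.lv_apply, Pot.lv_apply, ev_sch hf.1, ev_sch (test_bar hf.1)]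
    refine ta g hy hO (h.gn (G1.all hf) y) (h.gn (G1.all hf).bar y) (h.perp f (G1.all hf))
      (h.perp _ (G1.all hf).bar) ?_
    simpa only [smul_smul, Complex.I_mul_I, neg_one_smul, c.vj_grad hj y hf.1,
      c.vj_grad hj y (test_bar hf.1)] using Dd.pr_vj (c := c) j y hf

omit [Fact c.can]

/-- scalar distributions on slabs below the plane -/
theorem sb_of (g : GRP c) {X : Sch →L[ℂ] Completion D} (tr : Two.Tr c X)
    (bo : ∀ f, Gn (Bo c.Q) (X f) (I • X (BS f)))
    (pr : ∀ r (f : Sch), HasCompactSupport f → tsupport f ⊆ Rc r 0 →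
      Pr (c.N (Rc r 0)) c.Om (X f) (X (barL f))) : Sb c X := fun b1 b2 hb => by
  obtain ⟨C1, hC1, k1⟩ := KDa.kd_two g (show 0 < 1 / (2 * (|b1| + 1)) by positivity)
  let Y := X.restrictScalars ℝ
  let B := BS.restrictScalars ℝ
  obtain ⟨C2, m, hC2, k2⟩ := ST.clm_sn (ContinuousLinearMap.pi
    ![Y, Y ∘L barL, Y ∘L B, Y ∘L B ∘L barL, Y ∘L B ∘L B])
  have h1 : ∀ f : Sch, HasCompactSupport f → tsupport f ⊆ Rc (1 / (2 * (|b1| + 1))) 0 →
      ∃ y, (X f, y) ∈ gr2 c ∧ ‖y‖ ≤ C1 * (5 * C2) * ST.sn V ℂ m f := fun f h1 h2 => by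
    obtain ⟨d1, d2, b1, b2⟩ := k1 _ _ _ _ _ (pr _ f h1 h2) (bo f) (bo (barL f))
      (KDa.gn_smul I (bo (BS f)))
    have b3 := fun i => (norm_le_pi_norm _ i).trans (k2 f)
    have a0 : ‖X f‖ ≤ _ := b3 0
    have a1 : ‖X (barL f)‖ ≤ _ := b3 1
    have a2 : ‖X (BS f)‖ ≤ _ := b3 2
    have a3 : ‖X (BS (barL f))‖ ≤ _ := b3 3
    have a4 : ‖X (BS (BS f))‖ ≤ _ := b3 4
    simp only [norm_smul, Complex.norm_I, one_mul] at b1 b2
    have b4 := mul_le_mul_of_nonneg_left (add_le_add (add_le_add (add_le_add (add_le_add a0 a1)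
      a2) a3) a4) hC1
    refine ⟨(_, _), ⟨d1.gn', d2.gn'⟩, ?_⟩
    rw [Prod.norm_def, max_le_iff]
    exact ⟨(b1.trans b4).trans_eq (by ring), (b2.trans b4).trans_eq (by ring)⟩
  set C := C1 * (5 * C2)
  have hC : 0 ≤ C := by positivity
  obtain ⟨C0, hC0, h2⟩ := KDa.ext_rel V m (2 * m)
  refine ⟨m + (2 * m + 2), C0 * (C * 8 ^ m), by positivity, fun f hf => ?_⟩
  rw [Api4.sn_eq]
  refine (h2 (gr2 c) X _ (C * 8 ^ m) (KDa.gr2_closed g) (by positivity)
    (fun R u hR hu => ?_) f hf).elim fun y ⟨hy, hn⟩ =>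
      ⟨_, _, hy.1, hy.2, (norm_fst_le y).trans hn, (norm_snd_le y).trans hn⟩
  set a := (3 * R ^ 2) • va with ha
  have hs : tsupport (ST.tsl a u) ⊆ (fun z => z + a) '' tsupport u := fun z hz =>
    ⟨z - a, KDa.tsupport_tsl a u hz, sub_add_cancel z a⟩
  have hc : IsCompact (tsupport u) :=
    (isCompact_closedBall 0 R).of_isClosed_subset (isClosed_tsupport _) fun z hz => (hu hz).2
  obtain ⟨y, hy, hb2⟩ := h1 (ST.tsl a u)
    ((hc.image (continuous_id.add continuous_const)).of_isClosed_subset (isClosed_tsupport _) hs)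
    (hs.trans (by
      rintro _ ⟨z, hz, rfl⟩
      exact KDa.shift_mem hb hR (hu hz).1.1 (hu hz).1.2 (mem_closedBall_zero_iff.1 (hu hz).2)))
  have e : Pa c.Q (-(3 * R ^ 2)) (X (ST.tsl a u)) = X u := by
    rw [Pa, ← tr, neg_smul, ← ha]
    congr 1
    ext z
    simp
  have hn : ∀ z, ‖Pa c.Q (-(3 * R ^ 2)) z‖ = ‖z‖ := KDa.norm_uni (g.uni _ _ _)
  refine ⟨(Pa c.Q (-(3 * R ^ 2)) y.1, Pa c.Q (-(3 * R ^ 2)) y.2),
    ⟨e ▸ KDa.gn_comm _ (g.pa_S _) hy.1, KDa.gn_comm _ (g.pa_S _) hy.2⟩, ?_⟩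
  rw [Prod.norm_def, hn, hn]
  refine hb2.trans ((mul_le_mul_of_nonneg_left (ST.sn_tsl u a m) hC).trans ?_)
  have h3 : 1 + ‖a‖ ≤ 4 * R ^ 2 := by
    rw [ha, norm_smul, Real.norm_of_nonneg (by positivity)]
    nlinarith [KDa.norm_va, mul_le_mul_of_nonneg_left KDa.norm_va
      (show 0 ≤ 3 * R ^ 2 by positivity)]
  calc _ ≤ C * (2 ^ m * (4 * R ^ 2) ^ m * ST.sn V ℂ m u) := by gcongr
    _ = _ := by
      rw [mul_pow, pow_mul, show (8 : ℝ) = 2 * 4 by norm_num, mul_pow]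
      ring

end Sig

open Sig

variable {Θ Θ' : Sch →L[ℂ] Completion D}

lemma Lw.add (h : Lw c Θ) (h' : Lw c Θ') : Lw c (Θ + Θ') := by
  obtain ⟨m, C, hC, hb⟩ := h
  obtain ⟨m', C', hC', hb'⟩ := h'
  refine ⟨max m m', C + C', by positivity, fun f t h0 ht => ?_⟩
  have h1 := mul_le_mul_of_nonneg_left (sn_mo (le_max_left m m') f) (mul_nonneg hC h0.le)
  have h2 := mul_le_mul_of_nonneg_left (sn_mo (le_max_right m m') f) (mul_nonneg hC' h0.le)
  have h3 := hb f t h0 ht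
  have h4 := hb' f t h0 ht
  rw [ContinuousLinearMap.add_apply, map_add, map_add]
  exact ⟨(norm_add_le _ _).trans (by linarith [h3.1, h4.1]),
    (norm_add_le _ _).trans (by linarith [h3.2, h4.2])⟩

lemma Lw.smul (a : ℂ) (h : Lw c Θ) : Lw c (a • Θ) := by
  obtain ⟨m, C, hC, hb⟩ := h
  refine ⟨m, ‖a‖ * C, by positivity, fun f t h0 ht => ?_⟩
  rw [ContinuousLinearMap.smul_apply, map_smul, map_smul, norm_smul, norm_smul, mul_assoc,
    mul_assoc, ← mul_assoc C]
  exact ⟨mul_le_mul_of_nonneg_left (hb f t h0 ht).1 (norm_nonneg a),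
    mul_le_mul_of_nonneg_left (hb f t h0 ht).2 (norm_nonneg a)⟩

lemma Lw.sub (h : Lw c Θ) (h' : Lw c Θ') : Lw c (Θ - Θ') := by
  simpa only [neg_one_smul, ← sub_eq_add_neg] using h.add (h'.smul (-1))

lemma Lw.comp (h : Lw c Θ) (A : Sch →L[ℂ] Sch) : Lw c (Θ ∘L A) := by
  obtain ⟨m, C, hC, hb⟩ := h
  obtain ⟨C', m', hC', hA⟩ := ST.clm_sn' (A.restrictScalars ℝ) m
  refine ⟨m', C * C', by positivity, fun f t h0 ht => ?_⟩
  have h1 := mul_le_mul_of_nonneg_left (hA f) (mul_nonneg hC h0.le)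
  have h2 := hb (A f) t h0 ht
  rw [Api4.sn_eq] at h2 ⊢
  exact ⟨h2.1.trans (h1.trans_eq (by ring)), h2.2.trans (h1.trans_eq (by ring))⟩

lemma lw_zero : Lw c 0 := ⟨0, 0, le_rfl, fun f t _ _ => by simp⟩

/-- **Row BB.sig.** -/
theorem sig_row (c : Ctx D) [Fact c.can] (t : T3 c) : SIG c where
  loc j O y f hy hO hf := s1_loc t.grp j hy hO hf
  J j f := by
    unfold s1
    split_ifs
    · simp
    · exact lv_J t j f
  mi := s1_mi t.grp
  slab j := sb_of t.grp (s1_tr j) (s1_bo t.grp j) fun r f h1 h2 => by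
    have := s1_loc t.grp j (.inl null_va) (G1.rc_inv r) (f := ev f) ⟨⟨f, rfl⟩, h1, h2⟩
    rwa [← KDa.ev_barL, sch_ev, sch_ev] at this

namespace Sig

/-- the action of `M_i` on tensors -/
def nm (i : Fin 2) (Φ : V → V → Sch →L[ℂ] Completion D) (h k : V) : Sch →L[ℂ] Completion D :=
  I • (Φ h k ∘L MS i - Φ (tx h i • va + be h • ex i) k - Φ h (tx k i • va + be k • ex i))

lemma gn_nm (i : Fin 2) {Φ Ψ : V → V → Sch →L[ℂ] Completion D}
    (hΦ : ∀ h k f, Gn (Mi c.Q i) (Φ h k f) (Ψ h k f)) (h k : V) (f : Sch) :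
    Gn (Mi c.Q i) (nm i Φ h k f) (nm i Ψ h k f) :=
  (((hΦ _ _ _).sub (hΦ _ _ _)).sub (hΦ _ _ _)).smul I

lemma gn_TL (G : GEN c) (i : Fin 2) (h k : V) (f : Sch) :
    Gn (Mi c.Q i) (TL c h k f) (nm i (TL c) h k f) := by
  simp only [nm, ContinuousLinearMap.smul_apply, ContinuousLinearMap.sub_apply,
    ContinuousLinearMap.comp_apply, TL_apply, ev_MS]
  exact G.mi i h k _ ⟨f, rfl⟩

variable [Fact c.can]

lemma lw_TL (lo : LOWL c) (j : ℕ) (h k : V) : Lw c (TL (c.toC j) h k) := by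
  obtain ⟨C, -, e⟩ := c.hC.fam.lmu_S.two c.hC.fam.top_S (by norm_num)
  refine lo _ (fun p => C * (nn p h * nn p k * (1 + |Real.log (mu p)|) ^ (2 * c.k)))
    ((Lgm.Lg.const C).mul (((Lgm.lg_nn h).mul (Lgm.lg_nn k)).mul
      (((Lgm.Lg.const 1).add Lgm.lg_log.abs).pow _))) (by unfold nn; fun_prop) fun f => ?_
  have := e 0 j ![h, k] f
  rw [Two.ex0_zero, add_zero, ← (c.hC.fam.p2 j).lv_hk] at this
  rw [TL_apply]
  exact this.trans (Two.wd_mono fun p _ => le_of_eq (by norm_num [mul_assoc]))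

lemma lw_s1 (lo : LOWL c) (j : ℕ) : Lw c (s1 c j) := by
  unfold s1
  split_ifs
  · exact lw_zero
  obtain ⟨C, -, e⟩ := c.hC.pot.lmu.one c.hC.pot.top_lv (by norm_num)
  refine lo _ (fun p => C * (1 + |Real.log (mu p)|) ^ (2 * c.k))
    ((Lgm.Lg.const C).mul (((Lgm.Lg.const 1).add Lgm.lg_log.abs).pow _)) (by fun_prop) fun f => ?_
  exact (e j default f).trans (Two.wd_mono fun p _ => le_of_eq (by norm_num))

end Sig

/-- **Row BB.mt.** -/
theorem mtl_row (c : Ctx D) [Fact c.can] (t : T3 c) (lo : LOWL c) : MTL c where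
  s j h k :=
    { tr := fun y f => by
        rw [TL_apply, TL_apply]
        exact (ut_T' (t.tC j).grp y h k ⟨f, rfl⟩).symm
      lw := lw_TL lo j h k
      mi := fun i => ⟨nm i (TL (c.toC j)) h k, nm i (nm i (TL (c.toC j))) h k,
        ((((lw_TL lo j _ _).comp _).sub (lw_TL lo j _ _)).sub (lw_TL lo j _ _)).smul I,
        fun f => ⟨gn_TL (t.tC j).gen i h k f, gn_nm (c := c.toC j) i (gn_TL (t.tC j).gen i) h k f⟩⟩
      slab := fun b1 b2 hb => by
        obtain ⟨m, C, e⟩ := (t.tC j).kd.slab b1 b2 (.inl hb)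
        refine ⟨m, |C| * ‖h‖ * ‖k‖, by positivity, fun f hf => ?_⟩
        obtain ⟨d1, d2, n1, n2⟩ := e h k f hf
        have := sn_nn m f
        have b : C * ‖h‖ * ‖k‖ * sn m f ≤ |C| * ‖h‖ * ‖k‖ * sn m f := by
          gcongr
          exact le_abs_self C
        rw [TL_apply]
        exact ⟨_, _, d1.gn, d2.gn, n1.trans b, n2.trans b⟩ }
  g j :=
    { tr := s1_tr j
      lw := lw_s1 lo j
      mi := fun i => ⟨I • s1 c j ∘L MS i, I • I • s1 c j ∘L MS i ∘L MS i,
        ((lw_s1 lo j).comp _).smul I,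
        fun f => ⟨s1_mi t.grp j i f, (s1_mi t.grp j i (MS i f)).smul I⟩⟩
      slab := (sig_row c t).slab j }

end

end Vale.Agent.P352X.ZZ.BX
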