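import Vale.Agent.P352X.R.BB.Tra
import Vale.Agent.P352Z.R.BB.Base

/-!
# P352Z, row BB.tra: transverse translations
-/

set_option linter.all false

open MeasureTheory Filter Topology Set
open scoped SchwartzMap ComplexConjugate ENNReal ContDiff

namespace Vale.Agent.P352X.ZZ.BX

open Vale.Agent.P352 Vale.Agent.P352.GF Vale.Agent.P352.BW Vale.Agent.P352.H246
open Vale.Agent.P352.H496 Vale.Agent.P352.H755 Vale.Agent.P352.H15 Vale.Agent.P352X.Ap
open Vale.Agent.P132 (ModData jconj)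
open UniformSpace (Completion)

noncomputable section

variable {D : Type*} [NormedAddCommGroup D] [InnerProductSpace ℂ D] {c : Ctx D}
  {χ : ℝ → ℝ} {f f' : Fn} {w w' : Completion D} {X : Completion D →L[ℂ] Completion D}

namespace Tra

export Vale.Agent.P352X.BX.Tra (t1 t2 dc_sub)

theorem om2_eq (w w' : Completion D) (χ : ℝ → ℝ) (h k : V) (f : Fn) : c.om2 w w' χ (hk h k f) =
    inner ℂ (c.Tv (hk h k fun z => (χ (al z) : ℝ) * bar f z)) w +
      inner ℂ w' (c.Tv (hk h k fun z => (1 - χ (al z) : ℝ) * f z)) := by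
  simp only [Ctx.om2, bar_hk]
  congr 3 <;> funext m n z <;> simp only [hk] <;> ring

theorem om2_add (hχ : ContDiff ℝ ∞ χ) (hf : Dc f) (hf' : Dc f') (h k : V) :
    c.om2 w w' χ (hk h k fun z => f z + f' z) =
      c.om2 w w' χ (hk h k f) + c.om2 w w' χ (hk h k f') := by
  simp only [om2_eq]
  rw [add_add_add_comm, ← inner_add_left, ← inner_add_right, ← Tv_add (t1 hχ hf) (t1 hχ hf'),
    ← Tv_add (t2 hχ hf) (t2 hχ hf')]
  simp only [bar, star_add, mul_add]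

theorem om2_ut (G : GRP c) (hχ : ContDiff ℝ ∞ χ) (hf : Dc f) (h k : V) (y : R2) :
    c.om2 w w' χ (hk h k f) = c.om2 (Ut c.Q (-tv y) w) (Ut c.Q (-tv y) w') χ
      (hk h k fun z => f (z + tv y)) := by
  simp only [om2_eq]
  rw [← ut_T G (tv y) h k (t1 hχ hf), ← ut_T G (tv y) h k (t2 hχ hf), ← G.star_ut, inner_star,
    star_inner]
  simp [bar]

theorem sm (G : GRP c) (hX : c.Good X) (y : R2) : Sm c (Ut c.Q (-tv y) * X * Ut c.Q (tv y)) := by
  have h := (contDiff_const (c := Ut c.Q (-tv y))).mul (hX.comp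
    (f := fun q : ℝ × ℝ => (q.1, q.2, (0 : ℝ))) (by fun_prop)) |>.mul
    (contDiff_const (c := Ut c.Q (tv y)))
  have b : ∀ s x v, Bo c.Q s (Ut c.Q (tv x) v) = Ut c.Q (tv x) (Bo c.Q s v) := fun s x v =>
    DFunLike.congr_fun (G.bo_tv s x) v
  have p : ∀ s x v, Pb c.Q s (Ut c.Q (tv x) v) = Ut c.Q (tv x) (Pb c.Q s v) := fun s x v =>
    DFunLike.congr_fun (G.ut_comm _ _) v
  refine (congrArg (ContDiff ℝ ∞) (funext fun q => ContinuousLinearMap.ext fun v => ?_)).mp h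
  simp only [← tv_neg, Function.comp_apply, neg_zero, G.gb0, ContinuousLinearMap.mul_apply,
    ContinuousLinearMap.one_apply, b, p]

theorem gen_ut (G : GRP c) (x z : V) (ψ : Completion D) :
    gen (c.Ky (x + z)) ψ = Ut c.Q x (gen (c.Ky z) (Ut c.Q (-x) ψ)) := by
  have e : -(x + z) = -z + -x := neg_add_rev _ _
  by_cases h : Dm c.SK (Ut c.Q (-(x + z)) ψ)
  · rw [G.gen_Ky _ h, G.gen_Ky z (by rwa [G.ut_apply, ← e]), G.ut_apply, G.ut_apply, e]
  · rw [gen, gen, deriv_zero_of_not_differentiableAt (mt (G.dm_Ky _).1 h),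
      deriv_zero_of_not_differentiableAt (mt (G.dm_Ky _).1 (by rwa [G.ut_apply, ← e]))]
    simp

end Tra

open Tra

theorem tra_row (c : Ctx D) : T3 c → FAR c → CORE c → BB c := by
  intro t far core u0 d0 y1 r1 y2 r2 X X' χ κ ρ y hd h1 h2 s1 s2 m1 g1 m2 g2 hχ c1 c2 hκ hρ sρ
  have G := t.grp
  have s : ∀ {y1 r1}, dc y1 r1 ⊆ {z | be z < -u0 ∧ d0 < al z} →
      dc (y1 - tv y) r1 ⊆ {z | be z < -u0 ∧ d0 < al z} := fun s z hz => by
    simpa using s ((dc_sub _ _ _ _).1 hz)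
  have m : ∀ {X y1 r1}, X ∈ c.N (dc y1 r1) →
      Ut c.Q (-tv y) * X * Ut c.Q (tv y) ∈ c.N (dc (y1 - tv y) r1) := fun m => by
    simpa using G.mem_ut m (-tv y) fun z hz => (dc_sub _ _ _ _).2 (by simpa using hz)
  have dat : Dat c u0 d0 _ r1 _ r2 _ _ := ⟨hd, h1, h2, s s1, s s2, m m1, m m2⟩
  obtain ⟨κ0, k0, a⟩ := core _ _ _ _ _ _ _ _ χ ρ dat (sm G g1 y) (sm G g2 y) ⟨hχ, c1, c2⟩ hρ sρ
  have b := a.add (far _ _ _ _ _ _ _ _ χ κ κ0 ρ y dat ⟨hχ, c1, c2⟩ hκ k0 hρ sρ)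
  have j : ∀ x, jr (tv x) = tv x := fun x => null_ext (by simp) (by simp) (by simp)
  have v : ∀ x, Ut c.Q x c.Om = c.Om := fun x => G.vac _ _ _
  have e : jconj c.J (Ut c.Q (-tv y) * X' * Ut c.Q (tv y)) =
      Ut c.Q (-tv y) * jconj c.J X' * Ut c.Q (tv y) := by
    ext z
    simp only [← tv_neg, P132.jconj_apply, ContinuousLinearMap.mul_apply, t.jc.ut, j]
  simp only [e, star_mul, G.star_ut, ContinuousLinearMap.mul_apply, v, G.ut_apply, neg_neg,
    add_neg_cancel, G.ut0, ContinuousLinearMap.one_apply, add_zero] at b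
  simp only [gen_ut G (tv y), ← star_inner, G.star_ut]
  refine b.congr' ?_
  filter_upwards [eventually_gt_atTop 0] with L hL
  have q := tst_kL hκ.1 hL
  have q0 := tst_kL k0.1 hL
  have q1 : Tst fun q : P3 => kL κ L (q.1, q.2 + y) := by
    simpa only [Prod.add_def, add_zero, tst_iff] using cs_tr (0, y) q
  refine (om2_add hχ (dc_pr (tst_x2 q0) hρ) (dc_pr (tst_x2 (cs_sub q1 q0)) hρ) _ _).symm.trans
    (Eq.trans ?_ (om2_ut G hχ (dc_pr (cs_mul_l (by fun_prop) q) hρ) _ _ y).symm)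
  congr 2
  funext z
  simp only [pr, x2, pl, al_add, tx_add, be_add, al_tv, tx_tv, be_tv, add_zero, add_sub_cancel_right]
  push_cast
  ring

end

end Vale.Agent.P352X.ZZ.BX
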