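import Vale.Agent.P352Z.R.BB.Core
import Vale.Agent.P352Z.R.BB.Cross
import Vale.Agent.P352Z.R.BB.Dec
import Vale.Agent.P352Z.R.BB.Dom
import Vale.Agent.P352Z.R.BB.Fin
import Vale.Agent.P352Z.R.BB.FluxL
import Vale.Agent.P352Z.R.BB.Half
import Vale.Agent.P352Z.R.BB.KS
import Vale.Agent.P352Z.R.BB.LIP
import Vale.Agent.P352Z.R.BB.Low
import Vale.Agent.P352Z.R.BB.Main
import Vale.Agent.P352Z.R.BB.MI
import Vale.Agent.P352Z.R.BB.Sig
import Vale.Agent.P352Z.R.BB.Tra

/-!
# P352Z, row BB from its sub-rows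
-/

namespace Vale.Agent.P352X.ZZ.BX

variable {D : Type*} [NormedAddCommGroup D] [InnerProductSpace ℂ D]

theorem ksl_thm (c : Ctx D) [Fact c.can] (t : T3 c) : KSL c :=
  ksl_row c t (sig_row c t) (mtl_row c t (lowl_row c)) (ktl_row c t)

theorem bb_of (c : Ctx D) [Fact c.can] (t : T3 c) (h : HALFL c) : BB c :=
  tra_row c t (far_row c t) (core_row c t (sig_row c t) h (mi_row c t) (dom_row c t) (lip_row c t)
    (main_row c t (sig_row c t) (ksl_thm c t)) (gaps_row c t (sig_row c t))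
    (cross_row c t (fluxl_row c t) (dec_row c t (sig_row c t))) (end_row c t))

/-- row BB -/
theorem bb_row (c : Ctx D) [Fact c.can] (t : T3 c) : BB c := bb_of c t (half_row c t (sig_row c t))

end Vale.Agent.P352X.ZZ.BX
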