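import Vale.Agent.P352X.R.BB.Core
import Vale.Agent.P352Z.R.BB.Gen

/-!
# P352Z, row BB: the assembly for `y = 0`
-/

set_option linter.all false

open MeasureTheory Filter Topology Set
open scoped SchwartzMap ComplexConjugate ENNReal ContDiff

namespace Vale.Agent.P352X.ZZ.BX

open Vale.Agent.P352 Vale.Agent.P352.GF Vale.Agent.P352.BW Vale.Agent.P352.H246
open Vale.Agent.P352.H496 Vale.Agent.P352.H755 Vale.Agent.P352.H15 Vale.Agent.P352X.Ap
open Vale.Agent.P132 (ModData jconj)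
open UniformSpace (Completion)
open Complex (I)

noncomputable section

open Vale.Agent.P352X.BX.Co

variable {D : Type*} [NormedAddCommGroup D] [InnerProductSpace ℂ D]

theorem core_row (c : Ctx D) [Fact c.can] (t : T3 c) (S : SIG c) : HALFL c → MI c → DOM c →
    LIP c → MAINL c → GAPS c → CROSSL c → ENDL c → CORE c := by
  intro half mi dom lip main gaps cross fin u0 d0 y1 r1 y2 r2 X X' χ ρ dat sX sX' hχ hρ hs
  have G := t.grp
  have j := t.jc
  have hd := dat.hd
  obtain ⟨u1, hu1, hρ1⟩ := ex_u1 hρ hs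
  obtain ⟨R, b1, b2, hdR, heR⟩ := ((ex_box (u1 := u1) dat.s1).and ((ex_box (u1 := u1) dat.s2).and
    ((eventually_ge_atTop d0).and (eventually_ge_atTop (u0 - u1))))).exists
  have hR : 0 < R := hd.trans_le hdR
  refine ⟨cut0 R, cut_cut0 hR, ?_⟩
  obtain ⟨ra, Na, hra, da1, ca⟩ := dom u0 u1 d0 (3 * d0 / 4) y1 r1 X hu1 (by positivity)
    (by linarith) dat.h1 dat.s1 dat.m1 sX
  obtain ⟨rb, Nb, hrb, db1, cb⟩ := dom u0 u1 d0 (3 * d0 / 4) y2 r2 (star X') hu1 (by positivity)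
    (by linarith) dat.h2 dat.s2 (star_mem dat.m2) (Sm.star G sX')
  obtain ⟨C1, l1⟩ := lip.op X' sX'
  obtain ⟨C2, l2⟩ := lip.op (star X) (Sm.star G sX)
  obtain ⟨Cj, lj⟩ := lip.j
  set Y := jconj c.J X' with hY
  set φ := X c.Om with hφ
  set φ' := star X' c.Om with hφ'
  set w := Y φ with hw
  set w' := star X (star Y c.Om) with hw'
  have eψ : star Y c.Om = c.J φ' := star_Y X'
  let v : ℝ → Completion D := fun u => Pb c.Q (-u) (Y (Pb c.Q u (gen c.SK (Pb c.Q (-u) φ))))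
  let v' : ℝ → Completion D := fun u =>
    Pb c.Q (-u) (star X (Pb c.Q u (c.J (gen c.SK (Pb c.Q u φ')))))
  have cb' : ContinuousOn (fun u => gen c.SK (Pb c.Q u φ')) (Icc (-u1) u1) := by
    have := cb.comp continuous_neg.continuousOn fun u hu => neg_mem hu
    simpa only [Function.comp_def, neg_neg] using this
  have cv : ContinuousOn v (Icc (-u1) u1) := cont_on G.ugPb continuous_neg
    (Y.continuous.comp_continuousOn (cont_on G.ugPb continuous_id ca))
  have cv' : ContinuousOn v' (Icc (-u1) u1) := cont_on G.ugPb continuous_neg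
    ((star X).continuous.comp_continuousOn (cont_on G.ugPb continuous_id
      (c.J.continuous.comp_continuousOn cb')))
  have qv : ∀ u ∈ Icc (-u1) u1, Qb c (v u) (Cj * (C1 * (Cj * Na))) := fun u hu => by
    have := lj _ _ (l1 (-u) _ _ (lj _ _ (da1 u hu).2.2))
    simpa only [v, hY, P132.jconj_apply, J_pb j, neg_neg, ContinuousLinearMap.mul_apply] using this
  have qv' : ∀ u ∈ Icc (-u1) u1, Qb c (v' u) (C2 * (Cj * Nb)) := fun u hu => by
    have := l2 u _ _ (lj _ _ (db1 _ (neg_mem hu)).2.2)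
    simpa only [v', neg_neg, ContinuousLinearMap.mul_apply] using this
  set k := ∫ u, (ρ u : ℂ) * inner ℂ (star Y c.Om) (gen (c.Ky (u • vb)) φ) with hk
  have key : ∀ L ε, 2 * R ≤ L → 0 < ε → 2 * ε ≤ u0 - u1 → k =
      I * inner ℂ (Rb c ρ (gen c.SK (GC c χ R L ε))) w +
      I * inner ℂ (Rb c (ng ρ) (gen c.SK (GC c (opp χ) R L ε))) (c.J w') -
      I * (∫ u, (ρ u : ℂ) * inner ℂ (GC c χ R L ε - c.J (GC c (opp χ) R L ε)) (v u)) +
      I * conj (∫ u, (ρ u : ℂ) *
        inner ℂ (GC c χ R L ε - c.J (GC c (opp χ) R L ε)) (v' u)) := by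
    intro L ε hL hε he
    have hL0 : 0 < L := by linarith
    set G1 := GC c χ R L ε
    set G2 := GC c (opp χ) R L ε
    have pw : ∀ u, (ρ u : ℂ) * inner ℂ (star Y c.Om) (gen (c.Ky (u • vb)) φ) =
        I * ((ρ u : ℂ) * inner ℂ (gen c.SK G1) (Pb c.Q (-u) w)) +
        I * ((ρ u : ℂ) * inner ℂ (gen c.SK G2) (Pb c.Q u (c.J w'))) -
        I * ((ρ u : ℂ) * inner ℂ (G1 - c.J G2) (v u)) +
        I * ((ρ u : ℂ) * inner ℂ (v' u) (G1 - c.J G2)) := fun u => by
      by_cases hu : u ∈ Icc (-u1) u1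
      swap
      · simp [image_eq_zero_of_notMem_tsupport fun h => hu (hρ1 h)]
      obtain ⟨m1, g1, -⟩ := da1 u hu
      obtain ⟨m2, g2, -⟩ := db1 _ (neg_mem hu)
      rw [neg_neg] at m2 g2
      have e1 : (Pb c.Q (-u) * X * Pb c.Q u) c.Om = Pb c.Q (-u) φ := by
        simp only [ContinuousLinearMap.mul_apply, pb_om G, hφ]
      have e0 : star (Pb c.Q u * X' * Pb c.Q (-u)) = Pb c.Q u * star X' * Pb c.Q (-u) := by
        simp only [star_mul, G.ugPb.star_eq, neg_neg, mul_assoc]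
      have e0' : star (Pb c.Q (-u) * X * Pb c.Q u) = Pb c.Q (-u) * star X * Pb c.Q u := by
        simp only [star_mul, G.ugPb.star_eq, neg_neg, mul_assoc]
      have e2 : (Pb c.Q u * star X' * Pb c.Q (-u)) c.Om = Pb c.Q u φ' := by
        simp only [ContinuousLinearMap.mul_apply, pb_om G, hφ']
      have n1 : Pb c.Q (-u) * X * Pb c.Q u ∈ c.N (dc (y1 + (-u) • vb) r1) := by
        have := G.mem_ut dat.m1 ((-u) • vb) fun z hz => mem_dc.2 hz
        rwa [← neg_smul, neg_neg] at this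
      have n2 : Pb c.Q u * star X' * Pb c.Q (-u) ∈ c.N (dc (y2 + (- -u) • vb) r2) := by
        have := G.mem_ut (star_mem dat.m2) ((- -u) • vb) fun z hz => mem_dc.2 hz
        rwa [← neg_smul, neg_neg (-u), show Ut c.Q ((- -u) • vb) = Pb c.Q u by rw [neg_neg]; rfl]
          at this
      have h1 := half d0 (3 * d0 / 4) _ R L ε χ _ r1 _ _ hd (by linarith) hdR hL hε he heR hχ
        dat.h1 n1 (b1 u hu) (e1.symm ▸ g1.1.gn)
      have h2 := half d0 (3 * d0 / 4) _ R L ε (opp χ) _ r2 _ _ hd (by linarith) hdR hL hε he heR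
        hχ.opp dat.h2 n2 (b2 _ (neg_mem hu)) (e2.symm ▸ g2.1.gn)
      have m2' : Pb c.Q u * X' * Pb c.Q (-u) ∈ c.N (Rc rb ((3 * d0 / 4) • va)) := by
        have := star_mem m2
        rwa [← e0, star_star] at this
      have := mi (3 * d0 / 4) (min ra rb) _ _ G1 G2 (by positivity) (lt_min hra hrb)
        (c.N_mono (rc_sub (lt_min hra hrb).le (min_le_left _ _) _) _ m1)
        (c.N_mono (rc_sub (lt_min hra hrb).le (min_le_right _ _) _) _ m2')
        (dm_GC t S hχ hR hL0 hε) (dm_GC t S hχ.opp hR hL0 hε) (e1.symm ▸ g1)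
        (by rw [e0, e2]; exact g2.1) (by rw [e0, e2]; exact g2.2.1) h1
        (by rw [← e0, star_star] at h2; exact h2)
      rw [e0, e1, e2, e0', jconj_pb j G] at this
      have e3 : gen (c.Ky (u • vb)) φ = Pb c.Q u (gen c.SK (Pb c.Q (-u) φ)) := by
        have h : Ut c.Q (-(u • vb)) = Pb c.Q (-u) := by rw [← neg_smul]; rfl
        rw [G.gen_Ky _ (by rw [h]; exact g1.2.1), h]
        rfl
      simp only [ContinuousLinearMap.mul_apply, J_pb j, pb_pb G, add_neg_cancel, neg_neg,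
        G.ugPb.zero', ContinuousLinearMap.one_apply] at this
      rw [e3, eψ, G.ugPb.adj', this, hw', eψ]
      ring
    have i1 : Integrable fun u => (ρ u : ℂ) * inner ℂ (gen c.SK G1) (Pb c.Q (-u) w) :=
      int_on hρ hρ1 (ContinuousOn.inner (𝕜 := ℂ) continuousOn_const
        (cont_on G.ugPb continuous_neg continuousOn_const))
    have i2 : Integrable fun u => (ρ u : ℂ) * inner ℂ (gen c.SK G2) (Pb c.Q u (c.J w')) :=
      int_on hρ hρ1 (ContinuousOn.inner (𝕜 := ℂ) continuousOn_const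
        (cont_on G.ugPb continuous_id continuousOn_const))
    have i3 : Integrable fun u => (ρ u : ℂ) * inner ℂ (G1 - c.J G2) (v u) :=
      int_on hρ hρ1 (ContinuousOn.inner (𝕜 := ℂ) continuousOn_const cv)
    have i4 : Integrable fun u => (ρ u : ℂ) * inner ℂ (v' u) (G1 - c.J G2) :=
      int_on hρ hρ1 (ContinuousOn.inner (𝕜 := ℂ) cv' continuousOn_const)
    rw [hk, integral_congr_ae (Eventually.of_forall pw), int4 i1 i2 i3 i4, inner_Rb G hρ,
      inner_Rb G (tst_ng hρ), ← integral_conj, ← integral_neg_eq_self fun u => (ng ρ u : ℂ) * _]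
    simp only [ng, neg_neg, map_mul, Complex.conj_ofReal, inner_conj_symm]
  have lim : Tendsto (fun L => inner ℂ (TP (c.toS (ll L)) va va (x2 (da (ap 1 (slab χ R L)))) ρ) w +
      inner ℂ (TP (c.toS (ll L)) va va (x2 (da (ap 1 (slab (opp χ) R L)))) (ng ρ)) (c.J w')) atTop (𝓝 k) := by
    rw [Metric.tendsto_nhds]
    intro η hη
    have h5 : 0 < η / 5 := by positivity
    filter_upwards [main d0 R χ ρ w hd hdR hχ hρ _ h5,
      main d0 R (opp χ) (ng ρ) (c.J w') hd hdR hχ.opp (tst_ng hρ) _ h5,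
      cross d0 R u1 _ χ ρ v hd hdR hχ hρ hρ1 cv qv _ h5,
      cross d0 R u1 _ χ ρ v' hd hdR hχ hρ hρ1 cv' qv' _ h5, eventually_ge_atTop (2 * R)]
      with L a1 a2 a3 a4 hL
    have a5 : ∀ᶠ n in atTop, ep n ≤ (u0 - u1) / 2 :=
      (tendsto_ep.mono_right nhdsWithin_le_nhds).eventually_le_const (by linarith)
    obtain ⟨n, a1, a2, a3, a4, a5⟩ := (a1.and (a2.and (a3.and (a4.and a5)))).exists
    have a6 := gaps u0 d0 y1 r1 y2 r2 X X' χ ρ R L (ll L) (ll (ep n)) dat hχ hR (by linarith) hρ hs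
    rw [← hY, ← hw, ← hw', add_eq_zero_iff_eq_neg] at a6
    rw [a6] at a1
    rw [key L (ep n) hL (ep_pos n) (by linarith), dist_eq_norm]
    generalize inner ℂ (PP _ _ (ng ρ)) (c.J w') = p at a1 a2
    generalize (∫ u, (ρ u : ℂ) * inner ℂ _ (v u)) = z3 at a3 ⊢
    generalize (∫ u, (ρ u : ℂ) * inner ℂ _ (v' u)) = z4 at a4 ⊢
    generalize I * inner ℂ (Rb c ρ _) w = z1 at a1 ⊢
    generalize I * inner ℂ (Rb c (ng ρ) _) (c.J w') = z2 at a2 ⊢
    generalize inner ℂ (TP (c.toS (ll L)) va va _ ρ) w = x1 at a1 ⊢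
    generalize inner ℂ (TP (c.toS (ll L)) va va _ (ng ρ)) (c.J w') = x2 at a2 ⊢
    have e : x1 + x2 - (z1 + z2 - I * z3 + I * conj z4) =
        -(z1 - x1 - -p) + -(z2 - x2 - p) + I * z3 + -(I * conj z4) := by ring
    rw [e]
    refine (norm_add₄_le).trans_lt ?_
    simp only [norm_neg, norm_mul, Complex.norm_I, one_mul, RCLike.norm_conj]
    linarith
  have := lim.sub (fin u0 d0 y1 r1 y2 r2 X X' χ ρ R dat hχ hR hρ hs)
  rw [sub_zero] at this
  exact this.congr fun L => sub_sub_cancel _ _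

end

end Vale.Agent.P352X.ZZ.BX
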