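import Vale.Agent.P352X.R.BB.Rate
import Vale.Agent.P352Z.R.BB.SpecL
import Vale.Agent.P352Z.Api1C

/-!
# P352Z, row BB.kt: small `p_b` for `K r`, covariance of `KS`
-/

set_option linter.all false

open MeasureTheory Filter Topology
open scoped SchwartzMap ComplexConjugate ENNReal ContDiff

namespace Vale.Agent.P352X.ZZ.BX

open Vale.Agent.P352 Vale.Agent.P352.GF Vale.Agent.P352.BW Vale.Agent.P352.H246
open Vale.Agent.P352.H496 Vale.Agent.P352.H755 Vale.Agent.P352.H15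
open Vale.Agent.P352X.BX.Rate (sq_le lip_le nrt_eq)
open Vale.Agent.P352X.BX.Ktp (xS_tsl qS_tsl)
open UniformSpace (Completion)
open Complex (I)
open KDa (dS)

noncomputable section

variable {D : Type*} [NormedAddCommGroup D] [InnerProductSpace ℂ D] {c : Ctx D}

/-- the generators of the translations on covariant distributions -/
theorem gn_tr0 {Θ : Sch →L[ℂ] Completion D} (h : Two.Tr c Θ) (y : V) (f : Sch) :
    Gn (fun t => Ut c.Q (t • y)) (Θ f) (I • Θ (dS y f)) := by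
  have K : H746.Crv (fun _ => 1) (fun _ => GF.one) (fun t => t • -y) 0 0 (-y) :=
    ⟨rfl, rfl, zero_smul _ _, fun _ => one_pos, fun _ => H496.isLor_one, hasDerivAt_const _ _,
      fun _ _ => hasDerivAt_const _ _, fun n => by
        simpa using (hasDerivAt_id (0 : ℝ)).mul_const (-y n)⟩
  have q := K.der ((Θ ∘L toSchL).restrictScalars ℝ) (ofSch f)
  have e1 : ∀ t, toSchL (K.cs (ofSch f) t) = ST.tsl (t • y) f := fun t => by
    ext z
    show K.cs (ofSch f) t (WithLp.toLp 2 z) = _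
    rw [H746.Crv.cs, simS_apply, ST.tsl_apply, H755.sim_one', smul_neg, ← sub_eq_add_neg]
    rfl
  have e2 : toSchL (H746.vfS 0 0 (-y) (ofSch f)) = -dS y f := by
    ext z
    have a := congrFun (H746.fl_vfS (X := fun _ => -y) (w := 0) (r := 0) (c := -y)
      (fun z n => by simp) (ofSch f)) z
    have b := congrFun (KDa.ev_dS y f) z
    refine a.trans (((congrArg Neg.neg b).trans ?_).symm)
    simp only [H746.vf, dv, Pi.neg_apply, Complex.ofReal_neg, neg_mul, Finset.sum_neg_distrib]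
    rfl
  simp only [ContinuousLinearMap.coe_restrictScalars', ContinuousLinearMap.comp_apply, e1, e2,
    h _ f, map_neg] at q
  rwa [Gn, smul_smul, Complex.I_mul_I, neg_one_smul]

namespace Ktp

/-! ## small `p_b` -/

/-- the functions of `P` commute with `K` -/
lemma P_K (c : Ctx D) {A : Set ℝ} (hA : MeasurableSet A) (t : ℝ) :
    c.bt.P (be ⁻¹' A) * c.SK t = c.SK t * c.bt.P (be ⁻¹' A) := by
  have e : ∀ v, c.bt.P (be ⁻¹' A) v = c.kc.Phi (fun q => A.indicator (fun _ => (1 : ℂ)) q.2.2) v :=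
    fun v => ((Kin.common_P c.kc c.hS.toGrp0 null_va c.ct).1 _ (SN.Bd.ind hA) v).symm
  ext v
  rw [ContinuousLinearMap.mul_apply, ContinuousLinearMap.mul_apply, e, e, c.SK_Phi, c.SK_Phi]
  exact c.kc.comm ((SN.Bd.ind hA).comp (by fun_prop)) (SN.Bd.expI (by fun_prop)) v

/-- the pigeonhole bound -/
lemma pig (c : Ctx D) {ξ : Completion D} {Λ t : ℝ} (h0 : 0 < t) (h1 : t ≤ 1)
    (h : ∀ s, ‖Mi c.Q 0 s ξ - ξ‖ ≤ Λ * |s|) :
    ‖c.bt.P {p | al p ≤ t ^ 20 ∧ t ^ 4 ≤ be p} ξ‖ ≤ ‖ξ‖ * t + 8 * Λ * t := by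
  have hΛ : 0 ≤ Λ := by simpa using (norm_nonneg _).trans (h 1)
  have hN : 0 < ⌈t⁻¹ ^ 2⌉₊ := Nat.ceil_pos.2 (by positivity)
  have hN2 : (⌈t⁻¹ ^ 2⌉₊ : ℝ) ≤ 2 * t⁻¹ ^ 2 := by
    linarith [Nat.ceil_lt_add_one (sq_nonneg t⁻¹), one_le_pow₀ (n := 2) ((one_le_inv₀ h0).2 h1)]
  refine (Kin.pig c.bR c.ct null_vb null_va al_va (al_ex 0) (be_ex 0) (by simp [md_ex, -tx_0])
    (ρ := t ^ 20) (lam := t ^ 4) (σ := 2 * t ^ 8) (Λ := 2 * Λ) (by positivity) (by positivity)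
    (by linarith [pow_pos h0 20]) (w := ξ) (fun s hs => ?_) hN).trans (add_le_add ?_ ?_)
  · rw [← nrt_eq]
    refine (h _).trans_eq ?_
    rw [abs_of_nonneg (by positivity)]
    ring
  · rw [← inv_inv t, ← div_eq_mul_inv, inv_inv]
    exact div_le_div_of_nonneg_left (norm_nonneg _) (inv_pos.2 h0)
      (Real.le_sqrt_of_sq_le (Nat.le_ceil _))
  · calc _ ≤ 2 * Λ * (2 * t⁻¹ ^ 2 * (2 * t ^ 8)) := by gcongr
      _ = 8 * Λ * t ^ 6 := by field_simp; ring
      _ ≤ _ := mul_le_mul_of_nonneg_left (pow_le_of_le_one h0.le h1 (by norm_num)) (by positivity)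

lemma le_sq {t : ℝ} (h0 : 0 < t) (h1 : t ≤ 1) : t ≤ Real.sqrt t :=
  Real.le_sqrt_of_sq_le (pow_le_of_le_one h0.le h1 two_ne_zero)

/-- small `p_b` for `K r` -/
theorem rate (g : GRP c) {r ξ ζ a b : Completion D} {n t : ℝ} (d1 : Gn c.SK r ξ)
    (d2 : Gn c.SK ξ ζ) (ha : Gn (Mi c.Q 0) r a) (hb : Gn (Mi c.Q 0) a b) (n1 : ‖ξ‖ ≤ n)
    (n2 : ‖ζ‖ ≤ n) (n3 : ‖b‖ ≤ n) (h0 : 0 < t) (h1 : t ≤ 1)
    (n4 : ‖c.bt.P {p | be p < t ^ 4} r‖ ≤ t * n) :
    ‖c.bt.P {p | al p < t ^ 20} ξ‖ ≤ 10 * (Real.sqrt t * n) := by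
  have n0 : 0 ≤ n := (norm_nonneg _).trans n1
  have hA : MeasurableSet {p | be p < t ^ 4} := measurableSet_lt meas_be measurable_const
  have hB : MeasurableSet {p | al p ≤ t ^ 20 ∧ t ^ 4 ≤ be p} :=
    (measurableSet_le meas_al measurable_const).inter (measurableSet_le measurable_const meas_be)
  have sa : star (c.bt.P {p | be p < t ^ 4}) = c.bt.P {p | be p < t ^ 4} :=
    ContinuousLinearMap.ext fun v => ext_inner_right ℂ fun w => by
      rw [star_inner, SN.Calc.P_adj hA]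
  have a1 := sq_le c.ugK d1 d2 (A := c.bt.P {p | be p < t ^ 4}) fun s => by
    have := P_K c (measurableSet_Iio (a := t ^ 4)) s
    rw [sa, mul_assoc]
    exact (congrArg _ this).trans (by rw [← mul_assoc, ← mul_assoc]; exact congrArg (· * _) this)
  rw [sa, SN.Calc.P_P hA hA, Set.inter_self] at a1
  have a2 := abs_le_of_sq_le_sq' (b := Real.sqrt t * n) (a1.trans ((mul_le_mul n2 n4
    (norm_nonneg _) n0).trans_eq (by rw [mul_pow, Real.sq_sqrt h0.le]; ring))) (by positivity)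
  have a3 := pig c h0 h1 (Λ := n) fun s => (abs_le_of_sq_le_sq' ((lip_le c.ugK (g.ugM 0)
    (fun _ _ => g.ga_S _ _) d1 d2 ha hb s).trans ((mul_le_mul n2 (mul_le_mul_of_nonneg_right
      (mul_le_mul_of_nonneg_right n3 (abs_nonneg s)) (abs_nonneg s)) (by positivity) n0).trans_eq
        (by ring))) (by positivity)).2
  refine (SN.Calc.norm_P_mono (measurableSet_lt meas_al measurable_const) (hA.union hB)
    (.of_forall fun p hp => (lt_or_ge (be p) (t ^ 4)).imp id fun q => ⟨le_of_lt hp, q⟩)).trans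
    ((Vale.Agent.P352X.Br.norm_P_union _ hA hB _).trans ?_)
  have a4 := mul_le_mul_of_nonneg_right n1 h0.le
  have a5 := mul_le_mul_of_nonneg_right (le_sq h0 h1) n0
  linarith [a2.2]

/-! ## covariant distributions in the domains of `M_i` -/

/-- translation covariant, in the domains of `M_i` -/
structure Wm (c : Ctx D) (Θ : Sch →L[ℂ] Completion D) : Prop where
  tr : Two.Tr c Θ
  mi : ∀ i f, Dm (Mi c.Q i) (Θ f)

variable {Θ : Sch →L[ℂ] Completion D}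

lemma Wm.pa (h : Wm c Θ) (f : Sch) : Dm (Pa c.Q) (Θ f) := (gn_tr0 h.tr va f).dm

lemma wm_mt (h : Mt c Θ) : Wm c Θ := ⟨h.tr, fun i f => ((h.mi i).choose_spec.choose_spec.2 f).1.dm⟩

lemma gn_ex0 {W : ℝ → Completion D →L[ℂ] Completion D} {x : ℕ → Completion D} (n : ℕ) (l : ℝ)
    (h : ∀ j, Dm W (x j)) : Gn W (ex0 n l x) (ex0 n l fun j => gen W (x j)) :=
  Gn.sum _ fun j _ => (h j).gn.smul _

lemma wm_ex0 {Λ : ℕ → Sch →L[ℂ] Completion D} (n : ℕ) (l : ℝ) (h : ∀ j, Wm c (Λ j)) :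
    Wm c (ex0 n l Λ) :=
  ⟨fun y f => by simp only [ex0_apply, Two.ex0_map, fun j => (h j).tr y f], fun i f => by
    rw [ex0_apply]
    exact (gn_ex0 n l fun j => (h j).mi i f).dm⟩

lemma KS_ex0 {Λ : ℕ → Sch →L[ℂ] Completion D} (n : ℕ) (l : ℝ) (h : ∀ j, Wm c (Λ j)) {f : Sch}
    (d : ∀ j, Dm c.SK (Λ j f)) : KS c (ex0 n l Λ) f = ex0 n l fun j => KS c (Λ j) f := by
  simp only [KS, K3, ex0_apply, (gn_ex0 n l d).gen_eq, Two.ex0_plus, Two.ex0_sub, Two.ex0_smul,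
    fun i u => (gn_ex0 n l fun j => (h j).mi i u).gen_eq, Two.ex0_sum',
    fun u => (gn_ex0 n l fun j => (h j).pa u).gen_eq]

lemma KS_zero : KS c Θ 0 = 0 := by simp [KS, K3, gen_zero]

lemma KS_add (h : Wm c Θ) {f f' : Sch} (d : Dm c.SK (Θ f)) (d' : Dm c.SK (Θ f')) :
    KS c Θ (f + f') = KS c Θ f + KS c Θ f' := by
  simp only [KS, K3, map_add, gen_add d d', gen_add (h.mi _ _) (h.mi _ _),
    gen_add (h.pa _) (h.pa _), Finset.sum_add_distrib, smul_add]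
  abel

lemma KS_sum (h : Wm c Θ) {ι : Type*} (J : Finset ι) {f : ι → Sch} (d : ∀ j, Dm c.SK (Θ (f j))) :
    KS c Θ (∑ j ∈ J, f j) = ∑ j ∈ J, KS c Θ (f j) := by
  classical
  induction J using Finset.induction_on with
  | empty => simpa using KS_zero
  | insert j J hj ih =>
    rw [Finset.sum_insert hj, Finset.sum_insert hj, KS_add h (d j) (by
      rw [_root_.map_sum]
      exact Dm.sum _ fun j _ => d j), ih]

/-! ## transverse translations -/

section tr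

variable (g : GRP c) (y : R2) {ψ χ w k m p : Completion D}
include g

lemma gn_P_ut (a : V) (h : Gn (Pa c.Q) ψ p) : Gn (Pa c.Q) (Ut c.Q a ψ) (Ut c.Q a p) :=
  h.comm fun t => g.ut_comm _ _

lemma gn_M_ut (i : Fin 2) (h : Gn (Mi c.Q i) ψ m) (h' : Gn (Pa c.Q) ψ p) :
    Gn (Mi c.Q i) (Ut c.Q (tv y) ψ) (Ut c.Q (tv y) (m + ((y i : ℝ) : ℂ) • p)) := by
  have h1 : Gn (fun t => Pa c.Q (y i * t)) ψ (y i • p) :=
    h'.scale (ContinuousLinearMap.id ℂ _) (y i) fun _ => rfl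
  have h2 := (g.ugPa.scale (y i)).gn_mul h1 (by rw [(g.ugM i).zero']; rfl) h
  refine (h2.map (W' := Mi c.Q i) (Ut c.Q (tv y)) fun t => ?_).cast rfl (by
    rw [add_comm, Complex.coe_smul])
  have e : gap (t • e2 i) (tv y) = tv y + (y i * t) • va :=
    null_ext (by simp [d2_smul_l, mul_comm]) (by simp) (by simp)
  have := DFunLike.congr_fun (g.ga_ut (t • e2 i) (tv y)) ψ
  rw [e, g.ut] at this
  exact this

lemma gn_K_ut (G : GEN c) (h : Dm c.SK ψ) (hM : ∀ i, Dm (Mi c.Q i) ψ) (hP : Dm (Pa c.Q) ψ) :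
    Gn c.SK (Ut c.Q (tv y) ψ) (Ut c.Q (tv y) (gen c.SK ψ +
      ∑ i, ((2 * y i : ℝ) : ℂ) • gen (Mi c.Q i) ψ + ((d2 y y : ℝ) : ℂ) • gen (Pa c.Q) ψ)) := by
  have := (g.gn_Ky _).1 (G.ky (-y) ψ h hM hP)
  rw [tv_neg, neg_neg] at this
  refine this.cast rfl ?_
  congr 1
  simp only [Pi.neg_apply, mul_neg, Complex.ofReal_neg, neg_smul, Finset.sum_neg_distrib,
    sub_neg_eq_add, d2_neg, d2_neg_l, neg_neg, Complex.coe_smul]

end tr

/-- `KS` is covariant under the transverse translations -/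
theorem KS_tsl (g : GRP c) (G : GEN c) (h : Wm c Θ) (y : R2) {f : Sch} (d : Dm c.SK (Θ f)) :
    KS c Θ (ST.tsl (tv y) f) = Ut c.Q (tv y) (KS c Θ f) := by
  have hM := h.mi
  have hP := h.pa
  have e1 := (gn_K_ut g y G d (fun i => hM i f) (hP f)).gen_eq
  have e2 := fun i => (gn_M_ut g y i ((hM i (xS i f)).gn.add ((hM i f).gn.smul (y i : ℝ)))
    ((hP (xS i f)).gn.add ((hP f).gn.smul (y i : ℝ)))).gen_eq
  have e3 := (gn_P_ut g (tv y) (((hP (qS f)).gn.add (((hP (xS 0 f)).gn.smul (2 * y 0 : ℝ)).add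
    ((hP (xS 1 f)).gn.smul (2 * y 1 : ℝ)))).add ((hP f).gn.smul (d2 y y : ℝ)))).gen_eq
  simp only [KS, K3, xS_tsl, qS_tsl, h.tr _, map_add Θ, map_smul Θ, e1, e2, e3]
  rw [← _root_.map_sum, ← map_smul, ← map_sub, ← map_add]
  congr 1
  simp only [Fin.sum_univ_two, d2]
  push_cast
  module

/-! ## scalings -/

section sc

variable (g : GRP c) {s : ℝ} (hs : 0 < s) {ψ k : Completion D}
include g hs

lemma gn_K_sc (h : Gn c.SK ψ k) : Gn c.SK (Usc c.Q 1 s ψ) (s • Usc c.Q 1 s k) :=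
  h.scale _ s fun t => by
    have := DFunLike.congr_fun (g.sc_S 1 s (s * t) one_pos hs) ψ
    rw [mul_div_cancel_left₀ _ hs.ne'] at this
    exact this.symm

lemma gn_M_sc (i : Fin 2) (h : Gn (Mi c.Q i) ψ k) :
    Gn (Mi c.Q i) (Usc c.Q 1 s ψ) (Real.sqrt s • Usc c.Q 1 s k) :=
  h.scale _ _ fun t => by
    have := DFunLike.congr_fun (g.sc_ga 1 s ((Real.sqrt s * t) • e2 i) one_pos hs) ψ
    rw [smul_smul, one_div, Real.sqrt_inv, inv_mul_cancel_left₀ (Real.sqrt_pos.2 hs).ne'] at this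
    exact this.symm

lemma gn_P_sc (h : Gn (Pa c.Q) ψ k) : Gn (Pa c.Q) (Usc c.Q 1 s ψ) (Usc c.Q 1 s k) :=
  h.comm fun t => by
    rw [Pa, g.sc_ut _ _ _ one_pos hs]
    congr 2
    exact null_ext (by simp) (by simp) (by simp)

lemma pb_sc (u : ℝ) (v : Completion D) :
    Pb c.Q u (Usc c.Q 1 s v) = Usc c.Q 1 s (Pb c.Q (u / s) v) := by
  have := DFunLike.congr_fun (g.sc_ut 1 s ((u / s) • vb) one_pos hs) v
  rw [show scp 1 s ((u / s) • vb) = u • vb from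
    null_ext (by simp) (by simp [mul_div_cancel₀ _ hs.ne']) (by simp)] at this
  exact this.symm

end sc

/-- `KS` is covariant under the scalings `sc(1, s)` -/
theorem KS_sc (g : GRP c) (h : Wm c Θ) {s : ℝ} (hs : 0 < s) {ψ : Sch →L[ℂ] Completion D} {a : ℂ}
    (h0 : ∀ F f : Sch, (∀ z, f z = F (scp 1 s z)) → ψ F = a • Usc c.Q 1 s (Θ f)) {F f : Sch}
    (e : ∀ z, f z = F (scp 1 s z)) (d : Dm c.SK (Θ f)) :
    KS c ψ F = (a * s) • Usc c.Q 1 s (KS c Θ f) := by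
  have hq := Real.sqrt_pos.2 hs
  have hq2 : ((Real.sqrt s : ℝ) : ℂ) * (Real.sqrt s : ℝ) = s := by
    rw [← Complex.ofReal_mul, Real.mul_self_sqrt hs.le]
  have e1 := ((gn_K_sc g hs d.gn).smul a).gen_eq
  have e2 := fun i => ((gn_M_sc g hs i ((h.mi i (xS i f)).gn.smul
    (Real.sqrt s : ℝ))).smul a).gen_eq
  have e3 := ((gn_P_sc g hs ((h.pa (qS f)).gn.smul (s : ℝ))).smul a).gen_eq
  have f2 : ∀ i, ψ (xS i F) = a • Usc c.Q 1 s (((Real.sqrt s : ℝ) : ℂ) • Θ (xS i f)) := fun i => by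
    rw [← map_smul Θ]
    refine h0 _ _ fun z => ?_
    simp only [SchwartzMap.smul_apply, xS_apply, e, tx_scp, one_mul, Pi.smul_apply, smul_eq_mul]
    push_cast
    ring
  have f3 : ψ (qS F) = a • Usc c.Q 1 s (((s : ℝ) : ℂ) • Θ (qS f)) := by
    rw [← map_smul Θ]
    refine h0 _ _ fun z => ?_
    simp only [SchwartzMap.smul_apply, qS_apply, e, tx_scp, one_mul, d2_smul, d2_smul_l,
      smul_eq_mul]
    push_cast
    linear_combination (-(d2 (tx z) (tx z) : ℂ) * F (scp 1 s z)) * hq2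
  simp only [KS, K3, h0 _ _ e, f2, f3, e1, e2, e3]
  simp only [Fin.sum_univ_two, map_add, map_sub, map_smul, ← Complex.coe_smul, smul_smul, hq2]
  module

end Ktp

end

end Vale.Agent.P352X.ZZ.BX
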